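import Crest.Agent.R309.DefsA
import Crest.Agent.QC.BT

/-!
Row 309, part B: random numbers as tapes, iterated random steps, concentration, and the Metropolis
kernel with a general acceptance function.
-/

set_option autoImplicit false

namespace Crest.Agent.R309

open Finset Crest.Agent.QC

/-- average over a uniform `c`-bit number -/
noncomputable def Av (c : ℕ) (f : ℕ → ℝ) : ℝ := (∑ u ∈ range (2 ^ c), f u) / 2 ^ c

open Classical in
/-- probability over a uniform `c`-bit number -/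
noncomputable def Pb (c : ℕ) (E : ℕ → Prop) : ℝ := Av c (fun u => if E u then 1 else 0)

/-- `T` random steps; step `i` reads the `b` bits of `u` from position `i * b`. -/
def iterN {X : Type} (b : ℕ) (σ : X → ℕ → X) (x₀ : X) (u : ℕ) : ℕ → X
  | 0 => x₀
  | i + 1 => σ (iterN b σ x₀ u i) (fld u (i * b) b)

/-- the operator of one random step -/
noncomputable def Kt {X : Type} (b : ℕ) (σ : X → ℕ → X) (φ : X → ℝ) (x : X) : ℝ :=
  Av b (fun v => φ (σ x v))

open Classical in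
/-- number of successes among `N` independent trials -/
noncomputable def cnt (b N : ℕ) (β : ℕ → Prop) (u : ℕ) : ℕ :=
  ∑ i ∈ range N, if β (fld u (i * b) b) then 1 else 0

section Box

variable {κ : Type} [Fintype κ] [DecidableEq κ]

/-- Off-diagonal part of the lazy kernel with acceptance function `ac`. -/
noncomputable def offA (u h : κ → ℕ) (A : ℝ) (ac : (κ → ℕ) → (κ → ℕ) → ℝ) (x y : κ → ℕ) : ℝ :=
  ∑ k, ∑ d ∈ Icc 1 (h k),
    if y ∈ box u ∧ (y = x + Pi.single k d ∨ x = y + Pi.single k d) then ac x y / (4 * A * h k) else 0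

/-- the full kernel -/
noncomputable def kerA (u h : κ → ℕ) (A : ℝ) (ac : (κ → ℕ) → (κ → ℕ) → ℝ) (x y : κ → ℕ) : ℝ :=
  if y = x then 1 - ∑ z ∈ box u, offA u h A ac x z else offA u h A ac x y

end Box

theorem anchorB : True := by
  have := @Av.eq_1; have := @Pb.eq_1; have := @iterN.eq_def; have := @iterN.eq_1; have := @iterN.eq_2
  have := @Kt.eq_1; have := @cnt.eq_1; have := @offA.eq_1; have := @kerA.eq_1; have := @fld.eq_1
  trivial

/-- **AV**. Basic facts (also state each as a separate reusable lemma in namespace `R309`, plus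
linearity, monotonicity, `Av_const`, `Pb` union bound / complement / monotonicity). -/
def AvStmt : Prop :=
  (∀ (a b : ℕ) (f : ℕ → ℕ → ℝ),
    Av (a + b) (fun u => f (u % 2 ^ a) (u / 2 ^ a)) = Av a (fun x => Av b (fun y => f x y))) ∧
  (∀ (c s k : ℕ) (f : ℕ → ℝ), s + k ≤ c → Av c (fun u => f (fld u s k)) = Av k f) ∧
  (∀ (c s k s' k' : ℕ) (f : ℕ → ℕ → ℝ), s + k ≤ s' → s' + k' ≤ c →
    Av c (fun u => f (fld u s k) (fld u s' k')) = Av k (fun x => Av k' (fun y => f x y))) ∧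
  (∀ c m : ℕ, m ≤ 2 ^ c → Pb c (fun u => u < m) = m / 2 ^ c)

/-- **ITR** (uses AV). (1) the law of an iteration; (2) invariants that hold surely; (3) union
bound over the steps. `iterN … u T` only depends on `u % 2^(T*b)`. -/
def ItrStmt : Prop :=
  ∀ (X : Type) (b : ℕ) (σ : X → ℕ → X) (x₀ : X) (T c : ℕ), T * b ≤ c →
    (∀ φ : X → ℝ, Av c (fun u => φ (iterN b σ x₀ u T)) = (Kt b σ)^[T] φ x₀) ∧
    (∀ Inv : ℕ → X → Prop, Inv 0 x₀ → (∀ i < T, ∀ x v, v < 2 ^ b → Inv i x → Inv (i + 1) (σ x v)) →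
      ∀ u, Inv T (iterN b σ x₀ u T)) ∧
    (∀ (Good : ℕ → X → Prop) (δ : ℝ), Good 0 x₀ →
      (∀ i < T, ∀ x, Good i x → Pb b (fun v => ¬ Good (i + 1) (σ x v)) ≤ δ) →
      Pb c (fun u => ¬ Good T (iterN b σ x₀ u T)) ≤ T * δ)

/-- **HOE** (uses AV). Exponential moments: for `|t| ≤ 1`, `E e^{t(X-μ)} ≤ 1 + t² ≤ e^{t²}`
(`e^x ≤ 1 + x + x²` for `|x| ≤ 1`), independence by induction on `N`, Markov with `t = ± ξ/2`. -/
def HoeStmt : Prop :=
  ∀ (b N c : ℕ) (β : ℕ → Prop) (ξ : ℝ), N * b ≤ c → 0 < ξ → ξ ≤ 1 →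
    Pb c (fun u => N * ξ < |(cnt b N β u : ℝ) - N * Pb b β|) ≤ 2 * Real.exp (-(N * ξ ^ 2 / 4))

/-- **KRA** (replaces KER). The kernel is stochastic, lazy, reversible, with a large Dirichlet form
(`offA x x = 0`; each `x` has at most two neighbours for given `k, d`). -/
def KraStmt : Prop :=
  ∀ (κ : Type) [Fintype κ] [DecidableEq κ] (u h : κ → ℕ) (A : ℝ) (π : (κ → ℕ) → ℝ)
    (ac : (κ → ℕ) → (κ → ℕ) → ℝ),
    (Fintype.card κ : ℝ) ≤ A → 0 < A → (∀ x ∈ box u, 0 < π x) → (∀ k, 1 ≤ h k) →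
    (∀ x ∈ box u, ∀ y ∈ box u, 0 ≤ ac x y ∧ ac x y ≤ 1 ∧ π x * ac x y = π y * ac y x ∧
      min (π x) (π y) ≤ 2 * (π x * ac x y)) →
    (∀ x ∈ box u, ∀ y ∈ box u,
      0 ≤ kerA u h A ac x y ∧ π x * kerA u h A ac x y = π y * kerA u h A ac y x) ∧
    (∀ x ∈ box u, ∑ y ∈ box u, kerA u h A ac x y = 1 ∧ 1 / 2 ≤ kerA u h A ac x x) ∧
    ∀ f : (κ → ℕ) → ℝ, (∑ k, (∑ d ∈ Icc 1 (h k), Ed u π f k d) / h k) ≤
      4 * A * ∑ x ∈ box u, ∑ y ∈ box u, π x * kerA u h A ac x y * (f x - f y) ^ 2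

end Crest.Agent.R309
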