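import Crest.Agent.R309.DefsB

/-!
Row 309: basic facts on averages over random bit strings.
-/

set_option autoImplicit false

namespace Crest.Agent.R309

open Finset Crest.Agent.QC

theorem sum_range_mul_mod_div (m n : ℕ) (f : ℕ → ℕ → ℝ) :
    ∑ u ∈ range (m * n), f (u % m) (u / m) = ∑ x ∈ range m, ∑ y ∈ range n, f x y := by
  induction n with
  | zero => simp
  | succ n ih =>
    rw [Nat.mul_succ, sum_range_add, ih, ← sum_add_distrib]
    refine sum_congr rfl fun x hx => ?_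
    have hx' : x < m := mem_range.1 hx
    rw [sum_range_succ, Nat.mul_add_mod, Nat.mod_eq_of_lt hx',
      Nat.mul_add_div (by omega), Nat.div_eq_of_lt hx', add_zero]

theorem two_pow_pos' (c : ℕ) : (0 : ℝ) < 2 ^ c := by positivity

theorem Av_congr {c : ℕ} {f g : ℕ → ℝ} (h : ∀ u < 2 ^ c, f u = g u) : Av c f = Av c g := by
  unfold Av
  rw [sum_congr rfl fun u hu => h u (mem_range.1 hu)]

@[simp] theorem Av_const (c : ℕ) (a : ℝ) : Av c (fun _ => a) = a := by
  unfold Av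
  rw [sum_const, card_range, nsmul_eq_mul]
  have := two_pow_pos' c
  push_cast
  field_simp

theorem Av_zero (f : ℕ → ℝ) : Av 0 f = f 0 := by
  simp [Av]

theorem Av_add (c : ℕ) (f g : ℕ → ℝ) : Av c (fun u => f u + g u) = Av c f + Av c g := by
  unfold Av
  rw [sum_add_distrib, add_div]

theorem Av_sub (c : ℕ) (f g : ℕ → ℝ) : Av c (fun u => f u - g u) = Av c f - Av c g := by
  unfold Av
  rw [sum_sub_distrib, sub_div]

theorem Av_neg (c : ℕ) (f : ℕ → ℝ) : Av c (fun u => - f u) = - Av c f := by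
  unfold Av
  rw [sum_neg_distrib, neg_div]

theorem Av_const_mul (c : ℕ) (a : ℝ) (f : ℕ → ℝ) : Av c (fun u => a * f u) = a * Av c f := by
  unfold Av
  rw [← mul_sum, mul_div_assoc]

theorem Av_mul_const (c : ℕ) (a : ℝ) (f : ℕ → ℝ) : Av c (fun u => f u * a) = Av c f * a := by
  unfold Av
  rw [← sum_mul, mul_div_right_comm]

theorem Av_div_const (c : ℕ) (a : ℝ) (f : ℕ → ℝ) : Av c (fun u => f u / a) = Av c f / a := by
  simp only [div_eq_mul_inv]
  exact Av_mul_const c a⁻¹ f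

theorem Av_sum {ι : Type*} (c : ℕ) (s : Finset ι) (f : ι → ℕ → ℝ) :
    Av c (fun u => ∑ i ∈ s, f i u) = ∑ i ∈ s, Av c (f i) := by
  unfold Av
  rw [sum_comm, sum_div]

theorem Av_mono {c : ℕ} {f g : ℕ → ℝ} (h : ∀ u < 2 ^ c, f u ≤ g u) : Av c f ≤ Av c g := by
  unfold Av
  exact div_le_div_of_nonneg_right (sum_le_sum fun u hu => h u (mem_range.1 hu))
    (two_pow_pos' c).le

theorem Av_nonneg {c : ℕ} {f : ℕ → ℝ} (h : ∀ u < 2 ^ c, 0 ≤ f u) : 0 ≤ Av c f := by
  have := Av_mono (c := c) (f := fun _ => 0) (g := f) h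
  rwa [Av_const] at this

theorem Av_le_const {c : ℕ} {f : ℕ → ℝ} {a : ℝ} (h : ∀ u < 2 ^ c, f u ≤ a) : Av c f ≤ a := by
  have := Av_mono (c := c) (f := f) (g := fun _ => a) h
  rwa [Av_const] at this

theorem const_le_Av {c : ℕ} {f : ℕ → ℝ} {a : ℝ} (h : ∀ u < 2 ^ c, a ≤ f u) : a ≤ Av c f := by
  have := Av_mono (c := c) (f := fun _ => a) (g := f) h
  rwa [Av_const] at this

theorem abs_Av_le (c : ℕ) (f : ℕ → ℝ) : |Av c f| ≤ Av c (fun u => |f u|) := by
  rw [abs_le]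
  constructor
  · rw [← Av_neg]
    exact Av_mono fun u _ => neg_abs_le _
  · exact Av_mono fun u _ => le_abs_self _

theorem Av_comm (a b : ℕ) (f : ℕ → ℕ → ℝ) :
    Av a (fun x => Av b (fun y => f x y)) = Av b (fun y => Av a (fun x => f x y)) := by
  unfold Av
  simp only [← sum_div]
  rw [sum_comm, div_right_comm]

theorem Av_split (a b : ℕ) (f : ℕ → ℕ → ℝ) :
    Av (a + b) (fun u => f (u % 2 ^ a) (u / 2 ^ a)) = Av a (fun x => Av b (fun y => f x y)) := by
  unfold Av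
  rw [pow_add 2 a b, sum_range_mul_mod_div, ← sum_div, div_div, pow_add, mul_comm ((2 : ℝ) ^ a)]

theorem Av_mod {c k : ℕ} (h : k ≤ c) (f : ℕ → ℝ) : Av c (fun u => f (u % 2 ^ k)) = Av k f := by
  obtain ⟨r, rfl⟩ := Nat.exists_eq_add_of_le h
  have := Av_split k r (fun x _ => f x)
  simpa using this

theorem Av_div (s r : ℕ) (f : ℕ → ℝ) : Av (s + r) (fun u => f (u / 2 ^ s)) = Av r f := by
  have := Av_split s r (fun _ y => f y)
  simpa using this

theorem fld_lt (u s k : ℕ) : fld u s k < 2 ^ k := Nat.mod_lt _ (by positivity)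

theorem fld_zero (u k : ℕ) : fld u 0 k = u % 2 ^ k := by simp [fld]

theorem fld_mod {s k s' : ℕ} (h : s + k ≤ s') (u : ℕ) : fld (u % 2 ^ s') s k = fld u s k := by
  obtain ⟨r, rfl⟩ := Nat.exists_eq_add_of_le h
  unfold fld
  rw [add_assoc, pow_add 2 s, Nat.mod_mul_right_div_self, Nat.mod_mod_of_dvd]
  exact pow_dvd_pow 2 (by omega)

theorem fld_div (u s t k : ℕ) : fld (u / 2 ^ s) t k = fld u (s + t) k := by
  unfold fld
  rw [Nat.div_div_eq_div_mul, pow_add]

theorem fld_fld {t k k' : ℕ} (h : t + k ≤ k') (u s : ℕ) :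
    fld (fld u s k') t k = fld u (s + t) k := by
  rw [← fld_div]
  exact fld_mod h _

theorem Av_fld {c s k : ℕ} (h : s + k ≤ c) (f : ℕ → ℝ) :
    Av c (fun u => f (fld u s k)) = Av k f := by
  obtain ⟨r, rfl⟩ := Nat.exists_eq_add_of_le h
  rw [add_assoc]
  unfold fld
  rw [Av_div s (k + r) (fun y => f (y % 2 ^ k)), Av_mod (by omega)]

/-- a function of the low `s` bits and of a field above them -/
theorem Av_mod_fld {c s k : ℕ} (h : s + k ≤ c) (f : ℕ → ℕ → ℝ) :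
    Av c (fun u => f (u % 2 ^ s) (fld u s k)) = Av s (fun x => Av k (fun y => f x y)) := by
  obtain ⟨r, rfl⟩ := Nat.exists_eq_add_of_le h
  rw [add_assoc]
  unfold fld
  rw [Av_split s (k + r) (fun x y => f x (y % 2 ^ k))]
  exact Av_congr fun x _ => Av_mod (by omega) _

theorem Av_fld_fld {c s k s' k' : ℕ} (h : s + k ≤ s') (h' : s' + k' ≤ c) (f : ℕ → ℕ → ℝ) :
    Av c (fun u => f (fld u s k) (fld u s' k')) = Av k (fun x => Av k' (fun y => f x y)) := by
  have e : (fun u => f (fld u s k) (fld u s' k')) =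
      fun u => (fun x y => f (fld x s k) y) (u % 2 ^ s') (fld u s' k') := by
    funext u
    simp only [fld_mod h]
  rw [e, Av_mod_fld h' (fun x y => f (fld x s k) y), Av_fld h (fun x => Av k' (fun y => f x y))]

open Classical in
theorem Pb_eq_card (c : ℕ) (E : ℕ → Prop) :
    Pb c E = (((range (2 ^ c)).filter E).card : ℝ) / 2 ^ c := by
  unfold Pb Av
  rw [sum_boole]

theorem Pb_lt {c m : ℕ} (h : m ≤ 2 ^ c) : Pb c (fun u => u < m) = m / 2 ^ c := by
  classical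
  rw [Pb_eq_card]
  congr 2
  refine Eq.trans ?_ (card_range m)
  congr 1
  ext u
  simp only [mem_filter, mem_range]
  omega

theorem Pb_congr {c : ℕ} {E E' : ℕ → Prop} (h : ∀ u < 2 ^ c, E u ↔ E' u) : Pb c E = Pb c E' := by
  unfold Pb
  refine Av_congr fun u hu => ?_
  by_cases h1 : E u
  · simp [h1, (h u hu).1 h1]
  · have h2 : ¬ E' u := fun h2 => h1 ((h u hu).2 h2)
    simp [h1, h2]

theorem Pb_nonneg (c : ℕ) (E : ℕ → Prop) : 0 ≤ Pb c E := by
  unfold Pb
  refine Av_nonneg fun u _ => ?_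
  split_ifs <;> norm_num

theorem Pb_le_one (c : ℕ) (E : ℕ → Prop) : Pb c E ≤ 1 := by
  unfold Pb
  refine Av_le_const fun u _ => ?_
  split_ifs <;> norm_num

theorem Pb_mono {c : ℕ} {E E' : ℕ → Prop} (h : ∀ u < 2 ^ c, E u → E' u) : Pb c E ≤ Pb c E' := by
  unfold Pb
  refine Av_mono fun u hu => ?_
  have := h u hu
  by_cases h1 : E u
  · simp [h1, this h1]
  · by_cases h2 : E' u <;> simp [h1, h2]

theorem Pb_not (c : ℕ) (E : ℕ → Prop) : Pb c (fun u => ¬ E u) = 1 - Pb c E := by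
  unfold Pb
  rw [← Av_const c 1, ← Av_sub]
  refine Av_congr fun u _ => ?_
  by_cases h : E u <;> simp [h]

theorem Pb_true {c : ℕ} {E : ℕ → Prop} (h : ∀ u < 2 ^ c, E u) : Pb c E = 1 := by
  unfold Pb
  rw [← Av_const c 1]
  refine Av_congr fun u hu => ?_
  simp [h u hu]

theorem Pb_false {c : ℕ} {E : ℕ → Prop} (h : ∀ u < 2 ^ c, ¬ E u) : Pb c E = 0 := by
  unfold Pb
  rw [← Av_const c 0]
  refine Av_congr fun u hu => ?_
  simp [h u hu]

theorem Pb_or_le (c : ℕ) (E E' : ℕ → Prop) : Pb c (fun u => E u ∨ E' u) ≤ Pb c E + Pb c E' := by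
  unfold Pb
  rw [← Av_add]
  refine Av_mono fun u _ => ?_
  by_cases h : E u <;> by_cases h' : E' u <;> simp [h, h']

theorem Pb_le_add {c : ℕ} {E E₁ E₂ : ℕ → Prop} (h : ∀ u < 2 ^ c, E u → E₁ u ∨ E₂ u) :
    Pb c E ≤ Pb c E₁ + Pb c E₂ :=
  (Pb_mono h).trans (Pb_or_le c E₁ E₂)

theorem Pb_and_add_and_not (c : ℕ) (E F : ℕ → Prop) :
    Pb c (fun u => E u ∧ F u) + Pb c (fun u => E u ∧ ¬ F u) = Pb c E := by
  unfold Pb
  rw [← Av_add]
  refine Av_congr fun u _ => ?_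
  by_cases h : E u <;> by_cases h' : F u <;> simp [h, h']

theorem Pb_exists_le {ι : Type*} (c : ℕ) (s : Finset ι) (E : ι → ℕ → Prop) :
    Pb c (fun u => ∃ i ∈ s, E i u) ≤ ∑ i ∈ s, Pb c (E i) := by
  classical
  unfold Pb
  rw [← Av_sum]
  refine Av_mono fun u _ => ?_
  have hn : ∀ i ∈ s, (0 : ℝ) ≤ if E i u then 1 else 0 := fun i _ => by split_ifs <;> norm_num
  split_ifs with h
  · obtain ⟨i, hi, hE⟩ := h
    have := single_le_sum hn hi
    simp only [hE, if_true] at this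
    convert this
  · convert sum_nonneg hn

theorem Pb_fld {c s k : ℕ} (h : s + k ≤ c) (E : ℕ → Prop) :
    Pb c (fun u => E (fld u s k)) = Pb k E := by
  classical
  unfold Pb
  exact Av_fld h (fun v => if E v then 1 else 0)

theorem Pb_mod {c k : ℕ} (h : k ≤ c) (E : ℕ → Prop) :
    Pb c (fun u => E (u % 2 ^ k)) = Pb k E := by
  classical
  unfold Pb
  exact Av_mod h (fun v => if E v then 1 else 0)

/-- conditioning on the low bits -/
theorem Pb_mod_fld {c s k : ℕ} (h : s + k ≤ c) (E : ℕ → ℕ → Prop) :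
    Pb c (fun u => E (u % 2 ^ s) (fld u s k)) = Av s (fun x => Pb k (fun y => E x y)) := by
  classical
  unfold Pb
  exact Av_mod_fld h (fun x y => if E x y then 1 else 0)

theorem Pb_fld_fld {c s k s' k' : ℕ} (h : s + k ≤ s') (h' : s' + k' ≤ c) (E : ℕ → ℕ → Prop) :
    Pb c (fun u => E (fld u s k) (fld u s' k')) = Av k (fun x => Pb k' (fun y => E x y)) := by
  classical
  unfold Pb
  exact Av_fld_fld h h' (fun x y => if E x y then 1 else 0)

/-- Markov's inequality -/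
theorem Pb_le_Av {c : ℕ} {E : ℕ → Prop} {f : ℕ → ℝ} (h0 : ∀ u < 2 ^ c, 0 ≤ f u)
    (h1 : ∀ u < 2 ^ c, E u → 1 ≤ f u) : Pb c E ≤ Av c f := by
  unfold Pb
  refine Av_mono fun u hu => ?_
  split_ifs with h
  · exact h1 u hu h
  · exact h0 u hu

/-- averages of bounded functions that agree outside an event -/
theorem abs_Av_sub_le {c : ℕ} {f g : ℕ → ℝ} {E : ℕ → Prop} {M : ℝ}
    (hM : ∀ u < 2 ^ c, |f u - g u| ≤ M) (h : ∀ u < 2 ^ c, ¬ E u → f u = g u) :
    |Av c f - Av c g| ≤ M * Pb c E := by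
  rw [← Av_sub]
  refine (abs_Av_le _ _).trans ?_
  unfold Pb
  rw [← Av_const_mul]
  refine Av_mono fun u hu => ?_
  split_ifs with hE
  · simpa using hM u hu
  · simp [h u hu hE]

theorem AV_proof : AvStmt :=
  ⟨Av_split, fun _ _ _ f h => Av_fld h f, fun _ _ _ _ _ f h h' => Av_fld_fld h h' f,
    fun _ _ h => Pb_lt h⟩

end Crest.Agent.R309
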