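import Crest.Agent.R309.DefsA

/-! Row 309, task LAM: laminar products of log-concave functions are `L`-functions. -/

set_option autoImplicit false

namespace Crest.Agent.R309

open Finset

namespace LAM

variable {V : Type} [Fintype V] [DecidableEq V]

/-- the criterion of SCH -/
def P (F : (V → ℕ) → ℝ) : Prop :=
  (∀ γ, 0 < F γ) ∧ ∀ γ (x : V → ℝ), Qv F γ x * F γ ≤ Dv F γ x ^ 2

theorem P_one : P (fun _ : V → ℕ => (1 : ℝ)) := by
  refine ⟨fun _ => one_pos, fun γ x => ?_⟩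
  simp only [Qv, Dv, mul_one]
  rw [sq, Finset.sum_mul_sum]

omit [Fintype V] in
theorem sum_ev (A : Finset V) (γ : V → ℕ) (b : V) :
    (∑ a ∈ A, (((γ + ev b : V → ℕ) a : ℕ) : ℤ)) = ∑ a ∈ A, (γ a : ℤ) + if b ∈ A then 1 else 0 := by
  have : ∀ a, (((γ + ev b : V → ℕ) a : ℕ) : ℤ) = (γ a : ℤ) + if a = b then 1 else 0 := by
    intro a
    simp only [Pi.add_apply, ev, Pi.single_apply]
    split_ifs <;> simp
  simp only [this, Finset.sum_add_distrib, Finset.sum_ite_eq']

theorem step (A : Finset V) (G H : (V → ℕ) → ℝ) (χ : ℤ → ℝ) (o : ℤ) (hG : P G) (hH : P H)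
    (hχ : LC χ) (hGA : ∀ α b, b ∉ A → G (α + ev b) = G α)
    (hHA : ∀ α a, a ∈ A → H (α + ev a) = H α) :
    P (fun α => χ ((∑ a ∈ A, (α a : ℤ)) - o) * (G α * H α)) := by
  refine ⟨fun γ => mul_pos (hχ.1 _) (mul_pos (hG.1 _) (hH.1 _)), fun γ x => ?_⟩
  set z : ℤ := (∑ a ∈ A, (γ a : ℤ)) - o with hz
  set xA : V → ℝ := fun a => if a ∈ A then x a else 0 with hxA
  set xB : V → ℝ := fun a => if a ∈ A then 0 else x a with hxB
  have h1 := hG.2 γ xA
  have h2 := hH.2 γ xB
  have hc := hχ.2 (z + 1)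
  rw [add_sub_cancel_right] at hc
  have hD : Dv (fun α => χ ((∑ a ∈ A, (α a : ℤ)) - o) * (G α * H α)) γ x =
      χ (z + 1) * H γ * Dv G γ xA + χ z * G γ * Dv H γ xB := by
    simp only [Dv, Finset.mul_sum, ← Finset.sum_add_distrib]
    refine Finset.sum_congr rfl fun a _ => ?_
    rw [sum_ev]
    by_cases ha : a ∈ A
    · simp only [hxA, hxB, ha, if_true, hHA _ _ ha]
      rw [show (∑ a ∈ A, (γ a : ℤ)) + 1 - o = z + 1 by rw [hz]; ring]
      ring
    · simp only [hxA, hxB, ha, if_false, hGA _ _ ha, add_zero, ← hz]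
      ring
  have hQ : Qv (fun α => χ ((∑ a ∈ A, (α a : ℤ)) - o) * (G α * H α)) γ x =
      χ (z + 1 + 1) * H γ * Qv G γ xA + χ (z + 1) * (Dv G γ xA * Dv H γ xB) +
        χ (z + 1) * (Dv H γ xB * Dv G γ xA) + χ z * G γ * Qv H γ xB := by
    simp only [Dv, Qv]
    rw [Finset.sum_mul_sum, Finset.sum_mul_sum]
    simp only [Finset.mul_sum, ← Finset.sum_add_distrib]
    refine Finset.sum_congr rfl fun a _ => Finset.sum_congr rfl fun b _ => ?_
    rw [sum_ev, sum_ev]
    by_cases ha : a ∈ A <;> by_cases hb : b ∈ A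
    · simp only [hxA, hxB, ha, hb, if_true, hHA _ _ ha, hHA _ _ hb]
      rw [show (∑ a ∈ A, (γ a : ℤ)) + 1 + 1 - o = z + 1 + 1 by rw [hz]; ring]
      ring
    · simp only [hxA, hxB, ha, hb, if_true, if_false, hGA _ _ hb, add_zero]
      rw [show (∑ a ∈ A, (γ a : ℤ)) + 1 - o = z + 1 by rw [hz]; ring,
        show H (γ + ev a + ev b) = H (γ + ev b) by rw [add_right_comm, hHA _ _ ha]]
      ring
    · simp only [hxA, hxB, ha, hb, if_true, if_false, hHA _ _ hb, add_zero]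
      rw [show (∑ a ∈ A, (γ a : ℤ)) + 1 - o = z + 1 by rw [hz]; ring,
        show G (γ + ev a + ev b) = G (γ + ev b) by rw [add_right_comm, hGA _ _ ha]]
      ring
    · simp only [hxA, hxB, ha, hb, if_false, hGA _ _ hb, hGA _ _ ha, add_zero, ← hz]
      ring
  rw [hD, hQ]
  have g0 := hG.1 γ
  have h0 := hH.1 γ
  have c0 := hχ.1 z
  have c2 := hχ.1 (z + 1 + 1)
  show _ * (χ z * (G γ * H γ)) ≤ _
  have e1 : χ z * χ (z + 1 + 1) * H γ ^ 2 * (Qv G γ xA * G γ) ≤
      χ z * χ (z + 1 + 1) * H γ ^ 2 * Dv G γ xA ^ 2 :=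
    mul_le_mul_of_nonneg_left h1 (by positivity)
  have e2 : χ z * χ (z + 1 + 1) * (H γ ^ 2 * Dv G γ xA ^ 2) ≤
      χ (z + 1) ^ 2 * (H γ ^ 2 * Dv G γ xA ^ 2) :=
    mul_le_mul_of_nonneg_right hc (by positivity)
  have e3 : χ z ^ 2 * G γ ^ 2 * (Qv H γ xB * H γ) ≤ χ z ^ 2 * G γ ^ 2 * Dv H γ xB ^ 2 :=
    mul_le_mul_of_nonneg_left h2 (by positivity)
  nlinarith [e1, e2, e3]

omit [Fintype V] in
theorem lamF_indep {ι : Type} (I : Finset ι) (S : ι → Finset V) (χ : ι → ℤ → ℝ) (off : ι → ℤ)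
    (α : V → ℕ) (b : V) (hb : ∀ i ∈ I, b ∉ S i) :
    lamF I S χ off (α + ev b) = lamF I S χ off α := by
  unfold lamF
  refine Finset.prod_congr rfl fun i hi => ?_
  rw [sum_ev, if_neg (hb i hi), add_zero]

theorem P_lamF {ι : Type} (S : ι → Finset V) (χ : ι → ℤ → ℝ) (off : ι → ℤ) (I : Finset ι) :
    Lam I S → (∀ i ∈ I, LC (χ i)) → P (lamF I S χ off) := by
  classical
  induction I using Finset.strongInduction with
  | H I ih =>
    intro hL hχ
    rcases I.eq_empty_or_nonempty with rfl | hne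
    · have : lamF (∅ : Finset ι) S χ off = fun _ => 1 := by
        funext α; simp [lamF]
      rw [this]; exact P_one
    · obtain ⟨i, hi, hmax⟩ := Finset.exists_max_image I (fun j => (S j).card) hne
      set J₁ := (I.erase i).filter (fun j => S j ⊆ S i) with hJ₁
      set J₂ := (I.erase i).filter (fun j => ¬ S j ⊆ S i) with hJ₂
      have s1 : J₁ ⊂ I := lt_of_le_of_lt (Finset.filter_subset _ _) (Finset.erase_ssubset hi)
      have s2 : J₂ ⊂ I := lt_of_le_of_lt (Finset.filter_subset _ _) (Finset.erase_ssubset hi)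
      have p1 := ih J₁ s1 (fun a ha b hb => hL a (s1.1 ha) b (s1.1 hb)) (fun a ha => hχ a (s1.1 ha))
      have p2 := ih J₂ s2 (fun a ha b hb => hL a (s2.1 ha) b (s2.1 hb)) (fun a ha => hχ a (s2.1 ha))
      have key := step (S i) _ _ (χ i) (off i) p1 p2 (hχ i hi)
        (fun α b hb => lamF_indep _ _ _ _ _ _ (fun j hj hbj =>
          hb ((Finset.mem_filter.1 hj).2 hbj)))
        (fun α a ha => lamF_indep _ _ _ _ _ _ (fun j hj haj => by
          have hj' := Finset.mem_filter.1 hj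
          have hjI := s2.1 hj
          rcases hL j hjI i hi with h | h | h
          · exact hj'.2 h
          · exact hj'.2 (Finset.eq_of_subset_of_card_le h (hmax j hjI)).ge
          · exact Finset.disjoint_left.1 h haj ha))
      have : lamF I S χ off = fun α => χ i ((∑ a ∈ S i, (α a : ℤ)) - off i) *
          (lamF J₁ S χ off α * lamF J₂ S χ off α) := by
        funext α
        unfold lamF
        rw [hJ₁, hJ₂, Finset.prod_filter_mul_prod_filter_not,
          Finset.mul_prod_erase I (fun j => χ j ((∑ a ∈ S j, (α a : ℤ)) - off j)) hi]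
      rw [this]; exact key

theorem tilt_ev (t : V → ℝ) (γ : V → ℕ) (b : V) :
    ∏ a, t a ^ (γ + ev b : V → ℕ) a = (∏ a, t a ^ γ a) * t b := by
  have : ∀ a, t a ^ (γ + ev b : V → ℕ) a = t a ^ γ a * if a = b then t a else 1 := by
    intro a
    simp only [Pi.add_apply, ev, Pi.single_apply]
    split_ifs <;> simp [pow_succ]
  simp only [this, Finset.prod_mul_distrib, Finset.prod_ite_eq', Finset.mem_univ, if_true]

theorem P_tilt (F : (V → ℕ) → ℝ) (hF : P F) (c : ℝ) (t : V → ℝ) (hc : 0 < c) (ht : ∀ a, 0 < t a) :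
    P (fun α => c * F α * ∏ a, t a ^ α a) := by
  have hT : ∀ γ : V → ℕ, 0 < ∏ a, t a ^ γ a := fun γ =>
    Finset.prod_pos fun a _ => pow_pos (ht a) _
  refine ⟨fun γ => mul_pos (mul_pos hc (hF.1 γ)) (hT γ), fun γ x => ?_⟩
  have h := hF.2 γ (fun a => x a * t a)
  have hD : Dv (fun α => c * F α * ∏ a, t a ^ α a) γ x =
      c * (∏ a, t a ^ γ a) * Dv F γ (fun a => x a * t a) := by
    simp only [Dv, Finset.mul_sum]
    refine Finset.sum_congr rfl fun a _ => ?_
    rw [tilt_ev]; ring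
  have hQ : Qv (fun α => c * F α * ∏ a, t a ^ α a) γ x =
      c * (∏ a, t a ^ γ a) * Qv F γ (fun a => x a * t a) := by
    simp only [Qv, Finset.mul_sum]
    refine Finset.sum_congr rfl fun a _ => Finset.sum_congr rfl fun b _ => ?_
    rw [tilt_ev, tilt_ev]; ring
  rw [hD, hQ]
  have := mul_le_mul_of_nonneg_left h (sq_nonneg (c * ∏ a, t a ^ γ a))
  show _ * (c * F γ * ∏ a, t a ^ γ a) ≤ _
  nlinarith [this]

end LAM

theorem LAM_proof (hSch : SchStmt) : LamStmt := by
  intro ι V _ _ I S χ off c t hL hχ hc ht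
  exact (hSch V _).2 (LAM.P_tilt _ (LAM.P_lamF S χ off I hL hχ) c t hc ht)

end Crest.Agent.R309
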