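import Crest.Agent.R309.DefsA

set_option autoImplicit false

namespace Crest.Agent.R309

open Finset

namespace SCH

variable {V : Type} [Fintype V] [DecidableEq V]

theorem Hf_symm (F : (V → ℕ) → ℝ) (γ : V → ℕ) (v w : Option V → ℝ) :
    Hf F γ v w = Hf F γ w v := by
  unfold Hf
  rw [Finset.sum_comm]
  refine sum_congr rfl fun a _ => sum_congr rfl fun b _ => ?_
  rw [add_right_comm]; ring

theorem Hf_lin_left (F : (V → ℕ) → ℝ) (γ : V → ℕ) (v x w : Option V → ℝ) (c : ℝ) :
    Hf F γ (fun o => v o + c * x o) w = Hf F γ v w + c * Hf F γ x w := by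
  unfold Hf
  rw [mul_sum, ← sum_add_distrib]
  refine sum_congr rfl fun a _ => ?_
  rw [mul_sum, ← sum_add_distrib]
  refine sum_congr rfl fun b _ => ?_
  ring

theorem Hf_lin_right (F : (V → ℕ) → ℝ) (γ : V → ℕ) (v x w : Option V → ℝ) (c : ℝ) :
    Hf F γ w (fun o => v o + c * x o) = Hf F γ w v + c * Hf F γ w x := by
  rw [Hf_symm, Hf_lin_left, Hf_symm F γ v, Hf_symm F γ x]

/-- the linear functional trick -/
theorem rcs_of_kernel (F : (V → ℕ) → ℝ) (γ : V → ℕ) (p : Option V → ℝ)
    (h : ∀ v : Option V → ℝ, ∑ o, v o * p o = 0 → Hf F γ v v ≤ 0) (v w : Option V → ℝ)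
    (hw : 0 < Hf F γ w w) : Hf F γ v v * Hf F γ w w ≤ Hf F γ v w ^ 2 := by
  have hφ : ∑ o, w o * p o ≠ 0 := fun h0 => absurd (h w h0) (not_le.2 hw)
  set c : ℝ := -((∑ o, v o * p o) / ∑ o, w o * p o) with hc
  have h0 : ∑ o, (v o + c * w o) * p o = 0 := by
    have : ∑ o, (v o + c * w o) * p o = ∑ o, v o * p o + c * ∑ o, w o * p o := by
      rw [mul_sum, ← sum_add_distrib]
      exact sum_congr rfl fun o _ => by ring
    rw [this, hc]
    field_simp
    ring
  have h1 := h _ h0
  rw [Hf_lin_left, Hf_lin_right, Hf_lin_right, Hf_symm F γ w v] at h1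
  nlinarith [sq_nonneg (Hf F γ v w + c * Hf F γ w w), mul_le_mul_of_nonneg_right h1 hw.le]

theorem Hf_expand (F : (V → ℕ) → ℝ) (γ : V → ℕ) (v w : Option V → ℝ) :
    Hf F γ v w = v none * w none * F γ + v none * Dv F γ (fun a => w (some a)) +
      w none * Dv F γ (fun a => v (some a)) +
      ∑ a, ∑ b, v (some a) * w (some b) * F (γ + ev a + ev b) := by
  unfold Hf Dv
  simp only [Fintype.sum_option, eo, add_zero, sum_add_distrib, mul_sum]
  have h1 : ∑ b, v none * w (some b) * F (γ + ev b) = ∑ b, v none * (w (some b) * F (γ + ev b)) :=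
    sum_congr rfl fun b _ => by ring
  have h2 : ∑ a, v (some a) * w none * F (γ + ev a) = ∑ a, w none * (v (some a) * F (γ + ev a)) :=
    sum_congr rfl fun b _ => by ring
  rw [h1, h2]
  ring

end SCH

open SCH in
theorem SCH_proof : SchStmt := by
  intro V _ _ F
  constructor
  · rintro ⟨hpos, h⟩
    refine ⟨hpos, fun γ x => ?_⟩
    have h1 := h γ (fun o => o.elim 0 x) (fun o => o.elim 1 (fun _ => 0))
    simp only [Hf_expand, Option.elim, Dv, zero_mul, mul_zero, sum_const_zero, add_zero, one_mul,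
      zero_add, mul_one] at h1
    exact h1 (hpos γ)
  · rintro ⟨hpos, h⟩
    refine ⟨hpos, fun γ v w hw => rcs_of_kernel F γ (fun o => F (γ + eo o)) ?_ v w hw⟩
    intro u hu
    have hu' : u none * F γ + Dv F γ (fun a => u (some a)) = 0 := by
      simpa [Fintype.sum_option, eo, Dv] using hu
    have h1 := h γ (fun a => u (some a))
    have h2 : Hf F γ u u = u none * u none * F γ + 2 * u none * Dv F γ (fun a => u (some a)) +
        Qv F γ (fun a => u (some a)) := by
      rw [Hf_expand]; unfold Qv; ring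
    have hp := hpos γ
    have h3 : Hf F γ u u * F γ ≤ 0 := by
      rw [h2]
      have : Dv F γ (fun a => u (some a)) = -(u none * F γ) := by linarith
      rw [this] at h1 ⊢
      nlinarith
    by_contra hc
    push Not at hc
    have := mul_pos hc hp
    linarith

end Crest.Agent.R309
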