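import Crest.Agent.R309.DefsA

/-! Row 309, task BUP: the Poincaré inequality on a box. -/

set_option autoImplicit false

namespace Crest.Agent.R309

open Finset

namespace BUP

variable {κ : Type} [Fintype κ] [DecidableEq κ]

/-- block list of a list of indices -/
def bl (u : κ → ℕ) (l : List κ) : List ((κ × Bool) × (κ × Bool) × ℕ) :=
  l.map (fun k => ((k, false), (k, true), u k))

/-- partial box -/
def bx (u : κ → ℕ) (l : List κ) : Finset (κ → ℕ) :=
  Fintype.piFinset (fun k => if k ∈ l then range (u k + 1) else {0})

/-- partial node -/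
def nd (u : κ → ℕ) (l : List κ) (x : κ → ℕ) : κ × Bool → ℕ :=
  fun p => if p.1 ∈ l then node u x p else 0

lemma mem_bx {u : κ → ℕ} {l : List κ} {x : κ → ℕ} :
    x ∈ bx u l ↔ ∀ k, (k ∈ l → x k ≤ u k) ∧ (k ∉ l → x k = 0) := by
  unfold bx
  rw [Fintype.mem_piFinset]
  refine forall_congr' fun k => ?_
  by_cases h : k ∈ l <;> simp [h, Nat.lt_succ_iff]

lemma nd_update (u : κ → ℕ) {l : List κ} {k : κ} (hk : k ∉ l) (x : κ → ℕ) (i : ℕ) :
    nd u (k :: l) (Function.update x k i) = pt (k, false) (k, true) i (u k - i) + nd u l x := by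
  funext ⟨j, b⟩
  by_cases hj : j = k
  · subst hj
    cases b <;> simp [nd, node, pt, hk, Pi.single_apply]
  · cases b <;> simp [nd, node, pt, hj, Pi.single_apply]

lemma sm_bl (u : κ → ℕ) (Φ : (κ × Bool → ℕ) → ℝ) : ∀ (l : List κ), l.Nodup → ∀ γ,
    Sm (bl u l) γ Φ = ∑ x ∈ bx u l, Φ (γ + nd u l x)
  | [], _, γ => by
    have h1 : bx u ([] : List κ) = {0} := by
      ext x
      rw [mem_bx, mem_singleton]
      simp [funext_iff]
    have h2 : nd u ([] : List κ) 0 = 0 := by funext p; simp [nd]
    rw [h1, sum_singleton, h2, add_zero]; rfl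
  | k :: l, hl, γ => by
    rw [List.nodup_cons] at hl
    have h1 : Sm (bl u (k :: l)) γ Φ =
        ∑ i ∈ range (u k + 1), Sm (bl u l) (γ + pt (k, false) (k, true) i (u k - i)) Φ := rfl
    rw [h1, sum_congr rfl (fun i _ => sm_bl u Φ l hl.2 _), ← sum_product']
    refine sum_nbij' (fun q => Function.update q.2 k q.1) (fun x => (x k, Function.update x k 0))
      ?_ ?_ ?_ ?_ ?_
    · rintro ⟨i, x⟩ hq
      rw [mem_product, mem_range, mem_bx] at hq
      rw [mem_bx]
      intro j
      by_cases hj : j = k
      · subst hj
        simp only [Function.update_self, List.mem_cons, true_or, not_true, false_imp_iff, and_true,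
          true_imp_iff]
        have := hq.1
        omega
      · simp only [Function.update_of_ne hj, List.mem_cons, hj, false_or]
        exact hq.2 j
    · intro x hx
      rw [mem_bx] at hx
      rw [mem_product, mem_range, mem_bx]
      refine ⟨Nat.lt_succ_of_le ((hx k).1 (by simp)), fun j => ?_⟩
      by_cases hj : j = k
      · subst hj
        simp [hl.1]
      · have := hx j
        simp only [List.mem_cons, hj, false_or] at this
        simpa only [Function.update_of_ne hj] using this
    · rintro ⟨i, x⟩ hq
      rw [mem_product, mem_bx] at hq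
      have h0 : x k = 0 := (hq.2 k).2 hl.1
      simp only [Function.update_self, Function.update_idem, Prod.mk.injEq, true_and]
      rw [← h0, Function.update_eq_self]
    · intro x _
      simp
    · rintro ⟨i, x⟩ _
      simp only
      rw [nd_update u hl.1, add_assoc]

lemma bl_update (u : κ → ℕ) {l : List κ} {k : κ} (hk : k ∉ l) (m : ℕ) :
    bl (Function.update u k m) l = bl u l := by
  unfold bl
  refine List.map_congr_left fun j hj => ?_
  have : j ≠ k := fun h => hk (h ▸ hj)
  rw [Function.update_of_ne this]

/-- edge term -/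
def eg (c : κ × Bool → κ × Bool → (κ × Bool → ℕ) → ℝ) (g : (κ × Bool → ℕ) → ℝ) (k : κ)
    (U : κ × Bool → ℕ) : ℝ :=
  c (k, false) (k, true) U * (g (U + ev (k, false)) - g (U + ev (k, true))) ^ 2

lemma dir_bl (u : κ → ℕ) (c : κ × Bool → κ × Bool → (κ × Bool → ℕ) → ℝ)
    (g : (κ × Bool → ℕ) → ℝ) : ∀ (l : List κ), l.Nodup → ∀ γ,
    Dir c (bl u l) γ g = ∑ k ∈ l.toFinset, ((u k : ℝ) + 1) ^ 2 *
      if u k = 0 then 0 else Sm (bl (Function.update u k (u k - 1)) l) γ (eg c g k)
  | [], _, γ => by simp [bl, Dir]
  | k :: l, hl, γ => by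
    rw [List.nodup_cons] at hl
    have h1 : Dir c (bl u (k :: l)) γ g =
        ((u k : ℝ) + 1) ^ 2 * (∑ i ∈ range (u k),
          Sm (bl u l) (γ + pt (k, false) (k, true) i (u k - 1 - i)) (eg c g k)) +
        ∑ i ∈ range (u k + 1), Dir c (bl u l) (γ + pt (k, false) (k, true) i (u k - i)) g := rfl
    rw [h1, List.toFinset_cons, sum_insert (by simpa using hl.1),
      sum_congr rfl (fun i _ => dir_bl u c g l hl.2 _), sum_comm]
    congr 1
    · congr 1
      split_ifs with h
      · simp [h]
      · have h2 : Sm (bl (Function.update u k (u k - 1)) (k :: l)) γ (eg c g k) =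
            ∑ i ∈ range (Function.update u k (u k - 1) k + 1),
              Sm (bl (Function.update u k (u k - 1)) l)
                (γ + pt (k, false) (k, true) i (Function.update u k (u k - 1) k - i)) (eg c g k) :=
          rfl
        rw [h2, Function.update_self, bl_update u hl.1, Nat.sub_add_cancel (by omega)]
    · refine sum_congr rfl fun j hj => ?_
      have hjk : k ≠ j := fun h => hl.1 (h ▸ (List.mem_toFinset.1 hj))
      rw [← mul_sum]
      congr 1
      split_ifs with h
      · simp
      · have h2 : Sm (bl (Function.update u j (u j - 1)) (k :: l)) γ (eg c g j) =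
            ∑ i ∈ range (Function.update u j (u j - 1) k + 1),
              Sm (bl (Function.update u j (u j - 1)) l)
                (γ + pt (k, false) (k, true) i (Function.update u j (u j - 1) k - i)) (eg c g j) :=
          rfl
        rw [h2, Function.update_of_ne hjk]

lemma sm_full (u : κ → ℕ) (Φ : (κ × Bool → ℕ) → ℝ) :
    Sm (bl u (univ : Finset κ).toList) 0 Φ = ∑ x ∈ box u, Φ (node u x) := by
  rw [sm_bl u Φ _ (nodup_toList _)]
  have h1 : bx u (univ : Finset κ).toList = box u := by
    unfold bx box
    congr 1
    funext k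
    simp
  rw [h1]
  refine sum_congr rfl fun x _ => ?_
  congr 1
  funext p
  simp [nd]

lemma mem_box {u x : κ → ℕ} : x ∈ box u ↔ ∀ k, x k ≤ u k := by
  unfold box
  rw [Fintype.mem_piFinset]
  simp [Nat.lt_succ_iff]

lemma edge_eq (u : κ → ℕ) (F : (κ × Bool → ℕ) → ℝ) (g : (κ → ℕ) → ℝ) (k : κ) :
    (if u k = 0 then 0 else Sm (bl (Function.update u k (u k - 1)) (univ : Finset κ).toList) 0
      (eg (cM F) (fun U => g (fun j => U (j, false))) k)) =
      Ed u (fun x => F (node u x)) g k 1 := by
  unfold Ed
  split_ifs with h
  · symm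
    refine sum_eq_zero fun x hx => ?_
    rw [mem_filter] at hx
    omega
  · rw [sm_full]
    have h1 : box (Function.update u k (u k - 1)) = (box u).filter (fun x => x k + 1 ≤ u k) := by
      ext x
      rw [mem_filter, mem_box, mem_box]
      constructor
      · intro hx
        have hk := hx k
        rw [Function.update_self] at hk
        refine ⟨fun j => ?_, by omega⟩
        by_cases hj : j = k
        · subst hj; omega
        · have := hx j
          rwa [Function.update_of_ne hj] at this
      · rintro ⟨hx, hk⟩ j
        by_cases hj : j = k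
        · subst hj; rw [Function.update_self]; omega
        · rw [Function.update_of_ne hj]; exact hx j
    rw [h1]
    refine sum_congr rfl fun x hx => ?_
    rw [mem_filter] at hx
    have hk := hx.2
    have e1 : node (Function.update u k (u k - 1)) x + ev (k, true) = node u x := by
      funext ⟨j, b⟩
      by_cases hj : j = k
      · subst hj
        cases b <;> simp [node, ev, Pi.single_apply]
        omega
      · cases b <;> simp [node, ev, Pi.single_apply, hj]
    have e2 : node (Function.update u k (u k - 1)) x + ev (k, false) =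
        node u (x + Pi.single k 1) := by
      funext ⟨j, b⟩
      by_cases hj : j = k
      · subst hj
        cases b <;> simp [node, ev, Pi.single_apply]
        omega
      · cases b <;> simp [node, ev, Pi.single_apply, hj]
    have e3 : ∀ y : κ → ℕ, (fun j => node u y (j, false)) = y := fun y => by
      funext j; simp [node]
    unfold eg cM
    simp only [e1, e2, e3]
    rw [min_comm]

end BUP

theorem BUP_proof (hUp : UpStmt) : BupStmt := by
  intro κ _ _ u F Λ Γ hF hΛ hΓ hL hB g
  have h := hUp (κ × Bool) F Λ Γ hF hΛ hΓ hL (BUP.bl u (univ : Finset κ).toList)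
    (by
      intro B hB'
      unfold BUP.bl at hB'
      rw [List.mem_map] at hB'
      obtain ⟨k, _, rfl⟩ := hB'
      exact hB k) 0 (fun U => g (fun j => U (j, false)))
  have hlen : (BUP.bl u (univ : Finset κ).toList).length = Fintype.card κ := by
    unfold BUP.bl
    rw [List.length_map, length_toList, card_univ]
  have e3 : ∀ y : κ → ℕ, (fun j => node u y (j, false)) = y := fun y => by
    funext j; simp [node]
  rw [hlen, BUP.sm_full, BUP.sm_full, BUP.sm_full, BUP.dir_bl u _ _ _ (nodup_toList _),
    toList_toFinset] at h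
  simp only [e3, BUP.edge_eq] at h
  exact h

end Crest.Agent.R309
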