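import Crest.Agent.R309.DefsA

/-! Row 309, task HAR: one-dimensional Poincaré (Hardy) inequality for log-concave weights. -/

set_option autoImplicit false

namespace Crest.Agent.R309

open Finset

namespace HAR

/-- Abel summation. -/
theorem abel (a y : ℕ → ℝ) (s : ℕ) :
    ∑ j ∈ range (s + 1), a j * y j =
      (∑ j ∈ range (s + 1), a j) * y s -
        ∑ i ∈ range s, (∑ j ∈ range (i + 1), a j) * (y (i + 1) - y i) := by
  induction s with
  | zero => simp
  | succ s ih =>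
    rw [sum_range_succ (fun j => a j * y j), ih, sum_range_succ (fun j => a j) (s + 1),
      sum_range_succ (fun i => (∑ j ∈ range (i + 1), a j) * (y (i + 1) - y i)) s]
    ring

theorem cs (A : Finset ℕ) (Z y : ℕ → ℝ) (hZ : ∀ j ∈ A, 0 ≤ Z j) :
    (∑ j ∈ A, Z j * y j) ^ 2 ≤ (∑ j ∈ A, Z j) * ∑ j ∈ A, Z j * y j ^ 2 := by
  have h := Finset.sum_mul_sq_le_sq_mul_sq A (fun j => Real.sqrt (Z j))
    (fun j => Real.sqrt (Z j) * y j)
  have e1 : ∑ j ∈ A, Real.sqrt (Z j) * (Real.sqrt (Z j) * y j) = ∑ j ∈ A, Z j * y j :=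
    sum_congr rfl fun j hj => by rw [← mul_assoc, Real.mul_self_sqrt (hZ j hj)]
  have e2 : ∑ j ∈ A, Real.sqrt (Z j) ^ 2 = ∑ j ∈ A, Z j :=
    sum_congr rfl fun j hj => Real.sq_sqrt (hZ j hj)
  have e3 : ∑ j ∈ A, (Real.sqrt (Z j) * y j) ^ 2 = ∑ j ∈ A, Z j * y j ^ 2 :=
    sum_congr rfl fun j hj => by rw [mul_pow, Real.sq_sqrt (hZ j hj)]
  rwa [e1, e2, e3] at h

variable {s : ℕ} {Z : ℕ → ℝ}

theorem inc_down (hp : ∀ i ≤ s, 0 < Z i) (hl : ∀ i, i + 2 ≤ s → Z i * Z (i + 2) ≤ Z (i + 1) ^ 2)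
    {i : ℕ} (hi : i + 1 ≤ s) (h : Z i ≤ Z (i + 1)) : ∀ d, d ≤ i → Z (i - d) ≤ Z (i - d + 1) := by
  intro d
  induction d with
  | zero => intro _; simpa using h
  | succ d ih =>
    intro hd
    have h1 := ih (by omega)
    obtain ⟨j, hj⟩ : ∃ j, i - (d + 1) = j := ⟨_, rfl⟩
    have e : i - d = j + 1 := by omega
    rw [e] at h1
    rw [hj]
    have h2 := hl j (by omega)
    have p1 := hp (j + 1) (by omega)
    have p0 := hp j (by omega)
    by_contra hc
    push Not at hc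
    have : Z (j + 1) * Z (j + 1) < Z j * Z (j + 1 + 1) := by
      calc Z (j + 1) * Z (j + 1) < Z j * Z (j + 1) := mul_lt_mul_of_pos_right hc p1
        _ ≤ Z j * Z (j + 1 + 1) := mul_le_mul_of_nonneg_left h1 p0.le
    nlinarith

theorem le_of_inc (hp : ∀ i ≤ s, 0 < Z i) (hl : ∀ i, i + 2 ≤ s → Z i * Z (i + 2) ≤ Z (i + 1) ^ 2)
    {i : ℕ} (hi : i + 1 ≤ s) (h : Z i ≤ Z (i + 1)) : ∀ d, d ≤ i → Z (i - d) ≤ Z i := by
  intro d
  induction d with
  | zero => intro _; simp
  | succ d ih =>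
    intro hd
    have h1 := inc_down hp hl hi h (d + 1) hd
    have e : i - (d + 1) + 1 = i - d := by omega
    rw [e] at h1
    exact h1.trans (ih (by omega))

theorem dec_up (hp : ∀ i ≤ s, 0 < Z i) (hl : ∀ i, i + 2 ≤ s → Z i * Z (i + 2) ≤ Z (i + 1) ^ 2)
    {i : ℕ} (h : Z (i + 1) ≤ Z i) : ∀ d, i + d + 1 ≤ s → Z (i + d + 1) ≤ Z (i + d) := by
  intro d
  induction d with
  | zero => intro _; simpa using h
  | succ d ih =>
    intro hd
    have h1 := ih (by omega)
    have h2 := hl (i + d) (by omega)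
    have p1 := hp (i + d + 1) (by omega)
    have p0 := hp (i + d) (by omega)
    have p2 := hp (i + d + 2) (by omega)
    show Z (i + d + 2) ≤ Z (i + d + 1)
    by_contra hc
    push Not at hc
    have : Z (i + d + 1) * Z (i + d + 1) < Z (i + d) * Z (i + d + 2) := by
      calc Z (i + d + 1) * Z (i + d + 1) < Z (i + d + 1) * Z (i + d + 2) :=
            mul_lt_mul_of_pos_left hc p1
        _ ≤ Z (i + d) * Z (i + d + 2) := mul_le_mul_of_nonneg_right h1 p2.le
    nlinarith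

theorem le_of_dec (hp : ∀ i ≤ s, 0 < Z i) (hl : ∀ i, i + 2 ≤ s → Z i * Z (i + 2) ≤ Z (i + 1) ^ 2)
    {i : ℕ} (h : Z (i + 1) ≤ Z i) : ∀ d, i + 1 + d ≤ s → Z (i + 1 + d) ≤ Z (i + 1) := by
  intro d
  induction d with
  | zero => intro _; simp
  | succ d ih =>
    intro hd
    have h1 := dec_up hp hl h (d + 1) (by omega)
    have e : i + (d + 1) = i + 1 + d := by omega
    rw [e] at h1
    exact h1.trans (ih (by omega))

/-- the partial sums of a centred sequence -/
theorem delta_sq (hp : ∀ i ≤ s, 0 < Z i) (hl : ∀ i, i + 2 ≤ s → Z i * Z (i + 2) ≤ Z (i + 1) ^ 2)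
    (y : ℕ → ℝ) (h0 : ∑ j ∈ range (s + 1), Z j * y j = 0) {i : ℕ} (hi : i < s) :
    (∑ j ∈ range (i + 1), Z j * y j) ^ 2 ≤
      ((s : ℝ) + 1) * min (Z i) (Z (i + 1)) * ∑ j ∈ range (s + 1), Z j * y j ^ 2 := by
  have hnn : ∀ j ∈ range (s + 1), 0 ≤ Z j * y j ^ 2 := fun j hj =>
    mul_nonneg (hp j (by simp at hj; omega)).le (sq_nonneg _)
  have hV : 0 ≤ ∑ j ∈ range (s + 1), Z j * y j ^ 2 := sum_nonneg hnn
  rcases le_total (Z i) (Z (i + 1)) with h | h
  · rw [min_eq_left h]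
    have h1 := cs (range (i + 1)) Z y (fun j hj => (hp j (by simp at hj; omega)).le)
    have h2 : ∑ j ∈ range (i + 1), Z j * y j ^ 2 ≤ ∑ j ∈ range (s + 1), Z j * y j ^ 2 :=
      sum_le_sum_of_subset_of_nonneg (range_subset_range.2 (by omega)) (fun j hj _ => hnn j hj)
    have h3 : ∑ j ∈ range (i + 1), Z j ≤ ((s : ℝ) + 1) * Z i := by
      have : ∑ j ∈ range (i + 1), Z j ≤ ∑ _j ∈ range (i + 1), Z i := by
        refine sum_le_sum fun j hj => ?_
        have hj' : j ≤ i := by simp at hj; omega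
        have := le_of_inc hp hl (by omega) h (i - j) (by omega)
        rwa [show i - (i - j) = j by omega] at this
      rw [sum_const, card_range, nsmul_eq_mul] at this
      refine this.trans (mul_le_mul_of_nonneg_right ?_ (hp i (by omega)).le)
      push_cast
      have : (i : ℝ) ≤ s := by exact_mod_cast hi.le
      linarith
    have h4 : 0 ≤ ∑ j ∈ range (i + 1), Z j :=
      sum_nonneg fun j hj => (hp j (by simp at hj; omega)).le
    calc _ ≤ _ := h1
      _ ≤ (∑ j ∈ range (i + 1), Z j) * ∑ j ∈ range (s + 1), Z j * y j ^ 2 :=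
          mul_le_mul_of_nonneg_left h2 h4
      _ ≤ _ := mul_le_mul_of_nonneg_right h3 hV
  · rw [min_eq_right h]
    have hsplit := sum_range_add_sum_Ico (fun j => Z j * y j) (show i + 1 ≤ s + 1 by omega)
    have e : ∑ j ∈ range (i + 1), Z j * y j = -∑ j ∈ Ico (i + 1) (s + 1), Z j * y j := by
      linarith
    rw [e, neg_sq]
    have hsub : Ico (i + 1) (s + 1) ⊆ range (s + 1) := fun j hj => by
      simp only [mem_Ico, mem_range] at hj ⊢; omega
    have hpos : ∀ j ∈ Ico (i + 1) (s + 1), 0 ≤ Z j := fun j hj =>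
      (hp j (by simp only [mem_Ico] at hj; omega)).le
    have h1 := cs (Ico (i + 1) (s + 1)) Z y hpos
    have h2 : ∑ j ∈ Ico (i + 1) (s + 1), Z j * y j ^ 2 ≤ ∑ j ∈ range (s + 1), Z j * y j ^ 2 :=
      sum_le_sum_of_subset_of_nonneg hsub (fun j hj _ => hnn j hj)
    have h3 : ∑ j ∈ Ico (i + 1) (s + 1), Z j ≤ ((s : ℝ) + 1) * Z (i + 1) := by
      have : ∑ j ∈ Ico (i + 1) (s + 1), Z j ≤ ∑ _j ∈ Ico (i + 1) (s + 1), Z (i + 1) := by
        refine sum_le_sum fun j hj => ?_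
        simp only [mem_Ico] at hj
        have := le_of_dec hp hl h (j - (i + 1)) (by omega)
        rwa [show i + 1 + (j - (i + 1)) = j by omega] at this
      rw [sum_const, Nat.card_Ico, nsmul_eq_mul] at this
      refine this.trans (mul_le_mul_of_nonneg_right ?_ (hp (i + 1) (by omega)).le)
      have : s + 1 - (i + 1) ≤ s + 1 := by omega
      exact_mod_cast this
    have h4 : 0 ≤ ∑ j ∈ Ico (i + 1) (s + 1), Z j := sum_nonneg hpos
    calc _ ≤ _ := h1
      _ ≤ (∑ j ∈ Ico (i + 1) (s + 1), Z j) * ∑ j ∈ range (s + 1), Z j * y j ^ 2 :=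
          mul_le_mul_of_nonneg_left h2 h4
      _ ≤ _ := mul_le_mul_of_nonneg_right h3 hV

/-- centred version -/
theorem centred (hp : ∀ i ≤ s, 0 < Z i) (hl : ∀ i, i + 2 ≤ s → Z i * Z (i + 2) ≤ Z (i + 1) ^ 2)
    (y : ℕ → ℝ) (h0 : ∑ j ∈ range (s + 1), Z j * y j = 0) :
    ∑ j ∈ range (s + 1), Z j * y j ^ 2 ≤
      ((s : ℝ) + 1) ^ 2 * ∑ i ∈ range s, min (Z i) (Z (i + 1)) * (y (i + 1) - y i) ^ 2 := by
  set V := ∑ j ∈ range (s + 1), Z j * y j ^ 2 with hVdef
  have hV : 0 ≤ V := sum_nonneg fun j hj =>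
    mul_nonneg (hp j (by simp at hj; omega)).le (sq_nonneg _)
  have hs : (0 : ℝ) < (s : ℝ) + 1 := by positivity
  have hab := abel (fun j => Z j * y j) y s
  have e : ∑ j ∈ range (s + 1), Z j * y j * y j = V := sum_congr rfl fun j _ => by ring
  rw [e, h0, zero_mul, zero_sub] at hab
  have key : ∀ i ∈ range s, -(2 * ((∑ j ∈ range (i + 1), Z j * y j) * (y (i + 1) - y i))) ≤
      V / ((s : ℝ) + 1) + ((s : ℝ) + 1) ^ 2 * (min (Z i) (Z (i + 1)) * (y (i + 1) - y i) ^ 2) := by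
    intro i hi
    have hi' : i < s := mem_range.1 hi
    have hd := delta_sq hp hl y h0 hi'
    rw [← hVdef] at hd
    set δ := ∑ j ∈ range (i + 1), Z j * y j
    set μ := min (Z i) (Z (i + 1)) with hμ
    set Δ := y (i + 1) - y i
    have hμp : 0 < μ := lt_min (hp i (by omega)) (hp (i + 1) (by omega))
    set c := ((s : ℝ) + 1) ^ 2 * μ with hc
    have hcp : 0 < c := by positivity
    have h1 : δ ^ 2 ≤ c * (V / ((s : ℝ) + 1)) := by
      have : c * (V / ((s : ℝ) + 1)) = ((s : ℝ) + 1) * μ * V := by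
        rw [hc]; field_simp
      rw [this]; exact hd
    have h2 : c * (-(2 * (δ * Δ))) ≤ c * (V / ((s : ℝ) + 1) + c * Δ ^ 2) := by
      nlinarith [sq_nonneg (δ + c * Δ)]
    have h3 := le_of_mul_le_mul_left h2 hcp
    calc _ ≤ _ := h3
      _ = _ := by rw [hc]; ring
  have hsum := sum_le_sum key
  rw [sum_add_distrib, sum_const, card_range, nsmul_eq_mul, ← mul_sum, sum_neg_distrib,
    ← mul_sum] at hsum
  have h5 : (s : ℝ) * (V / ((s : ℝ) + 1)) ≤ V := by
    rw [mul_div_assoc', div_le_iff₀ hs]; nlinarith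
  linarith

end HAR

theorem HAR_proof : HarStmt := by
  intro s Z m hp hl
  set T := ∑ i ∈ range (s + 1), Z i with hT
  set S := ∑ i ∈ range (s + 1), Z i * m i with hS
  have hTp : 0 < T := sum_pos (fun j hj => hp j (by simp at hj; omega)) (by simp)
  have h0 : ∑ j ∈ range (s + 1), Z j * (m j - S / T) = 0 := by
    have : ∑ j ∈ range (s + 1), Z j * (m j - S / T) = S - T * (S / T) := by
      rw [hS, hT, sum_mul, ← sum_sub_distrib]
      exact sum_congr rfl fun j _ => by ring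
    rw [this]; field_simp; ring
  have h := HAR.centred hp hl (fun j => m j - S / T) h0
  have e1 : ∑ j ∈ range (s + 1), Z j * (m j - S / T) ^ 2 =
      ∑ i ∈ range (s + 1), Z i * m i ^ 2 - S ^ 2 / T := by
    have : ∑ j ∈ range (s + 1), Z j * (m j - S / T) ^ 2 =
        ∑ i ∈ range (s + 1), Z i * m i ^ 2 - 2 * (S / T) * S + T * (S / T) ^ 2 := by
      conv_rhs => rw [hT, sum_mul]
      have e : 2 * (S / T) * S = ∑ i ∈ range (s + 1), 2 * (S / T) * (Z i * m i) := by
        rw [← mul_sum]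
      rw [← hT, e, ← sum_sub_distrib, ← sum_add_distrib]
      exact sum_congr rfl fun j _ => by ring
    rw [this]; field_simp; ring
  have e2 : ∀ i, (m (i + 1) - S / T) - (m i - S / T) = m (i + 1) - m i := fun i => by ring
  simp only [e2] at h
  rw [e1] at h
  exact h

end Crest.Agent.R309
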