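import Crest.Agent.R309.DefsA

set_option autoImplicit false

namespace Crest.Agent.R309

open Finset

namespace UP

variable {V : Type} [Fintype V] [DecidableEq V]

omit [Fintype V] in
theorem Sm_nonneg (t : List (V × V × ℕ)) (Φ : (V → ℕ) → ℝ) (h : ∀ U, 0 ≤ Φ U) :
    ∀ γ, 0 ≤ Sm t γ Φ := by
  induction t with
  | nil => intro γ; simpa [Sm] using h γ
  | cons B t ih =>
    intro γ
    rw [Sm]
    exact sum_nonneg fun i _ => ih _

omit [Fintype V] in
theorem Dir_nonneg (c : V → V → (V → ℕ) → ℝ) (hc : ∀ a b U, 0 ≤ c a b U)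
    (t : List (V × V × ℕ)) (g : (V → ℕ) → ℝ) : ∀ γ, 0 ≤ Dir c t γ g := by
  induction t with
  | nil => intro γ; simp [Dir]
  | cons B t ih =>
    intro γ
    rw [Dir]
    refine add_nonneg (mul_nonneg (sq_nonneg _) (sum_nonneg fun i _ => ?_))
      (sum_nonneg fun i _ => ih _)
    exact Sm_nonneg t _ (fun U => mul_nonneg (hc _ _ _) (sq_nonneg _)) _

theorem Hf_single (F : (V → ℕ) → ℝ) (γ : V → ℕ) (a b : V) :
    Hf F γ (Pi.single (some a) 1) (Pi.single (some b) 1) = F (γ + ev a + ev b) := by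
  unfold Hf
  rw [Finset.sum_eq_single (some a)]
  · rw [Finset.sum_eq_single (some b)]
    · simp [eo]
    · intro c _ hc; simp [hc]
    · simp
  · intro c _ hc; simp [hc]
  · simp

theorem lc_of_isL (G : (V → ℕ) → ℝ) (hG : IsL G) (δ : V → ℕ) (a b : V) :
    G (δ + ev b + ev b) * G (δ + ev a + ev a) ≤ G (δ + ev a + ev b) ^ 2 := by
  have h := hG.2 δ (Pi.single (some a) 1) (Pi.single (some b) 1)
    (by rw [Hf_single]; exact hG.1 _)
  rw [Hf_single, Hf_single, Hf_single] at h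
  linarith

omit [Fintype V] in
theorem pt_a (γ : V → ℕ) (a b : V) (i j : ℕ) :
    γ + pt a b i j + ev a = γ + pt a b (i + 1) j := by
  unfold pt ev
  rw [Pi.single_add]; abel

omit [Fintype V] in
theorem pt_b (γ : V → ℕ) (a b : V) (i j : ℕ) :
    γ + pt a b i j + ev b = γ + pt a b i (j + 1) := by
  unfold pt ev
  rw [Pi.single_add]; abel

theorem two_sum (s : ℕ) (D : ℕ → ℝ) (hD : ∀ i, 0 ≤ D i) :
    ∑ i ∈ range s, (D (i + 1) + D i) ≤ 2 * ∑ i ∈ range (s + 1), D i := by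
  rw [sum_add_distrib]
  have h1 : ∑ i ∈ range s, D (i + 1) ≤ ∑ i ∈ range (s + 1), D i := by
    rw [sum_range_succ']; linarith [hD 0]
  have h2 : ∑ i ∈ range s, D i ≤ ∑ i ∈ range (s + 1), D i := by
    rw [sum_range_succ]; linarith [hD s]
  linarith

end UP

open UP in
theorem UP_proof (hMrg : MrgStmt) (hHar : HarStmt) (hSli : SliStmt) : UpStmt := by
  intro V _ _ F Λ Γ hF hΛ hΓ hup t
  induction t with
  | nil =>
    intro _ γ g
    have := hF.1 γ
    simp only [Sm, Dir, mul_zero]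
    field_simp
    simp
  | cons B t ih =>
    intro hB γ g
    obtain ⟨a, b, s⟩ := B
    have hBt : ∀ B ∈ t, BlockOK F Λ Γ B := fun B h => hB B (List.mem_cons_of_mem _ h)
    obtain ⟨hc, κ, hκ0, hκ1, hκΓ, hκ⟩ := hB (a, b, s) List.mem_cons_self
    simp only at hc hκΓ hκ
    have hG := hMrg V F hF t
    have hcM : ∀ a b U, 0 ≤ cM F a b U := fun a b U => le_min (hF.1 _).le (hF.1 _).le
    set n : ℝ := (t.length : ℝ) with hn
    have hn0 : 0 ≤ n := Nat.cast_nonneg _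
    set Z : ℕ → ℝ := fun i => Sm t (γ + pt a b i (s - i)) F with hZ
    set M : ℕ → ℝ := fun i => Sm t (γ + pt a b i (s - i)) (fun U => F U * g U) with hM
    set S : ℕ → ℝ := fun i => Sm t (γ + pt a b i (s - i)) (fun U => F U * g U ^ 2) with hS
    set D : ℕ → ℝ := fun i => Dir (cM F) t (γ + pt a b i (s - i)) g with hD
    set E : ℕ → ℝ := fun i => Sm t (γ + pt a b i (s - 1 - i))
      (fun U => cM F a b U * (g (U + ev a) - g (U + ev b)) ^ 2) with hE
    have hZpos : ∀ i, 0 < Z i := fun i => hG.1 _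
    have hD0 : ∀ i, 0 ≤ D i := fun i => Dir_nonneg _ hcM _ _ _
    have hE0 : ∀ i, 0 ≤ E i := fun i =>
      Sm_nonneg t _ (fun U => mul_nonneg (hcM _ _ _) (sq_nonneg _)) _
    have hlc : ∀ i, i + 2 ≤ s → Z i * Z (i + 2) ≤ Z (i + 1) ^ 2 := by
      intro i hi
      have h := lc_of_isL _ hG (γ + pt a b i (s - (i + 2))) a b
      simp only [pt_a, pt_b] at h
      have e1 : s - (i + 2) + 1 + 1 = s - i := by omega
      have e2 : s - (i + 2) + 1 = s - (i + 1) := by omega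
      rw [e1, e2] at h
      exact h
    have hhar := hHar s Z (fun i => M i / Z i) (fun i _ => hZpos i) hlc
    have hsl : ∀ i ∈ range s, min (Z i) (Z (i + 1)) * (M (i + 1) / Z (i + 1) - M i / Z i) ^ 2 ≤
        2 * Λ ^ 2 * E i + 2 * κ * n * Λ ^ 4 * (D (i + 1) + D i) := by
      intro i hi
      have hi' := mem_range.1 hi
      have h := hSli V F Λ Γ κ hF hΛ hup t hBt a b hc hκ0 hκ1 hκ (γ + pt a b i (s - 1 - i)) g
      simp only [pt_a, pt_b] at h
      have e1 : s - 1 - i + 1 = s - i := by omega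
      have e2 : s - 1 - i = s - (i + 1) := by omega
      rw [e1] at h
      rw [min_comm]
      simp only [hZ, hM, hD, hE]
      rw [← e2]
      exact h
    have hin : ∀ i ∈ range (s + 1), S i - M i ^ 2 / Z i ≤
        n * (2 * Λ ^ 2 + 4 * Γ * n * Λ ^ 4) * D i := fun i _ => ih hBt _ g
    have h1 := sum_le_sum hin
    have h2 := sum_le_sum hsl
    rw [sum_sub_distrib, ← mul_sum] at h1
    rw [sum_add_distrib, ← mul_sum, ← mul_sum] at h2
    have h3 := two_sum s D hD0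
    have e1 : ∑ i ∈ range (s + 1), Z i * (M i / Z i) ^ 2 = ∑ i ∈ range (s + 1), M i ^ 2 / Z i :=
      sum_congr rfl fun i _ => by have := hZpos i; field_simp
    have e2 : ∑ i ∈ range (s + 1), Z i * (M i / Z i) = ∑ i ∈ range (s + 1), M i :=
      sum_congr rfl fun i _ => by have := hZpos i; field_simp
    rw [e1, e2] at hhar
    have hSE : 0 ≤ ∑ i ∈ range s, E i := sum_nonneg fun i _ => hE0 i
    have hSD : 0 ≤ ∑ i ∈ range (s + 1), D i := sum_nonneg fun i _ => hD0 i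
    change ∑ i ∈ range (s + 1), S i - (∑ i ∈ range (s + 1), M i) ^ 2 / ∑ i ∈ range (s + 1), Z i ≤
      ((t.length + 1 : ℕ) : ℝ) * (2 * Λ ^ 2 + 4 * Γ * ((t.length + 1 : ℕ) : ℝ) * Λ ^ 4) *
        (((s : ℝ) + 1) ^ 2 * ∑ i ∈ range s, E i + ∑ i ∈ range (s + 1), D i)
    push_cast
    rw [← hn]
    set SE := ∑ i ∈ range s, E i
    set SD := ∑ i ∈ range (s + 1), D i
    set σ : ℝ := ((s : ℝ) + 1) ^ 2 with hσ
    have hσ0 : 0 ≤ σ := sq_nonneg _
    have hΛ2 : 0 ≤ Λ ^ 2 := sq_nonneg _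
    have hΛ4 : 0 ≤ Λ ^ 4 := by positivity
    have h4 : σ * ∑ i ∈ range s, min (Z i) (Z (i + 1)) * (M (i + 1) / Z (i + 1) - M i / Z i) ^ 2 ≤
        2 * Λ ^ 2 * (σ * SE) + 4 * Γ * n * Λ ^ 4 * SD := by
      have h5 : 2 * κ * n * Λ ^ 4 * ∑ i ∈ range s, (D (i + 1) + D i) ≤
          2 * κ * n * Λ ^ 4 * (2 * SD) :=
        mul_le_mul_of_nonneg_left h3 (by positivity)
      have h6 := mul_le_mul_of_nonneg_left (h2.trans (add_le_add le_rfl h5)) hσ0
      have h7 : σ * κ * (n * Λ ^ 4 * SD) ≤ Γ * (n * Λ ^ 4 * SD) :=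
        mul_le_mul_of_nonneg_right hκΓ (by positivity)
      nlinarith
    have hX : 0 ≤ σ * SE := mul_nonneg hσ0 hSE
    set X := σ * SE
    have p1 : 0 ≤ Λ ^ 2 * X := mul_nonneg hΛ2 hX
    have p2 : 0 ≤ Λ ^ 2 * SD := mul_nonneg hΛ2 hSD
    have p3 : 0 ≤ Γ * Λ ^ 4 * X := by positivity
    have p4 : 0 ≤ Γ * Λ ^ 4 * SD := by positivity
    have p5 := mul_nonneg hn0 p1
    have p6 := mul_nonneg hn0 p3
    have p7 := mul_nonneg hn0 p4
    have p8 := mul_nonneg hn0 p6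
    nlinarith

end Crest.Agent.R309
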