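import Crest.Agent.R309.DefsC
import Crest.Agent.R309.AV

/-! Row 309, task ANN: analysis of annealing and descent. -/

set_option autoImplicit false

namespace Crest.Agent.R309

open Finset Crest.Agent.PT Crest.Agent.QC Crest.Agent.R317 Crest.Agent.R300U

namespace ANN

lemma bump_abs {n : ℕ} {p : List ℤ} {m : ℤ} (hp : ∀ v, |p.getD v 0| ≤ m) (w : ℕ) {δ : ℤ}
    (hδ : |δ| ≤ 1) (v : ℕ) : |(bump n p w δ).getD v 0| ≤ m + 1 := by
  have h0 : 0 ≤ m := (abs_nonneg _).trans (hp 0)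
  unfold bump
  by_cases hv : v < n
  · rw [getD_mkL _ _ hv]
    refine (abs_add_le _ _).trans (add_le_add (hp v) ?_)
    split_ifs
    · exact hδ
    · simp
  · rw [List.getD_eq_default _ _ (by simpa using hv)]
    simp only [abs_zero]
    omega

lemma sgn_abs (q : ℕ) : |(if q % 2 = 0 then 1 else -1 : ℤ)| ≤ 1 := by
  split_ifs <;> simp

lemma est_nonneg (P : Pre) (a s : ℕ) (p : List ℤ) (s' : ℕ) (p' : List ℤ) (u : ℕ) :
    0 ≤ est P a s p s' p' u := by
  unfold est; positivity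

lemma upd {Z Z' X e Zh : ℝ} {i : ℕ} (hZ : 0 < Z) (h2 : Z ≤ 2 * Z') (hX : 12 ≤ X)
    (he : |e - Z' / Z| ≤ 6 / X) (h1 : (1 - 12 / X) ^ i * Z ≤ Zh) (h3 : Zh ≤ (1 + 12 / X) ^ i * Z) :
    (1 - 12 / X) ^ (i + 1) * Z' ≤ Zh * e ∧ Zh * e ≤ (1 + 12 / X) ^ (i + 1) * Z' := by
  have hX0 : 0 < X := by linarith
  have hr : 0 ≤ 1 - 12 / X := by
    have : 12 / X ≤ 1 := by rw [div_le_one hX0]; exact hX
    linarith
  have hr0 : 0 ≤ 12 / X := by positivity
  set ρ := Z' / Z with hρ
  have hρ2 : 1 / 2 ≤ ρ := by rw [hρ, le_div_iff₀ hZ]; linarith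
  have hZ' : Z' = ρ * Z := by rw [hρ]; field_simp
  have h6 : 6 / X ≤ ρ * (12 / X) := by
    have : 6 / X = (1 / 2) * (12 / X) := by ring
    rw [this]; exact mul_le_mul_of_nonneg_right hρ2 hr0
  rw [abs_le] at he
  have e1 : ρ * (1 - 12 / X) ≤ e := by linarith [he.1]
  have e2 : e ≤ ρ * (1 + 12 / X) := by linarith [he.2]
  have hA : 0 ≤ (1 - 12 / X) ^ i * Z := by positivity
  have hB : 0 ≤ ρ * (1 - 12 / X) := by positivity
  constructor
  · calc (1 - 12 / X) ^ (i + 1) * Z' = ((1 - 12 / X) ^ i * Z) * (ρ * (1 - 12 / X)) := by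
          rw [hZ']; ring
      _ ≤ Zh * e := mul_le_mul h1 e1 hB (hA.trans h1)
  · calc Zh * e ≤ ((1 + 12 / X) ^ i * Z) * (ρ * (1 + 12 / X)) :=
          mul_le_mul h3 e2 (hB.trans e1) (by positivity)
      _ = (1 + 12 / X) ^ (i + 1) * Z' := by rw [hZ']; ring

lemma pow_half {K : ℕ} (hK : 1 ≤ K) : (1 - 1 / (K : ℝ)) ^ K ≤ 1 / 2 := by
  have hK0 : (0 : ℝ) < K := by exact_mod_cast hK
  have hK1 : (1 : ℝ) ≤ K := by exact_mod_cast hK
  have h1 : 1 / (K : ℝ) ≤ 1 := by rw [div_le_one hK0]; exact hK1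
  have h0 : 0 ≤ 1 / (K : ℝ) := by positivity
  have h2 : (2 : ℝ) ≤ (1 + 1 / (K : ℝ)) ^ K := by
    have := one_add_mul_le_pow (a := 1 / (K : ℝ)) (by linarith) K
    have e : (K : ℝ) * (1 / K) = 1 := by field_simp
    linarith
  have h3 : (1 - 1 / (K : ℝ)) ^ K * (1 + 1 / (K : ℝ)) ^ K ≤ 1 := by
    rw [← mul_pow]
    refine pow_le_one₀ (by nlinarith) (by nlinarith)
  have h4 : 0 ≤ (1 - 1 / (K : ℝ)) ^ K := pow_nonneg (by linarith) _
  nlinarith

lemma moves_le {n K m : ℕ} (hK : 1 ≤ K) (h : (1 : ℝ) ≤ 2 ^ n * (1 - 1 / (K : ℝ)) ^ m) :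
    m ≤ K * n := by
  by_contra hm
  have hK0 : (0 : ℝ) < K := by exact_mod_cast hK
  have hK1 : (1 : ℝ) ≤ K := by exact_mod_cast hK
  have h1 : 1 / (K : ℝ) ≤ 1 := by rw [div_le_one hK0]; exact hK1
  have h0 : 0 < 1 / (K : ℝ) := by positivity
  have h2 : (1 - 1 / (K : ℝ)) ^ m ≤ (1 - 1 / (K : ℝ)) ^ (K * n + 1) :=
    pow_le_pow_of_le_one (by linarith) (by linarith) (by omega)
  have h3 : (1 - 1 / (K : ℝ)) ^ (K * n) ≤ (1 / 2) ^ n := by
    rw [pow_mul]
    exact pow_le_pow_left₀ (pow_nonneg (by linarith) _) (pow_half hK) n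
  have h4 : (2 : ℝ) ^ n * (1 / 2) ^ n = 1 := by rw [← mul_pow]; norm_num
  have h5 : (0 : ℝ) < 2 ^ n := by positivity
  have h6 : (1 - 1 / (K : ℝ)) ^ (K * n + 1) ≤ (1 / 2) ^ n * (1 - 1 / (K : ℝ)) := by
    rw [pow_succ]; exact mul_le_mul_of_nonneg_right h3 (by linarith)
  have h7 : (2 : ℝ) ^ n * (1 - 1 / (K : ℝ)) ^ m ≤ 2 ^ n * ((1 / 2) ^ n * (1 - 1 / (K : ℝ))) :=
    mul_le_mul_of_nonneg_left (h2.trans h6) h5.le
  rw [← mul_assoc, h4] at h7
  linarith

lemma final {r Z Zh a : ℝ} {T : ℕ} (ha : 1 ≤ a) (hr0 : 0 ≤ r) (hr1 : r ≤ 1)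
    (hT : r * T ≤ 1 / (16 * a)) (hZ : 0 ≤ Z)
    (h1 : (1 - r) ^ T * Z ≤ Zh) (h2 : Zh ≤ (1 + r) ^ T * Z) : |Zh - Z| ≤ Z / (8 * a) := by
  have ha0 : 0 < a := by linarith
  have hb : 1 - r * T ≤ (1 - r) ^ T := by
    have := one_add_mul_le_pow (a := -r) (by linarith) T
    have e : (1 + -r) = 1 - r := by ring
    rw [e] at this; linarith
  set y := 1 / (16 * a) with hy
  have hy0 : 0 < y := by positivity
  have hy1 : y ≤ 1 / 16 := by
    rw [hy]; exact one_div_le_one_div_of_le (by norm_num) (by linarith)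
  have hc : (1 + r) ^ T * (1 - r) ^ T ≤ 1 := by
    rw [← mul_pow]; exact pow_le_one₀ (by nlinarith) (by nlinarith)
  have hp : 0 ≤ (1 + r) ^ T := by positivity
  have hd : (1 + r) ^ T * (1 - y) ≤ 1 :=
    le_trans (mul_le_mul_of_nonneg_left (by linarith) hp) hc
  have he : (1 + r) ^ T ≤ 1 + 2 * y := by
    by_contra hcon
    push Not at hcon
    have : (1 + 2 * y) * (1 - y) < (1 + r) ^ T * (1 - y) :=
      mul_lt_mul_of_pos_right hcon (by linarith)
    nlinarith
  have e : Z / (8 * a) = 2 * y * Z := by rw [hy]; field_simp; ring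
  rw [e, abs_le]
  constructor
  · have : (1 - y) * Z ≤ (1 - r) ^ T * Z := mul_le_mul_of_nonneg_right (by linarith) hZ
    nlinarith
  · have : (1 + r) ^ T * Z ≤ (1 + 2 * y) * Z := mul_le_mul_of_nonneg_right he hZ
    nlinarith

lemma pM_pos {n : ℕ} (hn : 1 ≤ n) : 1 ≤ pM n := by
  unfold pM pD pK0 pJ
  have : 0 < 2 * (n * (4 * (2 ^ 30 * n ^ 8))) := by positivity
  omega

lemma pTt_ge (n : ℕ) : pS n + 128 * n * pM n * n * (2 * n + 1) + 2 * n + 3 ≤ pTt n := by
  unfold pTt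
  have : (128 * n ^ 2 * pM n + 2) * (2 * n + 1) =
      128 * n * pM n * n * (2 * n + 1) + 4 * n + 2 := by ring
  omega

lemma pTt_ge' (n : ℕ) : 128 * n * pM n * n + 3 ≤ pTt n := by
  have := pTt_ge n
  have h : 128 * n * pM n * n * 1 ≤ 128 * n * pM n * n * (2 * n + 1) :=
    Nat.mul_le_mul_left _ (by omega)
  omega

/-- sure invariant -/
def Inv (P : Pre) (i : ℕ) (st : St) : Prop :=
  st.1 = min i (pS (nn P)) ∧ (∀ v, |st.2.1.getD v 0| ≤ i) ∧ st.2.1.length ≤ nn P ∧ 0 ≤ st.2.2.1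

lemma inv_step (P : Pre) (a i : ℕ) (st : St) (u : ℕ) (h : Inv P i st) :
    Inv P (i + 1) (astep P a st u) := by
  obtain ⟨s, p, Zh, q⟩ := st
  obtain ⟨h1, h2, h3, h4⟩ := h
  simp only at h1 h2 h3 h4
  have h2' : ∀ v, |p.getD v 0| ≤ ((i + 1 : ℕ) : ℤ) := fun v => (h2 v).trans (by push_cast; omega)
  unfold astep
  simp only
  split_ifs with c1 c2 c3
  · exact ⟨by simp only; omega, h2', h3, mul_nonneg h4 (est_nonneg ..)⟩
  · refine ⟨by simp only; omega, fun v => ?_, ?_, mul_nonneg h4 (est_nonneg ..)⟩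
    · push_cast
      exact bump_abs h2 _ (sgn_abs q) v
    · simp [cand, bump]
  · exact ⟨by simp only; omega, h2', h3, h4⟩
  · exact ⟨by simp only; omega, h2', h3, h4⟩

/-- good event -/
def Good (P : Pre) (a i : ℕ) (st : St) : Prop :=
  st.1 ≤ pS (nn P) ∧ (st.1 < pS (nn P) → st.2.2.2 = 0) ∧ st.2.2.2 ≤ 2 * nn P ∧
  (1 - 12 / (pXi (nn P) a : ℝ)) ^ i * Zq P st.1 st.2.1 ≤ (st.2.2.1 : ℝ) ∧
  (st.2.2.1 : ℝ) ≤ (1 + 12 / (pXi (nn P) a : ℝ)) ^ i * Zq P st.1 st.2.1 ∧
  ∃ m : ℕ, Zq P st.1 st.2.1 ≤ 2 ^ nn P * (1 - 1 / ((128 * nn P * pM (nn P) : ℕ) : ℝ)) ^ m ∧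
    (∀ v, |st.2.1.getD v 0| ≤ m) ∧ m ≤ 128 * nn P * pM (nn P) * nn P ∧
    (∀ q' < st.2.2.2, (1 - 1 / (32 * nn P * pM (nn P) : ℝ)) * Zq P st.1 st.2.1 <
      Zq P st.1 (cand P st.2.1 q')) ∧
    (st.2.2.2 = 2 * nn P ∨ i ≤ st.1 + m * (2 * nn P + 1) + st.2.2.2)

section

variable (hBij : BijStmt) (hRat : RatStmt) {P : Pre} (hP : Spec P)
include hRat hP

lemma pi_pos {s : ℕ} {p : List ℤ} (hV : Valid P s p) {x : Fin (nA (gG P)) → ℕ} (hx : x ∈ bx P) :
    0 < πq P s p x := by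
  have h := (((hRat P hP).2.2 x hx).2 s p hV).1.1
  by_contra hc
  push Not at hc
  have : 2 ^ (pS (nn P) + nn P * pTt (nn P)) * πq P s p x ≤ 0 :=
    mul_nonpos_of_nonneg_of_nonpos (by positivity) hc
  linarith

include hBij in
lemma Z_ge {s : ℕ} {p : List ℤ} (hV : Valid P s p) : 1 ≤ Zq P s p := by
  obtain ⟨X, hX⟩ := hP.ne
  obtain ⟨x, hx, hacc, -⟩ := (hBij P hP).2.2.1 X hX
  have h1 := (hBij P hP).2.2.2.1 s p x hx hacc
  rw [← h1]
  exact single_le_sum (f := πq P s p) (fun y hy => (pi_pos hRat hP hV hy).le) hx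

end

lemma Z_le {P : Pre} {s s' : ℕ} {p p' : List ℤ} {c : ℝ}
    (h : ∀ x ∈ bx P, πq P s p x ≤ c * πq P s' p' x) : Zq P s p ≤ c * Zq P s' p' := by
  unfold Zq
  rw [mul_sum]
  exact sum_le_sum h

lemma good_step (hBij : BijStmt) (hRat : RatStmt) (hEst : EstStmt) {P : Pre} (hP : Spec P)
    {a : ℕ} (ha : 1 ≤ a) (i : ℕ) (st : St) (h : Good P a i st) :
    Pb (bE P a) (fun v => ¬ Good P a (i + 1) (astep P a st v)) ≤
      (2 : ℝ)⁻¹ ^ (a + 1) / (pTt (nn P) + 1) := by
  obtain ⟨s, p, Zh, q⟩ := st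
  obtain ⟨h1, h2, h3, h4, h5, m, h6, h7, h8, h9, h10⟩ := h
  simp only at h1 h2 h3 h4 h5 h6 h7 h8 h9 h10
  have hn := hP.pos
  have hM := pM_pos hn
  have hT := pTt_ge' (nn P)
  set n := nn P with hndef
  have hK : 1 ≤ 128 * n * pM n := by
    have : 0 < 128 * n * pM n := by positivity
    omega
  have hV : Valid P s p := ⟨h1, fun v => (h7 v).trans (by rw [← hndef]; omega)⟩
  have hZ1 : 1 ≤ Zq P s p := Z_ge hBij hRat hP hV
  have hZ0 : 0 < Zq P s p := by linarith
  have hnM : (1 : ℝ) ≤ (n : ℝ) * pM n := by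
    have : 1 ≤ n * pM n := Nat.one_le_iff_ne_zero.2 (by positivity)
    exact_mod_cast this
  have hXi : 768 * ((n : ℝ) * pM n) ≤ pXi n a := by
    have h0 : 768 * (n * pM n) ≤ pXi n a := by
      unfold pXi
      have h2 : 2 ≤ a * pTt n := by nlinarith
      calc 768 * (n * pM n) ≤ 512 * (n * pM n) * 2 := by omega
        _ ≤ 512 * (n * pM n) * (a * pTt n) := Nat.mul_le_mul_left _ h2
        _ = 512 * n * pM n * a * pTt n := by ring
    exact_mod_cast h0
  have hX12 : (12 : ℝ) ≤ pXi n a := by linarith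
  have hX0 : (0 : ℝ) < pXi n a := by linarith
  have h6X : 6 / (pXi n a : ℝ) ≤ 1 / (128 * ((n : ℝ) * pM n)) := by
    rw [div_le_div_iff₀ hX0 (by positivity)]; linarith
  have hr0 : (0 : ℝ) ≤ 12 / (pXi n a : ℝ) := by positivity
  have hr1 : 12 / (pXi n a : ℝ) ≤ 1 := by rw [div_le_one hX0]; exact hX12
  have hlo : (1 - 12 / (pXi n a : ℝ)) ^ (i + 1) * Zq P s p ≤ Zh := by
    refine le_trans (mul_le_mul_of_nonneg_right ?_ hZ0.le) h4
    exact pow_le_pow_of_le_one (by linarith) (by linarith) (by omega)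
  have hhi : (Zh : ℝ) ≤ (1 + 12 / (pXi n a : ℝ)) ^ (i + 1) * Zq P s p := by
    refine le_trans h5 (mul_le_mul_of_nonneg_right ?_ hZ0.le)
    exact pow_le_pow_right₀ (by linarith) (by omega)
  by_cases c1 : s < pS n
  · have hV' : Valid P (s + 1) p := ⟨c1, hV.2⟩
    have hr : ∀ x ∈ bx P, πq P s p x ≤ 2 * πq P (s + 1) p x ∧ πq P (s + 1) p x ≤ πq P s p x :=
      fun x hx => (((hRat P hP).2.2 x hx).2 s p hV).2.1 c1
    have hE := (hEst P hP a ha s p hV).1 (s + 1) p (fun x hx =>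
      ⟨(pi_pos hRat hP hV' hx).le, by linarith [(hr x hx).2, pi_pos hRat hP hV hx]⟩)
    refine le_trans (Pb_mono fun u _ hu => ?_) hE
    by_contra hc
    push Not at hc
    apply hu
    have hA : astep P a (s, p, Zh, q) u = (s + 1, p, Zh * est P a s p (s + 1) p u, q) := by
      unfold astep; simp only; rw [if_pos c1]
    rw [hA]
    have hu2 := upd hZ0 (Z_le fun x hx => (hr x hx).1) hX12 hc h4 h5
    have hq := h2 c1
    refine ⟨c1, fun _ => hq, h3, ?_, ?_, m, ?_, h7, h8, ?_, ?_⟩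
    · simp only; push_cast; exact hu2.1
    · simp only; push_cast; exact hu2.2
    · have : Zq P (s + 1) p ≤ 1 * Zq P s p :=
        Z_le (fun x hx => by rw [one_mul]; exact (hr x hx).2)
      rw [one_mul] at this
      exact this.trans h6
    · intro q' hq'; simp only at hq'; omega
    · simp only; rw [← hndef]; omega
  · by_cases c2 : q < 2 * n
    · have hδ := sgn_abs q
      have hb : |p.getD (q / 2) 0 + (if q % 2 = 0 then 1 else -1 : ℤ)| ≤ pTt (nn P) := by
        refine (abs_add_le _ _).trans ?_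
        have := h7 (q / 2)
        rw [← hndef]; omega
      have hr : ∀ x ∈ bx P, πq P s p x ≤ 2 * πq P s (cand P p q) x ∧
          πq P s (cand P p q) x ≤ 2 * πq P s p x :=
        fun x hx => (((hRat P hP).2.2 x hx).2 s p hV).2.2 _ _ hδ hb
      have h7' : ∀ v, |(cand P p q).getD v 0| ≤ ((m + 1 : ℕ) : ℤ) := fun v => by
        push_cast; exact bump_abs h7 _ hδ v
      have hV' : Valid P s (cand P p q) := ⟨h1, fun v => (h7' v).trans (by rw [← hndef]; omega)⟩
      have hE := (hEst P hP a ha s p hV).1 s (cand P p q) (fun x hx =>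
        ⟨(pi_pos hRat hP hV' hx).le, (hr x hx).2⟩)
      refine le_trans (Pb_mono fun u _ hu => ?_) hE
      by_contra hc
      push Not at hc
      apply hu
      have hc' := abs_le.1 hc
      by_cases c3 : est P a s p s (cand P p q) u ≤ 1 - 1 / (64 * nn P * pM (nn P) : ℚ)
      · have hA : astep P a (s, p, Zh, q) u =
            (s, cand P p q, Zh * est P a s p s (cand P p q) u, 0) := by
          unfold astep; simp only; rw [if_neg c1, if_pos c2, if_pos c3]
        rw [hA]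
        have hu2 := upd hZ0 (Z_le fun x hx => (hr x hx).1) hX12 hc h4 h5
        have c3' : (est P a s p s (cand P p q) u : ℝ) ≤ 1 - 1 / (64 * ((n : ℝ) * pM n)) := by
          have := (Rat.cast_le (K := ℝ)).2 c3
          push_cast at this
          rw [← mul_assoc]; exact this
        have hdec : Zq P s (cand P p q) ≤ (1 - 1 / ((128 * n * pM n : ℕ) : ℝ)) * Zq P s p := by
          rw [← div_le_iff₀ hZ0]
          have e1 : 1 / (64 * ((n : ℝ) * pM n)) = 2 * (1 / (128 * ((n : ℝ) * pM n))) := by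
            field_simp; norm_num
          have e2 : ((128 * n * pM n : ℕ) : ℝ) = 128 * ((n : ℝ) * pM n) := by push_cast; ring
          rw [e2]
          linarith [hc'.1]
        have hw : 0 ≤ 1 - 1 / ((128 * n * pM n : ℕ) : ℝ) := by
          have hK' : (1 : ℝ) ≤ ((128 * n * pM n : ℕ) : ℝ) := by exact_mod_cast hK
          have : 1 / ((128 * n * pM n : ℕ) : ℝ) ≤ 1 := by rw [div_le_one (by linarith)]; exact hK'
          linarith
        have h6' : Zq P s (cand P p q) ≤ 2 ^ n * (1 - 1 / ((128 * n * pM n : ℕ) : ℝ)) ^ (m + 1) := by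
          refine hdec.trans ?_
          calc (1 - 1 / ((128 * n * pM n : ℕ) : ℝ)) * Zq P s p
              ≤ (1 - 1 / ((128 * n * pM n : ℕ) : ℝ)) *
                (2 ^ n * (1 - 1 / ((128 * n * pM n : ℕ) : ℝ)) ^ m) :=
                mul_le_mul_of_nonneg_left h6 hw
            _ = _ := by ring
        refine ⟨h1, fun _ => rfl, Nat.zero_le _, ?_, ?_, m + 1, h6', h7', ?_, ?_, ?_⟩
        · simp only; push_cast; exact hu2.1
        · simp only; push_cast; exact hu2.2
        · exact moves_le hK ((Z_ge hBij hRat hP hV').trans h6')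
        · intro q' hq'; simp at hq'
        · right
          simp only
          have : (m + 1) * (2 * nn P + 1) = m * (2 * n + 1) + (2 * n + 1) := by rw [← hndef]; ring
          omega
      · have hA : astep P a (s, p, Zh, q) u = (s, p, Zh, q + 1) := by
          unfold astep; simp only; rw [if_neg c1, if_pos c2, if_neg c3]
        rw [hA]
        have c3' : 1 - 1 / (64 * ((n : ℝ) * pM n)) < (est P a s p s (cand P p q) u : ℝ) := by
          have := (Rat.cast_lt (K := ℝ)).2 (not_le.1 c3)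
          push_cast at this
          rw [← mul_assoc]; exact this
        refine ⟨h1, fun h => absurd h c1, c2, hlo, hhi, m, h6, h7, h8, ?_, ?_⟩
        · intro q' hq'
          simp only at hq' ⊢
          by_cases hqq : q' < q
          · exact h9 q' hqq
          · have : q' = q := by omega
            subst this
            rw [← lt_div_iff₀ hZ0]
            have e1 : 1 / (64 * ((n : ℝ) * pM n)) = 2 * (1 / (128 * ((n : ℝ) * pM n))) := by
              field_simp; norm_num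
            have e2 : 1 / (32 * (n : ℝ) * pM n) = 4 * (1 / (128 * ((n : ℝ) * pM n))) := by
              field_simp; norm_num
            have e3 : 0 < 1 / (128 * ((n : ℝ) * pM n)) := by positivity
            rw [e2]
            linarith [hc'.2]
        · simp only; rw [← hndef]; omega
    · rw [Pb_false]
      · positivity
      · intro u _ hu
        apply hu
        have hA : astep P a (s, p, Zh, q) u = (s, p, Zh, q) := by
          unfold astep; simp only; rw [if_neg c1, if_neg c2]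
        rw [hA]
        exact ⟨h1, h2, h3, hlo, hhi, m, h6, h7, h8, h9, Or.inl (by simp only; omega)⟩

end ANN

theorem ANN_proof (hItr : ItrStmt) (hEst : EstStmt) (hRat : RatStmt) (hAcc : AccStmt)
    (hBij : BijStmt) : AnnStmt := by
  intro P hP a ha
  have hn := hP.pos
  have hM := ANN.pM_pos hn
  have hT := ANN.pTt_ge (nn P)
  have hT' := ANN.pTt_ge' (nn P)
  constructor
  · intro u
    have h := (hItr St (bE P a) (astep P a)
      (0, [], ((∏ k ∈ range (nA (gG P)), (uB P k + 1) : ℕ) : ℚ), 0) (pTt (nn P)) _ le_rfl).2.1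
      (ANN.Inv P) ⟨by simp, by simp, by simp, by simp only; positivity⟩
      (fun i _ x v _ hx => ANN.inv_step P a i x v hx) u
    obtain ⟨h1, h2, h3, h4⟩ := h
    refine ⟨?_, ⟨le_rfl, h2⟩, h3, h4⟩
    unfold prep
    rw [h1]; omega
  · intro c hc
    have hZ0 : Zq P 0 [] = ((bx P).card : ℝ) := by
      unfold Zq
      rw [sum_congr rfl (fun x hx => ((hRat P hP).2.2 x hx).1)]
      simp
    have h0 : ANN.Good P a 0 (0, [], ((∏ k ∈ range (nA (gG P)), (uB P k + 1) : ℕ) : ℚ), 0) := by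
      refine ⟨Nat.zero_le _, fun _ => rfl, Nat.zero_le _, ?_, ?_, 0, ?_, by simp, Nat.zero_le _,
        by simp, Or.inr (Nat.zero_le _)⟩
      · simp only [pow_zero, one_mul]; rw [hZ0, (hRat P hP).1, Rat.cast_natCast]
      · simp only [pow_zero, one_mul]; rw [hZ0, (hRat P hP).1, Rat.cast_natCast]
      · simp only [pow_zero, mul_one]; rw [hZ0]; exact_mod_cast (hRat P hP).2.1
    have h := (hItr St (bE P a) (astep P a)
      (0, [], ((∏ k ∈ range (nA (gG P)), (uB P k + 1) : ℕ) : ℚ), 0) (pTt (nn P)) c hc).2.2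
      (ANN.Good P a) _ h0 (fun i _ x hx => ANN.good_step hBij hRat hEst hP ha i x hx)
    have hfin : (pTt (nn P) : ℝ) * ((2 : ℝ)⁻¹ ^ (a + 1) / (pTt (nn P) + 1)) ≤ (2 : ℝ)⁻¹ ^ (a + 1) := by
      rw [← mul_div_assoc, div_le_iff₀ (by positivity)]
      have : (0 : ℝ) ≤ (2 : ℝ)⁻¹ ^ (a + 1) := by positivity
      nlinarith
    refine le_trans (Pb_mono fun u _ hu => ?_) (h.trans hfin)
    intro hG
    apply hu
    change ANN.Good P a (pTt (nn P)) (prep P a u) at hG
    generalize prep P a u = st at hG ⊢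
    obtain ⟨s, p, Zh, q⟩ := st
    obtain ⟨h1, h2, h3, h4, h5, m, h6, h7, h8, h9, h10⟩ := hG
    simp only at h1 h2 h3 h4 h5 h6 h7 h8 h9 h10 ⊢
    have hm : m * (2 * nn P + 1) ≤ 128 * nn P * pM (nn P) * nn P * (2 * nn P + 1) :=
      Nat.mul_le_mul_right _ h8
    have hq : q = 2 * nn P := by omega
    have hs : s = pS (nn P) := by
      by_contra hs
      have := h2 (by omega)
      omega
    subst hs
    have hV : Valid P (pS (nn P)) p := ⟨le_rfl, fun v => (h7 v).trans (by omega)⟩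
    have hZ1 := ANN.Z_ge hBij hRat hP hV
    have hK : (1 : ℝ) ≤ ((128 * nn P * pM (nn P) : ℕ) : ℝ) := by
      have : 0 < 128 * nn P * pM (nn P) := by positivity
      exact_mod_cast this
    constructor
    · refine hAcc P hP p (fun v => lt_of_le_of_lt (h7 v) (by omega)) (h6.trans ?_) ?_
      · have h11 : 1 / ((128 * nn P * pM (nn P) : ℕ) : ℝ) ≤ 1 := by
          rw [div_le_one (by linarith)]; exact hK
        have h12 : 0 ≤ 1 / ((128 * nn P * pM (nn P) : ℕ) : ℝ) := by positivity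
        have h13 : (1 - 1 / ((128 * nn P * pM (nn P) : ℕ) : ℝ)) ^ m ≤ 1 :=
          pow_le_one₀ (by linarith) (by linarith)
        have h14 : (0 : ℝ) ≤ 2 ^ nn P := by positivity
        nlinarith
      · intro v hv δ hδ
        rcases hδ with rfl | rfl
        · have := h9 (2 * v) (by omega)
          unfold cand at this
          rw [if_pos (by omega), show 2 * v / 2 = v by omega] at this
          exact this
        · have := h9 (2 * v + 1) (by omega)
          unfold cand at this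
          rw [if_neg (by omega), show (2 * v + 1) / 2 = v by omega] at this
          exact this
    · have ha' : (1 : ℝ) ≤ a := by exact_mod_cast ha
      have hnM : (1 : ℝ) ≤ (nn P : ℝ) * pM (nn P) := by
        have : 1 ≤ nn P * pM (nn P) := Nat.one_le_iff_ne_zero.2 (by positivity)
        exact_mod_cast this
      have hT1 : (1 : ℝ) ≤ pTt (nn P) := by
        have : 1 ≤ pTt (nn P) := by omega
        exact_mod_cast this
      have hXi : (pXi (nn P) a : ℝ) = 512 * ((nn P : ℝ) * pM (nn P)) * a * pTt (nn P) := by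
        unfold pXi; push_cast; ring
      have hX0 : (0 : ℝ) < pXi (nn P) a := by rw [hXi]; positivity
      have haT : (1 : ℝ) ≤ (a : ℝ) * pTt (nn P) := by nlinarith
      refine ANN.final ha' (by positivity) ?_ ?_ (by linarith) h4 h5
      · rw [div_le_one hX0, hXi]; nlinarith
      · rw [div_mul_eq_mul_div, div_le_div_iff₀ hX0 (by positivity), hXi]
        nlinarith

end Crest.Agent.R309
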