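import Crest.Agent.R309.AV

/-!
Row 309: iterated random steps.
-/

set_option autoImplicit false

namespace Crest.Agent.R309

open Finset Crest.Agent.QC

theorem iterN_mod {X : Type} (b : ℕ) (σ : X → ℕ → X) (x₀ : X) (u s : ℕ) :
    ∀ T : ℕ, T * b ≤ s → iterN b σ x₀ (u % 2 ^ s) T = iterN b σ x₀ u T
  | 0, _ => rfl
  | T + 1, h => by
    have h' : T * b + b ≤ s := by rwa [Nat.succ_mul] at h
    simp only [iterN]
    rw [iterN_mod b σ x₀ u s T (by omega), fld_mod h']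

theorem Av_iterN_succ {X : Type} (b : ℕ) (σ : X → ℕ → X) (x₀ : X) (T c : ℕ)
    (h : (T + 1) * b ≤ c) (Φ : X → ℕ → ℝ) :
    Av c (fun u => Φ (iterN b σ x₀ u T) (fld u (T * b) b)) =
      Av (T * b) (fun w => Av b (fun v => Φ (iterN b σ x₀ w T) v)) := by
  have h' : T * b + b ≤ c := by rwa [Nat.succ_mul] at h
  rw [← Av_mod_fld h' (fun w v => Φ (iterN b σ x₀ w T) v)]
  refine Av_congr fun u _ => ?_
  rw [iterN_mod b σ x₀ u (T * b) T le_rfl]

theorem Av_iterN {X : Type} (b : ℕ) (σ : X → ℕ → X) (x₀ : X) :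
    ∀ (T c : ℕ), T * b ≤ c → ∀ φ : X → ℝ,
      Av c (fun u => φ (iterN b σ x₀ u T)) = (Kt b σ)^[T] φ x₀
  | 0, c, _, φ => by simp [iterN]
  | T + 1, c, h, φ => by
    rw [Function.iterate_succ_apply, ← Av_iterN b σ x₀ T (T * b) le_rfl (Kt b σ φ)]
    exact Av_iterN_succ b σ x₀ T c h (fun x v => φ (σ x v))

theorem iterN_inv {X : Type} (b : ℕ) (σ : X → ℕ → X) (x₀ : X) (Inv : ℕ → X → Prop)
    (h0 : Inv 0 x₀) (u : ℕ) :
    ∀ T : ℕ, (∀ i < T, ∀ x v, v < 2 ^ b → Inv i x → Inv (i + 1) (σ x v)) →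
      Inv T (iterN b σ x₀ u T)
  | 0, _ => h0
  | T + 1, h => h T (Nat.lt_succ_self T) _ _ (fld_lt _ _ _)
      (iterN_inv b σ x₀ Inv h0 u T fun i hi => h i (by omega))

theorem Pb_iterN {X : Type} (b : ℕ) (σ : X → ℕ → X) (x₀ : X) (Good : ℕ → X → Prop) (δ : ℝ)
    (h0 : Good 0 x₀) :
    ∀ (T c : ℕ), T * b ≤ c →
      (∀ i < T, ∀ x, Good i x → Pb b (fun v => ¬ Good (i + 1) (σ x v)) ≤ δ) →
      Pb c (fun u => ¬ Good T (iterN b σ x₀ u T)) ≤ T * δ
  | 0, c, _, _ => by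
    rw [Pb_false (fun u _ => not_not.2 (by exact h0))]
    simp
  | T + 1, c, h, hs => by
    classical
    have hδ : 0 ≤ δ := (Pb_nonneg _ _).trans (hs 0 (by omega) x₀ h0)
    have h' : T * b + b ≤ c := by rwa [Nat.succ_mul] at h
    have ih := Pb_iterN b σ x₀ Good δ h0 T c (by omega) fun i hi => hs i (by omega)
    have h2 : Pb c (fun u => Good T (iterN b σ x₀ u T) ∧
        ¬ Good (T + 1) (σ (iterN b σ x₀ u T) (fld u (T * b) b))) ≤ δ := by
      have e := Pb_mod_fld h' (fun w v => Good T (iterN b σ x₀ w T) ∧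
        ¬ Good (T + 1) (σ (iterN b σ x₀ w T) v))
      simp only [iterN_mod b σ x₀ _ (T * b) T le_rfl] at e
      rw [e]
      refine Av_le_const fun w _ => ?_
      by_cases hg : Good T (iterN b σ x₀ w T)
      · exact (Pb_mono fun v _ hv => hv.2).trans (hs T (by omega) _ hg)
      · rw [Pb_false fun v _ hv => hg hv.1]
        exact hδ
    have h3 := Pb_le_add (c := c)
      (E := fun u => ¬ Good (T + 1) (iterN b σ x₀ u (T + 1)))
      (E₁ := fun u => ¬ Good T (iterN b σ x₀ u T))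
      (E₂ := fun u => Good T (iterN b σ x₀ u T) ∧
        ¬ Good (T + 1) (σ (iterN b σ x₀ u T) (fld u (T * b) b))) (fun u _ hu => by
        by_cases hg : Good T (iterN b σ x₀ u T)
        · exact Or.inr ⟨hg, hu⟩
        · exact Or.inl hg)
    push_cast
    linarith

theorem ITR_proof (_hAv : AvStmt) : ItrStmt :=
  fun _ b σ x₀ T c h => ⟨Av_iterN b σ x₀ T c h,
    fun Inv h0 hs u => iterN_inv b σ x₀ Inv h0 u T hs,
    fun Good δ h0 hs => Pb_iterN b σ x₀ Good δ h0 T c h hs⟩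

end Crest.Agent.R309
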