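import Crest.Agent.R309.BIJ
import Crest.Agent.R309.AV

/-! Row 309, task KT: the random step realises the ideal kernel. -/

set_option autoImplicit false

namespace Crest.Agent.R309

open Finset Crest.Agent.PT Crest.Agent.QC Crest.Agent.R317 Crest.Agent.R300U

namespace KT

open BIJ

theorem mul_crs {w w' : ℚ} (hw : 0 < w) (hw' : 0 < w') :
    (w : ℝ) * (crs w w' : ℝ) = (w.num : ℝ) * (w'.num : ℝ) := by
  unfold crs
  have h1 : ((w'.num.toNat : ℕ) : ℝ) = (w'.num : ℝ) := by
    have : ((w'.num.toNat : ℕ) : ℤ) = w'.num := Int.toNat_of_nonneg (Rat.num_pos.2 hw').le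
    exact_mod_cast this
  have h2 : (w : ℝ) * (w.den : ℝ) = (w.num : ℝ) := by
    have := Rat.mul_den_eq_num w
    exact_mod_cast this
  have _ := hw
  push_cast
  rw [h1, ← h2]; ring

theorem crs_pos {w w' : ℚ} (hw' : 0 < w') : 0 < crs w w' := by
  unfold crs
  have : 0 < w'.num := Rat.num_pos.2 hw'
  exact Nat.mul_pos (by omega) w.den_pos

theorem acq_facts (w w' : ℚ) (hw : 0 < w) (hw' : 0 < w') : 0 ≤ acq w w' ∧ acq w w' ≤ 1 ∧
    (w : ℝ) * acq w w' = w' * acq w' w ∧ min (w : ℝ) w' ≤ 2 * (w * acq w w') := by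
  have e1 := mul_crs hw hw'
  have e2 := mul_crs hw' hw
  have p1 : 0 < crs w w' := crs_pos hw'
  set M := max (crs w w') (crs w' w) with hM
  have hMp : 0 < M := lt_max_of_lt_left p1
  have h1 : M < 2 ^ M.size := Nat.lt_size_self M
  have h2 : 2 ^ M.size ≤ 2 * M := by
    have hs : 0 < M.size := Nat.size_pos.2 hMp
    have : 2 ^ (M.size - 1) ≤ M := Nat.lt_size.1 (by omega)
    calc 2 ^ M.size = 2 * 2 ^ (M.size - 1) := by
          rw [← pow_succ']; congr 1; omega
      _ ≤ 2 * M := by omega
  have hp : (0 : ℝ) < 2 ^ M.size := by positivity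
  have hwR : (0 : ℝ) < w := by exact_mod_cast hw
  have hwR' : (0 : ℝ) < w' := by exact_mod_cast hw'
  refine ⟨by unfold acq; positivity, ?_, ?_, ?_⟩
  · unfold acq
    rw [← hM, div_le_one hp]
    have : crs w w' ≤ 2 ^ M.size := (le_max_left _ _).trans h1.le
    exact_mod_cast this
  · unfold acq
    rw [max_comm (crs w' w), ← hM, ← mul_div_assoc, ← mul_div_assoc, e1, e2, mul_comm]
  · unfold acq
    rw [← hM, ← mul_div_assoc, ← mul_div_assoc, le_div_iff₀ hp]
    have h3 : (2 : ℝ) ^ M.size ≤ 2 * M := by exact_mod_cast h2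
    have h4 : min (w : ℝ) w' * M ≤ w * crs w w' := by
      rcases max_choice (crs w w') (crs w' w) with h | h
      · rw [hM, h]
        exact mul_le_mul_of_nonneg_right (min_le_left _ _) (by positivity)
      · rw [hM, h, e1, mul_comm (w.num : ℝ), ← e2]
        exact mul_le_mul_of_nonneg_right (min_le_right _ _) (by positivity)
    have h5 : 0 ≤ min (w : ℝ) w' := (lt_min hwR hwR').le
    nlinarith

theorem Av_accept {B : ℕ} {w w' : ℚ} (hs : (max (crs w w') (crs w' w)).size ≤ B) (α β : ℝ) :
    Av B (fun r => if r < accN B w w' then α else β) = β + acq w w' * (α - β) := by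
  set M := max (crs w w') (crs w' w) with hM
  have h1 : crs w w' ≤ 2 ^ M.size := (le_max_left _ _).trans (Nat.lt_size_self M).le
  have e : 2 ^ B = 2 ^ M.size * 2 ^ (B - M.size) := by rw [← pow_add]; congr 1; omega
  have h2 : accN B w w' ≤ 2 ^ B := by
    unfold accN
    rw [← hM, e]
    exact Nat.mul_le_mul_right _ h1
  have h3 := Pb_lt h2
  have h4 : (accN B w w' : ℝ) / 2 ^ B = acq w w' := by
    unfold accN acq
    rw [← hM]
    have e' : (2 : ℝ) ^ B = 2 ^ M.size * 2 ^ (B - M.size) := by exact_mod_cast e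
    rw [e']
    push_cast
    field_simp
  rw [h4] at h3
  rw [← h3]
  unfold Pb
  have h5 := Av_add B (fun _ => β) (fun u => (@ite ℝ (u < accN B w w')
    (Classical.propDecidable _) 1 0) * (α - β))
  rw [Av_const, Av_mul_const] at h5
  rw [← h5]
  refine Av_congr fun r _ => ?_
  split_ifs <;> ring

theorem setL_toL {N : ℕ} (x : Fin N → ℕ) (k : Fin N) (v : ℕ) :
    setL N (toL x) k v = toL (Function.update x k v) := by
  unfold setL
  refine mkL_eq_toL _ _ fun j => ?_
  by_cases h : j = k
  · subst h; simp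
  · have : (j : ℕ) ≠ k := fun e => h (Fin.ext e)
    rw [if_neg this, Function.update_of_ne h, gv_toL]

/-- the move on states -/
def mvF (P : Pre) (x : Fin (nA (gG P)) → ℕ) (k : Fin (nA (gG P))) (σ d : ℕ) : Fin (nA (gG P)) → ℕ :=
  if σ = 1 then (if x k + d ≤ uB P k then Function.update x k (x k + d) else x)
  else (if d ≤ x k then Function.update x k (x k - d) else x)

theorem mv_toL (P : Pre) (x : Fin (nA (gG P)) → ℕ) (k : Fin (nA (gG P))) (σ d : ℕ) :
    mv P (toL x) k σ d = toL (mvF P x k σ d) := by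
  unfold mv mvF
  rw [gv_toL]
  split_ifs <;> first | rfl | exact setL_toL _ _ _

theorem mvF_mem {P : Pre} {x : Fin (nA (gG P)) → ℕ} (hx : x ∈ bx P) (k : Fin (nA (gG P)))
    (σ d : ℕ) : mvF P x k σ d ∈ bx P := by
  have h := mem_bx.1 hx
  have key : ∀ v, v ≤ uB P k → Function.update x k v ∈ bx P := by
    intro v hv
    rw [mem_bx]
    intro j
    by_cases e : j = k
    · subst e; simpa using hv
    · rw [Function.update_of_ne e]; exact h j
  unfold mvF
  split_ifs with h1 h2 h3
  · exact key _ h2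
  · exact hx
  · exact key _ (by have := h k; omega)
  · exact hx

theorem prop_mem {P : Pre} {x : Fin (nA (gG P)) → ℕ} (hx : x ∈ bx P) (u : ℕ) :
    ∃ y ∈ bx P, prop P (toL x) u = toL y := by
  unfold prop
  split_ifs with h
  · have e : un (nA (gG P)) (fld u 0 (aB P)) = fld u 0 (aB P) := min_eq_left h.1.le
    rw [e]
    exact ⟨_, mvF_mem hx ⟨_, h.1⟩ _ _, mv_toL P x ⟨_, h.1⟩ _ _⟩
  · exact ⟨x, hx, rfl⟩

theorem Av_three {n h : ℕ} (hh : h ≤ n) (G : ℕ → ℕ → ℕ → ℝ) :
    Av (2 + n) (fun t => G (fld t 0 1) (fld t 1 1) (fld t 2 h)) =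
      (Av h (G 0 0) + Av h (G 1 0) + Av h (G 0 1) + Av h (G 1 1)) / 4 := by
  have e := Av_mod_fld (c := 2 + n) (s := 2) (k := h) (by omega)
    (fun x y => G (fld x 0 1) (fld x 1 1) y)
  simp only [fld_mod (show 0 + 1 ≤ 2 by omega), fld_mod (show 1 + 1 ≤ 2 by omega)] at e
  rw [e]
  conv_lhs => unfold Av
  have e4 : (2 : ℕ) ^ 2 = 4 := by norm_num
  rw [e4]
  simp only [sum_range_succ, sum_range_zero, zero_add]
  have a0 : fld 0 0 1 = 0 := by decide
  have a1 : fld 1 0 1 = 1 := by decide
  have a2 : fld 2 0 1 = 0 := by decide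
  have a3 : fld 3 0 1 = 1 := by decide
  have b0 : fld 0 1 1 = 0 := by decide
  have b1 : fld 1 1 1 = 0 := by decide
  have b2 : fld 2 1 1 = 1 := by decide
  have b3 : fld 3 1 1 = 1 := by decide
  rw [a0, a1, a2, a3, b0, b1, b2, b3]
  unfold Av
  norm_num

/-- the law of the proposal -/
theorem Av_prop {P : Pre} (hhe : ∀ k : Fin (nA (gG P)), he P k ≤ nn P) (x : Fin (nA (gG P)) → ℕ)
    (ψ : List Bin → ℝ) (h0 : ψ (toL x) = 0) :
    Av (b0 P) (fun v => ψ (prop P (toL x) v)) =
      ∑ k : Fin (nA (gG P)), ∑ d ∈ Icc 1 (2 ^ he P k),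
        (ψ (toL (mvF P x k 1 d)) + ψ (toL (mvF P x k 0 d))) /
          (4 * (2 : ℝ) ^ aB P * ((2 ^ he P k : ℕ) : ℝ)) := by
  have e := Av_split (aB P) (2 + nn P) (fun i t =>
    ψ (if i < nA (gG P) ∧ fld t 0 1 = 1 then
      mv P (toL x) (un (nA (gG P)) i) (fld t 1 1)
        (fld t 2 (un (nn P) (he P (un (nA (gG P)) i))) + 1) else toL x))
  have e0 : b0 P = aB P + (2 + nn P) := by unfold b0; omega
  rw [e0]
  refine Eq.trans (Eq.trans (Av_congr fun v _ => ?_) e) ?_
  · unfold prop
    simp only [fld_div, add_zero]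
    simp only [fld_zero]
  have hA : nA (gG P) ≤ 2 ^ aB P := (Nat.lt_size_self _).le
  set T : ℕ → ℝ := fun i => Av (2 + nn P) (fun t => ψ (if i < nA (gG P) ∧ fld t 0 1 = 1 then
      mv P (toL x) (un (nA (gG P)) i) (fld t 1 1)
        (fld t 2 (un (nn P) (he P (un (nA (gG P)) i))) + 1) else toL x)) with hT
  have z : ∀ i, nA (gG P) ≤ i → T i = 0 := by
    intro i hi
    rw [hT]
    simp only
    rw [← Av_const (2 + nn P) 0]
    refine Av_congr fun t _ => ?_
    rw [if_neg (fun h => by omega), h0]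
  have e2 : ∑ i ∈ range (2 ^ aB P), T i = ∑ k : Fin (nA (gG P)), T k := by
    rw [← sum_range (fun i => T i)]
    symm
    refine sum_subset (range_subset_range.2 hA) fun i _ hi => z i (by simpa using hi)
  show (∑ i ∈ range (2 ^ aB P), T i) / 2 ^ aB P = _
  rw [e2, sum_div]
  refine sum_congr rfl fun k _ => ?_
  have u1 : un (nA (gG P)) k = k := min_eq_left k.2.le
  have u2 : un (nn P) (he P k) = he P k := min_eq_left (hhe k)
  have e3 : T k = (Av (he P k) (fun r => ψ (toL (mvF P x k 0 (r + 1)))) +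
      Av (he P k) (fun r => ψ (toL (mvF P x k 1 (r + 1))))) / 4 := by
    rw [hT]
    simp only [u1, u2]
    have := Av_three (hhe k) (fun e σ r => ψ (if (k : ℕ) < nA (gG P) ∧ e = 1 then
      mv P (toL x) k σ (r + 1) else toL x))
    rw [this]
    simp only [k.2, true_and, zero_ne_one, if_false, if_true, h0, Av_const, mv_toL]
    ring
  rw [e3, ← Av_add, ← sum_div]
  unfold Av
  have e4 : ∀ f : ℕ → ℝ, ∑ d ∈ Icc 1 (2 ^ he P k), f d = ∑ r ∈ range (2 ^ he P k), f (r + 1) := by
    intro f
    rw [range_eq_Ico, sum_Ico_add' f 0 _ 1]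
    rfl
  rw [e4]
  have e5 : ∑ r ∈ range (2 ^ he P k), (ψ (toL (mvF P x k 0 (r + 1))) + ψ (toL (mvF P x k 1 (r + 1)))) =
      ∑ r ∈ range (2 ^ he P k), (ψ (toL (mvF P x k 1 (r + 1))) + ψ (toL (mvF P x k 0 (r + 1)))) :=
    sum_congr rfl fun r _ => add_comm _ _
  rw [e5]
  push_cast
  field_simp

/-- the two neighbours of a state -/
theorem sum_nbr {P : Pre} {x : Fin (nA (gG P)) → ℕ} (hx : x ∈ bx P) (k : Fin (nA (gG P))) {d : ℕ}
    (hd : 1 ≤ d) (Ψ : (Fin (nA (gG P)) → ℕ) → ℝ) (h0 : Ψ x = 0) :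
    ∑ y ∈ bx P, (if y ∈ box (fun k : Fin (nA (gG P)) => uB P k) ∧
        (y = x + Pi.single k d ∨ x = y + Pi.single k d) then Ψ y else 0) =
      Ψ (mvF P x k 1 d) + Ψ (mvF P x k 0 d) := by
  have hup : x + Pi.single k d = Function.update x k (x k + d) := by
    funext j
    by_cases e : j = k
    · subst e; simp
    · simp [Function.update_of_ne e, Pi.single_eq_of_ne e]
  have key : ∀ y ∈ bx P, (if y ∈ box (fun k : Fin (nA (gG P)) => uB P k) ∧
        (y = x + Pi.single k d ∨ x = y + Pi.single k d) then Ψ y else 0) =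
      (if mvF P x k 1 d = y then Ψ y else 0) + (if mvF P x k 0 d = y then Ψ y else 0) := by
    intro y hy
    have hy' : y ∈ box (fun k : Fin (nA (gG P)) => uB P k) := hy
    have hyk := mem_bx.1 hy k
    by_cases hyx : y = x
    · subst hyx; simp [h0]
    · have a1 : mvF P x k 1 d = y ↔ y = x + Pi.single k d := by
        unfold mvF
        rw [if_pos rfl, hup]
        constructor
        · intro h
          split_ifs at h
          · exact h.symm
          · exact absurd h.symm hyx
        · intro h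
          have : x k + d ≤ uB P k := by
            rw [h, Function.update_self] at hyk; exact hyk
          rw [if_pos this, h]
      have a2 : mvF P x k 0 d = y ↔ x = y + Pi.single k d := by
        unfold mvF
        rw [if_neg zero_ne_one]
        constructor
        · intro h
          split_ifs at h with h1
          · rw [← h]
            funext j
            by_cases e : j = k
            · subst e; simp; omega
            · simp [Function.update_of_ne e, Pi.single_eq_of_ne e]
          · exact absurd h.symm hyx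
        · intro h
          have h1 : x k = y k + d := by rw [h]; simp
          rw [if_pos (by omega)]
          funext j
          by_cases e : j = k
          · subst e; simp; omega
          · rw [Function.update_of_ne e, h]; simp [Pi.single_eq_of_ne e]
      have a3 : ¬ (y = x + Pi.single k d ∧ x = y + Pi.single k d) := by
        rintro ⟨h1, h2⟩
        have b1 : y k = x k + d := by rw [h1]; simp
        have b2 : x k = y k + d := by
          have := congrFun h2 k
          simpa using this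
        omega
      simp only [a1, a2, hy', true_and]
      by_cases c1 : y = x + Pi.single k d
      · have c2 : ¬ x = y + Pi.single k d := fun c2 => a3 ⟨c1, c2⟩
        rw [if_pos (Or.inl c1), if_pos c1, if_neg c2, add_zero]
      · by_cases c2 : x = y + Pi.single k d
        · rw [if_pos (Or.inr c2), if_neg c1, if_pos c2, zero_add]
        · rw [if_neg (fun h => h.elim c1 c2), if_neg c1, if_neg c2, add_zero]
  rw [sum_congr rfl key, sum_add_distrib, sum_ite_eq, sum_ite_eq, if_pos (mvF_mem hx k 1 d),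
    if_pos (mvF_mem hx k 0 d)]

theorem Kop_kerA {κ : Type} [Fintype κ] [DecidableEq κ] (u h : κ → ℕ) (A : ℝ)
    (ac : (κ → ℕ) → (κ → ℕ) → ℝ) (f : (κ → ℕ) → ℝ) {x : κ → ℕ} (hx : x ∈ box u) :
    Kop (box u) (kerA u h A ac) f x = f x + ∑ y ∈ box u, offA u h A ac x y * (f y - f x) := by
  have h0 : offA u h A ac x x = 0 := by
    unfold offA
    refine sum_eq_zero fun k _ => sum_eq_zero fun d hd => if_neg ?_
    rintro ⟨_, h1⟩
    have h2 : x = x + Pi.single k d := h1.elim id id
    have h3 := congrFun h2 k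
    simp only [mem_Icc] at hd
    simp at h3
    omega
  unfold Kop
  have e : ∀ y ∈ box u, kerA u h A ac x y * f y = offA u h A ac x y * f y +
      (if x = y then (1 - ∑ z ∈ box u, offA u h A ac x z) * f x else 0) := by
    intro y _
    unfold kerA
    by_cases e : y = x
    · subst e; simp [h0]
    · rw [if_neg e, if_neg (Ne.symm e), add_zero]
  rw [sum_congr rfl e, sum_add_distrib, sum_ite_eq, if_pos hx]
  simp only [mul_sub, sum_sub_distrib, ← sum_mul]
  ring

end KT

open KT BIJ in
theorem KT_proof (hHt : HtStmt) (hLl : LlStmt) : KtStmt := by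
  refine ⟨acq_facts, fun P hP s p hv x hx => ⟨fun u => ?_, fun φ => ?_⟩⟩
  · unfold mstep
    split_ifs
    · exact prop_mem hx _
    · exact ⟨x, hx, rfl⟩
  · have hhe : ∀ k : Fin (nA (gG P)), he P k ≤ nn P := fun k => (hLl P hP s p hv k).1
    have hsz : ∀ y ∈ bx P, (max (crs (wq P s p (toL x)) (wq P s p (toL y)))
        (crs (wq P s p (toL y)) (wq P s p (toL x)))).size ≤ 2 * pH (nn P) := by
      intro y hy
      obtain ⟨-, a1, a2⟩ := hHt P hP s p hv x hx
      obtain ⟨-, b1, b2⟩ := hHt P hP s p hv y hy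
      rw [Nat.size_le, two_mul, pow_add]
      unfold crs
      exact max_lt (Nat.mul_lt_mul'' b1 a2) (Nat.mul_lt_mul'' a1 b2)
    set ψ : List Bin → ℝ := fun l => acq (wq P s p (toL x)) (wq P s p l) * (φ l - φ (toL x)) with hψ
    have h0 : ψ (toL x) = 0 := by simp [hψ]
    have e1 : Kt (b1 P) (mstep P s p) φ (toL x) =
        φ (toL x) + Av (b0 P) (fun v => ψ (prop P (toL x) v)) := by
      unfold Kt
      have e := Av_fld_fld (c := b1 P) (s := 0) (k := b0 P) (s' := b0 P) (k' := 2 * pH (nn P))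
        (by omega) (by unfold b1; omega) (fun v r =>
          if r < accN (2 * pH (nn P)) (wq P s p (toL x)) (wq P s p (prop P (toL x) v)) then
            φ (prop P (toL x) v) else φ (toL x))
      rw [← Av_const (b0 P) (φ (toL x)), ← Av_add]
      refine Eq.trans (Av_congr fun u _ => ?_) (e.trans (Av_congr fun v _ => ?_))
      · unfold mstep
        split_ifs <;> rfl
      · obtain ⟨y, hy, ey⟩ := prop_mem hx v
        rw [Av_accept (by rw [ey]; exact hsz y hy)]
    rw [e1, Av_prop hhe x ψ h0]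
    have hx' : x ∈ box (fun k : Fin (nA (gG P)) => uB P k) := hx
    have e2 := Kop_kerA (fun k : Fin (nA (gG P)) => uB P k) (fun k => 2 ^ he P k) (2 ^ aB P)
      (fun x y => acq (wq P s p (toL x)) (wq P s p (toL y))) (fun y => φ (toL y)) hx'
    refine Eq.trans ?_ e2.symm
    congr 1
    unfold offA
    simp only [sum_mul]
    rw [sum_comm]
    refine sum_congr rfl fun k _ => ?_
    rw [sum_comm]
    refine sum_congr rfl fun d hd => ?_
    have hd1 : 1 ≤ d := (mem_Icc.1 hd).1
    rw [← sum_nbr hx k hd1 (fun y => ψ (toL y)) h0, sum_div]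
    refine sum_congr rfl fun y _ => ?_
    split_ifs
    · rw [hψ]; ring
    · simp

end Crest.Agent.R309
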