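import Crest.Agent.R309.DefsA

/-! Row 309, task MIX: geometric decay of the variance under a lazy reversible kernel. -/

set_option autoImplicit false

namespace Crest.Agent.R309

open Finset

namespace MIX

variable {X : Type} {Ω : Finset X} {π : X → ℝ} {P : X → X → ℝ}

lemma mean_K (hP : ∀ x ∈ Ω, ∀ y ∈ Ω, 0 ≤ P x y ∧ π x * P x y = π y * P y x)
    (hS : ∀ x ∈ Ω, ∑ y ∈ Ω, P x y = 1 ∧ 1 / 2 ≤ P x x) (f : X → ℝ) :
    ∑ x ∈ Ω, π x * Kop Ω P f x = ∑ x ∈ Ω, π x * f x := by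
  unfold Kop
  calc ∑ x ∈ Ω, π x * ∑ y ∈ Ω, P x y * f y = ∑ x ∈ Ω, ∑ y ∈ Ω, π y * P y x * f y := by
        refine sum_congr rfl fun x hx => ?_
        rw [mul_sum]
        refine sum_congr rfl fun y hy => ?_
        rw [← (hP x hx y hy).2]; ring
    _ = ∑ y ∈ Ω, ∑ x ∈ Ω, π y * P y x * f y := sum_comm
    _ = ∑ y ∈ Ω, π y * f y := by
        refine sum_congr rfl fun y hy => ?_
        rw [← sum_mul, ← mul_sum, (hS y hy).1, mul_one]

lemma local_var (hP : ∀ x ∈ Ω, ∀ y ∈ Ω, 0 ≤ P x y ∧ π x * P x y = π y * P y x)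
    (hS : ∀ x ∈ Ω, ∑ y ∈ Ω, P x y = 1 ∧ 1 / 2 ≤ P x x) (f : X → ℝ) {x : X} (hx : x ∈ Ω) :
    Kop Ω P f x ^ 2 + (1 / 2) * ∑ y ∈ Ω, P x y * (f x - f y) ^ 2 ≤
      Kop Ω P (fun y => f y ^ 2) x := by
  classical
  unfold Kop
  have h1 := (hS x hx).1
  have h2 := (hS x hx).2
  set D := ∑ y ∈ Ω, P x y * (f x - f y) ^ 2 with hD
  set m := ∑ y ∈ Ω, P x y * f y with hm
  have hD0 : 0 ≤ D := sum_nonneg fun y hy => mul_nonneg (hP x hx y hy).1 (sq_nonneg _)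
  have hexp : D = f x ^ 2 - 2 * f x * m + ∑ y ∈ Ω, P x y * f y ^ 2 := by
    have : ∀ y ∈ Ω, P x y * (f x - f y) ^ 2 =
        f x ^ 2 * P x y - 2 * f x * (P x y * f y) + P x y * f y ^ 2 := fun y _ => by ring
    rw [hD, sum_congr rfl this, sum_add_distrib, sum_sub_distrib, ← mul_sum, ← mul_sum, h1]
    ring
  have hlin : f x - m = ∑ y ∈ Ω.erase x, P x y * (f x - f y) := by
    rw [sum_erase _ (by simp)]
    have : ∀ y ∈ Ω, P x y * (f x - f y) = f x * P x y - P x y * f y := fun y _ => by ring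
    rw [sum_congr rfl this, sum_sub_distrib, ← mul_sum, h1]
    ring
  have hcs : (∑ y ∈ Ω.erase x, P x y * (f x - f y)) ^ 2 ≤
      (∑ y ∈ Ω.erase x, P x y) * ∑ y ∈ Ω.erase x, P x y * (f x - f y) ^ 2 := by
    refine sum_sq_le_sum_mul_sum_of_sq_eq_mul _ (fun y hy => (hP x hx y (mem_of_mem_erase hy)).1)
      (fun y hy => mul_nonneg (hP x hx y (mem_of_mem_erase hy)).1 (sq_nonneg _))
      (fun y _ => by ring)
  have h3 : ∑ y ∈ Ω.erase x, P x y = 1 - P x x := by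
    rw [← h1, ← add_sum_erase Ω _ hx]; ring
  have h4 : ∑ y ∈ Ω.erase x, P x y * (f x - f y) ^ 2 = D := by
    rw [hD, sum_erase _ (by simp)]
  rw [← hlin, h3, h4] at hcs
  have h5 : (1 - P x x) * D ≤ (1 / 2) * D := mul_le_mul_of_nonneg_right (by linarith) hD0
  nlinarith

lemma step {C : ℝ} (hC : 1 ≤ C) (hπ : ∀ x ∈ Ω, 0 < π x)
    (hP : ∀ x ∈ Ω, ∀ y ∈ Ω, 0 ≤ P x y ∧ π x * P x y = π y * P y x)
    (hS : ∀ x ∈ Ω, ∑ y ∈ Ω, P x y = 1 ∧ 1 / 2 ≤ P x x)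
    (hV : ∀ f, 2 * Var Ω π f ≤ C * ∑ x ∈ Ω, ∑ y ∈ Ω, π x * P x y * (f x - f y) ^ 2)
    (f : X → ℝ) (hf : ∑ x ∈ Ω, π x * f x = 0) :
    ∑ x ∈ Ω, π x * Kop Ω P f x ^ 2 ≤ (1 - 1 / C) * ∑ x ∈ Ω, π x * f x ^ 2 := by
  have h1 := hV f
  unfold Var at h1
  rw [hf] at h1
  set E := ∑ x ∈ Ω, ∑ y ∈ Ω, π x * P x y * (f x - f y) ^ 2 with hE
  set N := ∑ x ∈ Ω, π x * f x ^ 2 with hN
  have h2 : ∑ x ∈ Ω, π x * Kop Ω P f x ^ 2 + (1 / 2) * E ≤ N := by
    rw [hN, ← mean_K hP hS (fun y => f y ^ 2), hE, mul_sum, ← sum_add_distrib]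
    refine sum_le_sum fun x hx => ?_
    have := mul_le_mul_of_nonneg_left (local_var hP hS f hx) (hπ x hx).le
    refine le_trans (le_of_eq ?_) this
    have e : ∑ y ∈ Ω, π x * P x y * (f x - f y) ^ 2 = π x * ∑ y ∈ Ω, P x y * (f x - f y) ^ 2 := by
      rw [mul_sum]; exact sum_congr rfl fun y _ => by ring
    rw [e]; ring
  have hC0 : 0 < C := by linarith
  have h3 : N / C ≤ (1 / 2) * E := by
    rw [div_le_iff₀ hC0]
    have : (0 : ℝ) ^ 2 / ∑ x ∈ Ω, π x = 0 := by simp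
    rw [this] at h1
    linarith
  have : (1 - 1 / C) * N = N - N / C := by ring
  rw [this]; linarith

end MIX

theorem MIX_proof : MixStmt := by
  intro X Ω π P C hC hπ hP hS hV φ hφ x₀ hx₀ T
  set Z := ∑ x ∈ Ω, π x with hZ
  have hZ0 : 0 < Z := sum_pos hπ ⟨x₀, hx₀⟩
  set m := (∑ x ∈ Ω, π x * φ x) / Z with hm
  have hC0 : 0 < C := by linarith
  have hq : 0 ≤ 1 - 1 / C := by
    have : 1 / C ≤ 1 := by rw [div_le_one hC0]; exact hC
    linarith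
  have hmZ : m * Z = ∑ x ∈ Ω, π x * φ x := by rw [hm]; field_simp
  have key : ∀ T : ℕ, ∑ x ∈ Ω, π x * (Kop Ω P)^[T] φ x = m * Z ∧
      ∑ x ∈ Ω, π x * ((Kop Ω P)^[T] φ x - m) ^ 2 ≤ Z * (1 - 1 / C) ^ T := by
    intro T
    induction T with
    | zero =>
      simp only [Function.iterate_zero, id, pow_zero, mul_one]
      refine ⟨hmZ.symm, ?_⟩
      have e : ∀ x ∈ Ω, π x * (φ x - m) ^ 2 = π x * φ x ^ 2 - 2 * m * (π x * φ x) + m ^ 2 * π x :=
        fun x _ => by ring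
      rw [sum_congr rfl e, sum_add_distrib, sum_sub_distrib, ← mul_sum, ← mul_sum, ← hmZ, ← hZ]
      have h1 : ∑ x ∈ Ω, π x * φ x ^ 2 ≤ Z := by
        refine sum_le_sum fun x hx => ?_
        have h2 : φ x ^ 2 ≤ 1 := by
          have := hφ x hx
          rw [← sq_abs]; nlinarith [abs_nonneg (φ x)]
        nlinarith [hπ x hx]
      nlinarith [sq_nonneg m]
    | succ T ih =>
      rw [Function.iterate_succ_apply']
      set f := (Kop Ω P)^[T] φ with hf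
      refine ⟨by rw [MIX.mean_K hP hS, ih.1], ?_⟩
      have h0 : ∑ x ∈ Ω, π x * (f x - m) = 0 := by
        have e : ∀ x ∈ Ω, π x * (f x - m) = π x * f x - m * π x := fun x _ => by ring
        rw [sum_congr rfl e, sum_sub_distrib, ← mul_sum, ih.1, ← hZ, sub_self]
      have h1 := MIX.step hC hπ hP hS hV (fun x => f x - m) h0
      have e : ∀ x ∈ Ω, π x * (Kop Ω P f x - m) ^ 2 = π x * Kop Ω P (fun x => f x - m) x ^ 2 := by
        intro x hx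
        congr 2
        unfold Kop
        have e2 : ∀ y ∈ Ω, P x y * (f y - m) = P x y * f y - m * P x y := fun y _ => by ring
        rw [sum_congr rfl e2, sum_sub_distrib, ← mul_sum, (hS x hx).1, mul_one]
      rw [sum_congr rfl e]
      refine h1.trans ?_
      calc (1 - 1 / C) * ∑ x ∈ Ω, π x * (f x - m) ^ 2 ≤ (1 - 1 / C) * (Z * (1 - 1 / C) ^ T) :=
            mul_le_mul_of_nonneg_left ih.2 hq
        _ = Z * (1 - 1 / C) ^ (T + 1) := by ring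
  have h1 : π x₀ * ((Kop Ω P)^[T] φ x₀ - m) ^ 2 ≤ Z * (1 - 1 / C) ^ T :=
    le_trans (single_le_sum (f := fun x => π x * ((Kop Ω P)^[T] φ x - m) ^ 2)
      (fun x hx => mul_nonneg (hπ x hx).le (sq_nonneg _)) hx₀) (key T).2
  have hp := hπ x₀ hx₀
  rw [div_mul_eq_mul_div, le_div_iff₀ hp]
  linarith

end Crest.Agent.R309
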