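import Crest.Agent.R309.DefsC

set_option autoImplicit false

namespace Crest.Agent.R309

open Finset

namespace SAMP

theorem zer_eq (P : Pre) : zer P = toL (0 : Fin (nA (gG P)) → ℕ) := by
  unfold zer toL
  simp [List.ofFn_const]

theorem zero_mem (P : Pre) : (0 : Fin (nA (gG P)) → ℕ) ∈ bx P := by
  unfold bx box
  simp [Fintype.mem_piFinset]

theorem two_pow_size_le (m : ℕ) : 2 ^ m.size ≤ 2 * m + 1 := by
  rcases Nat.eq_zero_or_pos m with rfl | h
  · simp
  · have h1 : 0 < m.size := Nat.size_pos.2 h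
    have h2 : 2 ^ (m.size - 1) ≤ m := Nat.lt_size.1 (by omega)
    have h3 : 2 ^ m.size = 2 * 2 ^ (m.size - 1) := by
      rw [← pow_succ']; congr 1; omega
    omega

theorem half_pow (C : ℕ) (hC : 1 ≤ C) : (1 - 1 / (C : ℝ)) ^ C ≤ 2⁻¹ := by
  have hC' : (1 : ℝ) ≤ C := by exact_mod_cast hC
  have h0 : 0 ≤ 1 - 1 / (C : ℝ) := by
    have : 1 / (C : ℝ) ≤ 1 := (div_le_one (by linarith)).2 hC'
    linarith
  have h1 : (1 - 1 / (C : ℝ)) ^ C ≤ Real.exp (-(1 / (C : ℝ))) ^ C :=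
    pow_le_pow_left₀ h0 (by linarith [Real.add_one_le_exp (-(1 / (C : ℝ)))]) C
  rw [← Real.exp_nat_mul, show (C : ℝ) * -(1 / (C : ℝ)) = -1 by field_simp, Real.exp_neg] at h1
  refine h1.trans (inv_anti₀ (by norm_num) ?_)
  linarith [Real.add_one_le_exp (1 : ℝ)]

end SAMP

open SAMP in
theorem SAMP_proof (hLf : LfStmt) (hLl : LlStmt) (hSmo : SmoStmt) (hKra : KraStmt) (hMix : MixStmt)
    (hKt : KtStmt) (hRat : RatStmt) (hHt : HtStmt) : SampStmt := by
  intro P hP s p hv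
  obtain ⟨hK1, hK2⟩ := hKt
  have hK := hK2 P hP s p hv
  refine ⟨fun T u => ?_, fun A φ hφ => ?_⟩
  · unfold samp
    induction T with
    | zero => exact ⟨0, zero_mem P, by rw [iterN, zer_eq]⟩
    | succ T ih =>
      obtain ⟨y, hy, e⟩ := ih
      rw [iterN, e]
      exact (hK y hy).1 _
  set n := nn P with hn
  have hn1 : 1 ≤ n := hP.pos
  set K := kerA (fun k : Fin (nA (gG P)) => uB P k) (fun k => 2 ^ he P k) (2 ^ aB P)
    (fun x y => acq (wq P s p (toL x)) (wq P s p (toL y))) with hKdef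
  have hit : ∀ T, ∀ x ∈ bx P, (Kt (b1 P) (mstep P s p))^[T] φ (toL x) =
      (Kop (bx P) K)^[T] (fun y => φ (toL y)) x := by
    intro T
    induction T with
    | zero => intro x _; rfl
    | succ T ih =>
      intro x hx
      rw [Function.iterate_succ_apply', Function.iterate_succ_apply', (hK x hx).2]
      unfold Kop
      exact sum_congr rfl fun y hy => by
        have := ih y hy
        unfold Kop at this
        simp only [this]
  have hw : ∀ x ∈ bx P, 0 < wq P s p (toL x) := fun x hx => (hHt P hP s p hv x hx).1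
  have hπ : ∀ x ∈ bx P, 0 < πq P s p x := fun x hx => by
    unfold πq; exact_mod_cast hw x hx
  have hcard : (Fintype.card (Fin (nA (gG P))) : ℝ) ≤ 2 ^ aB P := by
    rw [Fintype.card_fin]
    unfold aB
    exact_mod_cast (Nat.lt_size_self _).le
  obtain ⟨k1, k2, k3⟩ := hKra (Fin (nA (gG P))) (fun k => uB P k) (fun k => 2 ^ he P k) (2 ^ aB P)
    (πq P s p) (fun x y => acq (wq P s p (toL x)) (wq P s p (toL y))) hcard (by positivity) hπ
    (fun k => Nat.one_le_two_pow) (fun x hx y hy => hK1 _ _ (hw x hx) (hw y hy))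
  have hsm := hSmo (Fin (nA (gG P))) (fun k => uB P k) (fun k => 2 ^ he P k) (πq P s p) (pCP n)
    (8 * pK2 n) n (by rw [Fintype.card_fin]; exact hP.hA) hn1 (Nat.cast_nonneg _) hπ
    (fun k => Nat.one_le_two_pow) (fun k => (hLl P hP s p hv k).2.1)
    (fun k => (hLl P hP s p hv k).2.2) (hLf P hP s p hv)
  have hC1 : 1 ≤ pC n := by
    unfold pC
    exact Nat.mul_pos (by omega) (by omega)
  have hA : (2 : ℝ) ^ aB P ≤ 2 * (n + 1) := by
    have h1 := two_pow_size_le (nA (gG P))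
    have h2 := hP.hA
    have h3 : 2 ^ aB P ≤ 2 * (n + 1) := by unfold aB; omega
    exact_mod_cast h3
  have hpo : ∀ f, 2 * Var (bx P) (πq P s p) f ≤
      (pC n : ℝ) * ∑ x ∈ bx P, ∑ y ∈ bx P, πq P s p x * K x y * (f x - f y) ^ 2 := by
    intro f
    have a1 := hsm f
    have a2 := k3 f
    have a3 : 0 ≤ ∑ x ∈ bx P, ∑ y ∈ bx P, πq P s p x * K x y * (f x - f y) ^ 2 :=
      sum_nonneg fun x hx => sum_nonneg fun y hy =>
        mul_nonneg (mul_nonneg (hπ x hx).le (k1 x hx y hy).1) (sq_nonneg _)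
    have a4 : (0 : ℝ) ≤ 4000 * (pCP n * (8 * pK2 n) ^ 2 + n) := by positivity
    have a5 := a1.trans (mul_le_mul_of_nonneg_left a2 a4)
    have e : (pC n : ℝ) = 16 * (n + 1) * (4000 * (pCP n * (8 * pK2 n) ^ 2 + n)) := by
      unfold pC; push_cast; ring
    rw [e]
    change Var (bx P) (πq P s p) f ≤ _ * (4 * 2 ^ aB P *
      ∑ x ∈ bx P, ∑ y ∈ bx P, πq P s p x * K x y * (f x - f y) ^ 2) at a5
    have a6 := mul_le_mul_of_nonneg_right hA (mul_nonneg a4 a3)
    nlinarith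
  have hm := hMix _ (bx P) (πq P s p) K (pC n) (by exact_mod_cast hC1) hπ k1 k2 hpo
    (fun y => φ (toL y)) (fun x _ => hφ _) 0 (zero_mem P) (pT n A)
  obtain ⟨-, r2, r3⟩ := hRat P hP
  have z1 : ∑ x ∈ bx P, πq P s p x ≤ 2 ^ n * 2 ^ (n * pTt n) := by
    have := sum_le_card_nsmul (bx P) (πq P s p) _ (fun x hx => ((r3 x hx).2 s p hv).1.2)
    rw [nsmul_eq_mul] at this
    refine this.trans (mul_le_mul_of_nonneg_right ?_ (by positivity))
    exact_mod_cast r2
  have z2 : (∑ x ∈ bx P, πq P s p x) / πq P s p 0 ≤ 2 ^ pB1 n := by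
    have h0 := ((r3 0 (zero_mem P)).2 s p hv).1.1
    rw [div_le_iff₀ (hπ 0 (zero_mem P))]
    have e : (2 : ℝ) ^ pB1 n = 2 ^ n * 2 ^ (n * pTt n) * 2 ^ (pS n + n * pTt n) := by
      rw [← pow_add, ← pow_add]; unfold pB1; congr 1; ring
    rw [e, mul_assoc (2 ^ n * 2 ^ (n * pTt n) : ℝ)]
    exact z1.trans (le_mul_of_one_le_right (by positivity) h0)
  have hC' : (1 : ℝ) ≤ pC n := by exact_mod_cast hC1
  have h0 : 0 ≤ 1 - 1 / (pC n : ℝ) := by
    have : 1 / (pC n : ℝ) ≤ 1 := (div_le_one (by linarith)).2 hC'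
    linarith
  have z3 : (1 - 1 / (pC n : ℝ)) ^ pT n A ≤ 2⁻¹ ^ (pB1 n + 2 * A) := by
    unfold pT
    rw [pow_mul]
    exact pow_le_pow_left₀ (pow_nonneg h0 _) (half_pow _ hC1) _
  have z4 := mul_le_mul z2 z3 (pow_nonneg h0 _) (by positivity)
  have e : (2 : ℝ) ^ pB1 n * 2⁻¹ ^ (pB1 n + 2 * A) = (2⁻¹ ^ A) ^ 2 := by
    rw [pow_add, ← mul_assoc, ← mul_pow, mul_inv_cancel₀ (by norm_num), one_pow, one_mul,
      ← pow_mul, mul_comm]
  rw [e] at z4
  rw [zer_eq, hit _ 0 (zero_mem P)]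
  exact abs_le_of_sq_le_sq' (hm.trans z4) (by positivity) |> abs_le.2

end Crest.Agent.R309
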