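import Crest.Agent.R309.PT1

/-! Row 309, task PT2: the chain, the estimates, the preparation and the sampler step are
polynomial-time. -/

set_option autoImplicit false

namespace Crest.Agent.R309

open Finset Crest.Agent.PT Crest.Agent.QC Crest.Agent.R317 Crest.Agent.R300U

variable {α β : Type} [Enc α] [Enc β]

namespace PT2

theorem iterN_eq_rec {X : Type} (b : ℕ) (σ : X → ℕ → X) (x₀ : X) (u T : ℕ) :
    iterN b σ x₀ u T = (Nat.rec x₀ (fun i x => σ x (fld u (i * b) b)) T : X) := by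
  induction T with
  | zero => rfl
  | succ T ih => rw [iterN, ih]

theorem sz_le_mkL (l : List Bin) (f : ℕ → ℕ) (h : ∀ k, gv l k ≤ f k) :
    sz l ≤ sz (mkL l.length (fun k => (⟨f k⟩ : Bin))) := by
  induction l generalizing f with
  | nil => simp
  | cons x l ih =>
    have h1 := ih (fun k => f (k + 1)) (fun k => h (k + 1))
    have h2 : x.val ≤ f 0 := h 0
    have h3 := Nat.size_le_size h2
    have e : mkL (x :: l).length (fun k => (⟨f k⟩ : Bin)) =
        ⟨f 0⟩ :: mkL l.length (fun k => (⟨f (k + 1)⟩ : Bin)) := by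
      simp [mkL, List.range_succ_eq_map, Function.comp_def]
    rw [e]
    simp only [sz_cons, sz_bin]
    omega

/-- states of the chain -/
def Ok (P : Pre) (l : List Bin) : Prop := l.length = nA (gG P) ∧ ∀ k, gv l k ≤ uB P k

theorem gv_setL (N : ℕ) (l : List Bin) (k v j : ℕ) :
    gv (setL N l k v) j = if j < N then (if j = k then v else gv l j) else 0 := by
  unfold setL
  by_cases h : j < N
  · rw [gv, getD_mkL _ _ h, if_pos h]
    split_ifs <;> rfl
  · rw [gv, if_neg h, List.getD_eq_default _ _ (by simpa using h)]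

theorem ok_setL {P : Pre} {l : List Bin} (h : Ok P l) {k v : ℕ} (hv : v ≤ uB P k) :
    Ok P (setL (nA (gG P)) l k v) := by
  refine ⟨by simp [setL], fun j => ?_⟩
  rw [gv_setL]
  split_ifs with h1 h2
  · rw [h2]; exact hv
  · exact h.2 j
  · exact Nat.zero_le _

theorem ok_mv {P : Pre} {l : List Bin} (h : Ok P l) (k σ d : ℕ) : Ok P (mv P l k σ d) := by
  unfold mv
  split_ifs with h1 h2 h3
  · exact ok_setL h h2
  · exact h
  · exact ok_setL h ((Nat.sub_le _ _).trans (h.2 k))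
  · exact h

theorem ok_mstep {P : Pre} {l : List Bin} (h : Ok P l) (s : ℕ) (p : List ℤ) (u : ℕ) :
    Ok P (mstep P s p l u) := by
  unfold mstep prop
  split_ifs
  · exact ok_mv h _ _ _
  · exact h
  · exact h
  · exact h

theorem ok_zer (P : Pre) : Ok P (zer P) := by
  refine ⟨by simp [zer], fun k => ?_⟩
  have : gv (zer P) k = 0 := by
    unfold gv zer
    rw [List.getD_eq_getElem?_getD, List.getElem?_replicate]
    split_ifs <;> rfl
  omega

theorem ok_samp (P : Pre) (s : ℕ) (p : List ℤ) (T u : ℕ) : Ok P (samp P s p T u) := by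
  unfold samp
  induction T with
  | zero => exact ok_zer P
  | succ T ih => exact ok_mstep ih _ _ _

theorem cnt_le (b N : ℕ) (β : ℕ → Prop) (u : ℕ) : cnt b N β u ≤ N := by
  unfold cnt
  refine (sum_le_card_nsmul _ _ 1 (fun i _ => ?_)).trans (by simp)
  split_ifs <;> simp

theorem ht_est (P : Pre) (a s : ℕ) (p : List ℤ) (s' : ℕ) (p' : List ℤ) (u : ℕ) :
    Ht (pN (nn P) a + 1) (est P a s p s' p' u : GQ) := by
  have h := cnt_le (bC P a) (pN (nn P) a) (coin P a s p s' p') u
  have h2 : pN (nn P) a < 2 ^ pN (nn P) a := Nat.lt_two_pow_self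
  refine ht_of_parts (x := ((2 * cnt (bC P a) (pN (nn P) a) (coin P a s p s' p') u : ℕ) : ℤ))
    (d := pN (nn P) a) (by simp [est]) ?_ ?_
  · rw [Int.natAbs_natCast, pow_succ]; omega
  · rw [pow_succ]; omega

/-- invariant of the preparation -/
def Inv (P : Pre) (a k i : ℕ) (st : St) : Prop :=
  st.1 ≤ i ∧ st.2.2.2 ≤ i ∧ st.2.1.length ≤ nn P ∧ (∀ z ∈ st.2.1, z.natAbs ≤ i) ∧
    Ht (k + i * (pN (nn P) a + 1)) (st.2.2.1 : GQ)

theorem inv_astep {P : Pre} {a k i : ℕ} {st : St} (h : Inv P a k i st) (u : ℕ) :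
    Inv P a k (i + 1) (astep P a st u) := by
  obtain ⟨h1, h2, h3, h4, h5⟩ := h
  have h4' : ∀ z ∈ st.2.1, z.natAbs ≤ i + 1 := fun z hz => (h4 z hz).trans (Nat.le_succ _)
  have h5' : Ht (k + (i + 1) * (pN (nn P) a + 1)) (st.2.2.1 : GQ) :=
    h5.mono (by rw [Nat.succ_mul]; omega)
  have h6 : ∀ s' p', Ht (k + (i + 1) * (pN (nn P) a + 1))
      ((st.2.2.1 * est P a st.1 st.2.1 s' p' u : ℚ) : GQ) := by
    intro s' p'
    rw [Rat.cast_mul, Nat.succ_mul, ← add_assoc]
    exact h5.mul (ht_est _ _ _ _ _ _ _)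
  unfold astep
  split_ifs
  · exact ⟨Nat.succ_le_succ h1, h2.trans (Nat.le_succ _), h3, h4', h6 _ _⟩
  · refine ⟨h1.trans (Nat.le_succ _), Nat.zero_le _, by simp [cand, bump], fun z hz => ?_, h6 _ _⟩
    obtain ⟨j, -, rfl⟩ := mem_mkL.1 hz
    have h7 : (st.2.1.getD j 0).natAbs ≤ i := by
      rw [List.getD_eq_getElem?_getD]
      cases e : st.2.1[j]? with
      | none => simp
      | some z => exact h4 z (List.mem_of_getElem? e)
    split_ifs <;> omega
  · exact ⟨h1.trans (Nat.le_succ _), Nat.succ_le_succ h2, h3, h4', h5'⟩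
  · exact ⟨h1.trans (Nat.le_succ _), h2.trans (Nat.le_succ _), h3, h4', h5'⟩

theorem sz_inv {P : Pre} {a k i T : ℕ} {st : St} (h : Inv P a k i st) (hi : i ≤ T) :
    sz st ≤ 3 * T + 2 * (nn P * (6 * T + 3)) + 40 * (k + T * (pN (nn P) a + 1) + 1) + 3 := by
  obtain ⟨s, p, z, q⟩ := st
  obtain ⟨h1, h2, h3, h4, h5⟩ := h
  have h6 := (h5.mono (Nat.add_le_add_left (Nat.mul_le_mul_right _ hi) k)).sz_rat_le
  have h7 := sz_list_le p (3 * T + 1) (fun x hx => by
    have := sz_int_le x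
    have := size_le_self x.natAbs
    have := h4 x hx
    omega)
  have h8 : p.length * (2 * (3 * T + 1) + 1) ≤ nn P * (6 * T + 3) :=
    Nat.mul_le_mul h3 (by omega)
  simp only [sz_pair, sz_nat] at *
  omega

end PT2

open PT2

/-- random iterations with a size bound -/
theorem pt_iterN {b u T : α → ℕ} {σ : α → β → ℕ → β} {x₀ : α → β} (hb : PT b)
    (hσ : PT (fun q : α × β × Bin => σ q.1 q.2.1 q.2.2.val)) (hx : PT x₀) (hu : BT u) (hT : PT T)
    {B : α → ℕ} (hB : PB B) (h : ∀ a i, i ≤ T a → sz (iterN (b a) (σ a) (x₀ a) (u a) i) ≤ B a) :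
    PT (fun a => iterN (b a) (σ a) (x₀ a) (u a) (T a)) :=
  (PT.natRec (s := fun a i x => σ a x (fld (u a) (i * b a) (b a))) hT hx
    (hσ.comp (f := fun q : α × ℕ × β => (q.1, q.2.2, (⟨fld (u q.1) (q.2.1 * b q.1) (b q.1)⟩ : Bin)))
      (PT.pair (by fun_prop) (PT.pair (by fun_prop) (BT.mk (BT.fld (hu.comp (by fun_prop))
        (by fun_prop) (by fun_prop)))))) hB
    (fun a i hi => by rw [← iterN_eq_rec]; exact h a i hi)).congr
    (fun _ => (iterN_eq_rec _ _ _ _ _).symm)

theorem bt_cnt {b N u : α → ℕ} {p : α → ℕ → Prop} (hb : PT b) (hN : PT N)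
    (hp : DT (fun q : α × Bin => p q.1 q.2.val)) (hu : BT u) :
    BT (fun a => cnt (b a) (N a) (p a) (u a)) := by
  classical
  unfold cnt
  exact BT.sum (f := fun a i => if p a (fld (u a) (i * b a) (b a)) then 1 else 0) hN
    (BT.ite (hp.comp (f := fun q : α × ℕ => (q.1, (⟨fld (u q.1) (q.2 * b q.1) (b q.1)⟩ : Bin)))
      (PT.pair (by fun_prop) (BT.mk (BT.fld (hu.comp (by fun_prop)) (by fun_prop) (by fun_prop)))))
      (BT.const _) (BT.const _))

@[fun_prop] theorem pt_samp {P : α → Pre} {s T u : α → ℕ} {p : α → List ℤ} (hP : PT P) (hs : PT s)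
    (hp : PT p) (hT : PT T) (hu : BT u) : PT (fun a => samp (P a) (s a) (p a) (T a) (u a)) :=
  pt_iterN (σ := fun a => mstep (P a) (s a) (p a)) (pt_b1 hP)
    (pt_mstep (by fun_prop) (by fun_prop) (by fun_prop) (by fun_prop) (by fun_prop)) (pt_zer hP) hu hT
    (B := fun a => sz (mkL (nA (gG (P a))) (fun k => (⟨uB (P a) k⟩ : Bin)))) (PT.pb (by fun_prop))
    (fun a i _ => by
      have h := ok_samp (P a) (s a) (p a) i (u a)
      rw [← h.1]
      exact sz_le_mkL _ _ h.2)

@[fun_prop] theorem pt_smp {P : α → Pre} {A s u : α → ℕ} {p : α → List ℤ} (hP : PT P) (hA : PT A)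
    (hs : PT s) (hp : PT p) (hu : BT u) : PT (fun a => smp (P a) (A a) (s a) (p a) (u a)) :=
  pt_samp hP hs hp (by fun_prop) hu

@[fun_prop] theorem dt_coin {P : α → Pre} {A s s' u : α → ℕ} {p p' : α → List ℤ} (hP : PT P)
    (hA : PT A) (hs : PT s) (hp : PT p) (hs' : PT s') (hp' : PT p') (hu : BT u) :
    DT (fun a => coin (P a) (A a) (s a) (p a) (s' a) (p' a) (u a)) := by
  have h := pt_smp hP hA hs hp hu
  exact DT.lt (BT.fld hu (by fun_prop) (by fun_prop)) (bt_qfloor (pt_qdiv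
    (pt_qmul (pt_qpow (PT.const _) (by fun_prop)) (pt_wq hP hs' hp' h))
    (pt_qmul (PT.const _) (pt_wq hP hs hp h))))

@[fun_prop] theorem pt_est {P : α → Pre} {A s s' u : α → ℕ} {p p' : α → List ℤ} (hP : PT P)
    (hA : PT A) (hs : PT s) (hp : PT p) (hs' : PT s') (hp' : PT p') (hu : BT u) :
    PT (fun a => est (P a) (A a) (s a) (p a) (s' a) (p' a) (u a)) :=
  pt_qdiv (pt_qmul (PT.const _) (pt_qnat (bt_cnt
    (p := fun a => coin (P a) (A a) (s a) (p a) (s' a) (p' a)) (by fun_prop) (by fun_prop)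
    (dt_coin (by fun_prop) (by fun_prop) (by fun_prop) (by fun_prop) (by fun_prop) (by fun_prop)
      (by fun_prop)) hu))) (pt_qnat (by fun_prop))

@[fun_prop] theorem pt_estA {P : α → Pre} {A s u : α → ℕ} {p : α → List ℤ} (hP : PT P)
    (hA : PT A) (hs : PT s) (hp : PT p) (hu : BT u) :
    PT (fun a => estA (P a) (A a) (s a) (p a) (u a)) :=
  pt_qdiv (pt_qnat (bt_cnt
    (p := fun a v => acc (P a) (smp (P a) (A a) (s a) (p a) v)) (by fun_prop) (by fun_prop)
    (dt_acc (by fun_prop) (pt_smp (by fun_prop) (by fun_prop) (by fun_prop) (by fun_prop)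
      (by fun_prop))) hu)) (pt_qnat (by fun_prop))

@[fun_prop] theorem pt_astep {P : α → Pre} {A u : α → ℕ} {st : α → St} (hP : PT P) (hA : PT A)
    (hst : PT st) (hu : BT u) : PT (fun a => astep (P a) (A a) (st a) (u a)) := by
  have h1 : PT (fun a => est (P a) (A a) (st a).1 (st a).2.1 ((st a).1 + 1) (st a).2.1 (u a)) :=
    pt_est hP hA (by fun_prop) (by fun_prop) (by fun_prop) (by fun_prop) hu
  have h0 : PT (fun a => cand (P a) (st a).2.1 (st a).2.2.2) :=
    pt_cand hP (by fun_prop) (by fun_prop)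
  have h2 : PT (fun a => est (P a) (A a) (st a).1 (st a).2.1 (st a).1
      (cand (P a) (st a).2.1 (st a).2.2.2) (u a)) :=
    pt_est hP hA (by fun_prop) (by fun_prop) (by fun_prop) h0 hu
  have h3 : PT (fun a => (st a).2.2.1) := by fun_prop
  unfold astep
  exact PT.iteD (by fun_prop)
    (PT.pair (by fun_prop) (PT.pair (by fun_prop) (PT.pair (pt_qmul h3 h1) (by fun_prop))))
    (PT.iteD (by fun_prop) (PT.iteD (dt_qle h2 (by fun_prop))
      (PT.pair (by fun_prop) (PT.pair h0 (PT.pair (pt_qmul h3 h2) (PT.const _))))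
      (by fun_prop)) hst)

@[fun_prop] theorem pt_prep {P : α → Pre} {A u : α → ℕ} (hP : PT P) (hA : PT A) (hu : BT u) :
    PT (fun a => prep (P a) (A a) (u a)) := by
  have hz : PT (fun a => ((∏ k ∈ range (nA (gG (P a))), (uB (P a) k + 1) : ℕ) : ℚ)) :=
    pt_qnat (BT.prod (f := fun a k => uB (P a) k + 1) (by fun_prop) (by fun_prop))
  refine pt_iterN (σ := fun a => astep (P a) (A a)) (pt_bE hP hA)
    (pt_astep (by fun_prop) (by fun_prop) (by fun_prop) (by fun_prop))
    (PT.pair (PT.const _) (PT.pair (PT.const _) (PT.pair hz (PT.const _)))) hu (by fun_prop)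
    (B := fun a => 3 * pTt (nn (P a)) + 2 * (nn (P a) * (6 * pTt (nn (P a)) + 3)) +
      40 * (sz (((∏ k ∈ range (nA (gG (P a))), (uB (P a) k + 1) : ℕ) : ℚ)) +
        pTt (nn (P a)) * (pN (nn (P a)) (A a) + 1) + 1) + 3)
    (PT.pbNat ?_) (fun a i hi => sz_inv ?_ hi)
  · have := hz.len
    fun_prop
  · clear hi
    induction i with
    | zero =>
      exact ⟨le_rfl, le_rfl, Nat.zero_le _, fun z hz => absurd hz List.not_mem_nil,
        (ht_ratCast_sz _).mono (Nat.le_add_right _ _)⟩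
    | succ i ih => exact inv_astep ih _

@[fun_prop] theorem pt_cntq {P : α → Pre} {A u : α → ℕ} (hP : PT P) (hA : PT A) (hu : BT u) :
    PT (fun a => cntq (P a) (A a) (u a)) := by
  have h := pt_prep hP hA (BT.fld hu (PT.const 0) (pt_bP hP hA))
  exact pt_qmul h.snd.snd.fst (pt_estA hP hA (by fun_prop) h.snd.fst
    (BT.fld hu (pt_bP hP hA) (pt_bE hP hA)))

@[fun_prop] theorem pt_sstep {P : α → Pre} {k t u : α → ℕ} {st : α → SS} (hP : PT P) (hk : PT k)
    (ht : PT t) (hst : PT st) (hu : BT u) :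
    PT (fun a => sstep (P a) (k a) (t a) (st a) (u a)) := by
  classical
  have h1 := (pt_prep hP (PT.const 1) hu).snd.fst
  have h2 : PT (fun a => mstep (P a) (pS (nn (P a))) (st a).2.2.1 (st a).2.2.2
      (fld (u a) 0 (b1 (P a)))) :=
    pt_mstep hP (by fun_prop) (by fun_prop) (by fun_prop) (BT.fld hu (PT.const _) (pt_b1 hP))
  unfold sstep
  exact PT.iteD (by fun_prop)
    (PT.pair (by fun_prop) (PT.pair (by fun_prop) (PT.pair h1 (pt_zer hP))))
    (PT.iteD (by fun_prop) (PT.pair (by fun_prop) (PT.pair (by fun_prop) (PT.pair (by fun_prop) h2)))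
      (PT.iteD ((dt_beq (by fun_prop) (PT.const _)).and (dt_acc hP (by fun_prop)))
        (PT.pair (PT.const _) (PT.pair (pt_comp hP (by fun_prop)) (by fun_prop))) hst))

theorem PT2_proof : Pt2Stmt :=
  ⟨pt_prep (by fun_prop) (by fun_prop) (by fun_prop),
    pt_cntq (by fun_prop) (by fun_prop) (by fun_prop),
    pt_sstep (by fun_prop) (by fun_prop) (by fun_prop) (by fun_prop) (by fun_prop),
    by fun_prop, by fun_prop, by fun_prop, pt_b1 PT.id'⟩

end Crest.Agent.R309
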