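import Crest.Agent.R309.DefsA

/-! Row 309, task MAR: marginals of laminar products on a box are log-concave. -/

set_option autoImplicit false

namespace Crest.Agent.R309

open Finset

namespace MAR

theorem seq_global (W : ℕ → ℝ) (D : ℕ) (hpos : ∀ i, 0 < W i)
    (hlc : ∀ i, i + 2 ≤ D + 1 → W (i + 2) * W i ≤ W (i + 1) ^ 2) :
    W (D + 1) * W 0 ≤ W D * W 1 := by
  induction D with
  | zero => simp [mul_comm]
  | succ D ih =>
    have h1 := ih (fun i hi => hlc i (by omega))
    have h2 := hlc D (by omega)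
    have p0 := hpos 0
    have p1 := hpos D
    have p2 := hpos (D + 1)
    have : W (D + 1 + 1) * W 0 * W D ≤ W (D + 1) * W 1 * W D := by
      calc W (D + 1 + 1) * W 0 * W D = W (D + 2) * W D * W 0 := by ring
        _ ≤ W (D + 1) ^ 2 * W 0 := mul_le_mul_of_nonneg_right h2 p0.le
        _ = W (D + 1) * (W (D + 1) * W 0) := by ring
        _ ≤ W (D + 1) * (W D * W 1) := mul_le_mul_of_nonneg_left h1 p2.le
        _ = _ := by ring
    exact le_of_mul_le_mul_right this p1

theorem rev_cs {V : Type} [Fintype V] [DecidableEq V] (G : (V → ℕ) → ℝ) (hG : IsL G) (γ : V → ℕ)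
    (a b : V) : G (γ + ev a + ev a) * G (γ + ev b + ev b) ≤ G (γ + ev a + ev b) ^ 2 := by
  have key : ∀ p q : V, Hf G γ (Pi.single (some p) 1) (Pi.single (some q) 1) =
      G (γ + ev p + ev q) := by
    intro p q
    unfold Hf
    rw [Finset.sum_eq_single (some p), Finset.sum_eq_single (some q)]
    · simp [eo]
    · intro c _ hc; simp [hc]
    · simp
    · intro c _ hc; simp [hc]
    · simp
  have := hG.2 γ (Pi.single (some a) 1) (Pi.single (some b) 1) (by rw [key]; exact hG.1 _)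
  rwa [key, key, key] at this

theorem LC_eps (ε : ℝ) (h0 : 0 < ε) (h1 : ε ≤ 1) : LC (fun z => ε ^ z.natAbs) := by
  refine ⟨fun z => pow_pos h0 _, fun z => ?_⟩
  rw [← pow_add, ← pow_mul]
  exact pow_le_pow_of_le_one h0.le h1 (by omega)

section

variable {ι V : Type} [DecidableEq ι] [DecidableEq V]

/-- the extra variables -/
def ex (S : ι → Finset V) (i₀ j : ι) : Finset Bool :=
  if j = i₀ then {false} else if S i₀ ⊆ S j ∧ S i₀ ≠ ∅ then univ else ∅

theorem lam_ext (I : Finset ι) (S : ι → Finset V) (i₀ : ι) (hL : Lam I S) (hi₀ : i₀ ∈ I) :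
    Lam I (fun j => (S j).disjSum (ex S i₀ j)) := by
  have sub : ∀ i j, S i ⊆ S j → ex S i₀ i ⊆ ex S i₀ j →
      (S i).disjSum (ex S i₀ i) ⊆ (S j).disjSum (ex S i₀ j) := fun i j h1 h2 =>
    Finset.disjSum_mono h1 h2
  have dis : ∀ i j, Disjoint (S i) (S j) → Disjoint (ex S i₀ i) (ex S i₀ j) →
      Disjoint ((S i).disjSum (ex S i₀ i)) ((S j).disjSum (ex S i₀ j)) := by
    intro i j h1 h2
    rw [Finset.disjoint_left]
    rintro (a | a) ha hb
    · exact Finset.disjoint_left.1 h1 (by simpa using ha) (by simpa using hb)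
    · exact Finset.disjoint_left.1 h2 (by simpa using ha) (by simpa using hb)
  -- the case of `i₀` against `j`
  have c0 : ∀ j ∈ I, j ≠ i₀ → (S i₀).disjSum (ex S i₀ i₀) ⊆ (S j).disjSum (ex S i₀ j) ∨
      (S j).disjSum (ex S i₀ j) ⊆ (S i₀).disjSum (ex S i₀ i₀) ∨
      Disjoint ((S i₀).disjSum (ex S i₀ i₀)) ((S j).disjSum (ex S i₀ j)) := by
    intro j hj hne
    by_cases hU : S i₀ ⊆ S j ∧ S i₀ ≠ ∅
    · exact Or.inl (sub _ _ hU.1 (by simp [ex, hne, hU]))
    · have he : ex S i₀ j = ∅ := by simp only [ex, if_neg hne, if_neg hU]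
      by_cases hA : S i₀ = ∅
      · exact Or.inr (Or.inr (dis _ _ (by simp [hA]) (by simp [he])))
      · rcases hL i₀ hi₀ j hj with h | h | h
        · exact absurd ⟨h, hA⟩ hU
        · exact Or.inr (Or.inl (sub _ _ h (by simp [he])))
        · exact Or.inr (Or.inr (dis _ _ h (by simp [he])))
  have c1 : ∀ j ∈ I, ∀ k ∈ I, j ≠ i₀ → k ≠ i₀ → (S i₀ ⊆ S j ∧ S i₀ ≠ ∅) →
      ¬ (S i₀ ⊆ S k ∧ S i₀ ≠ ∅) → (S k).disjSum (ex S i₀ k) ⊆ (S j).disjSum (ex S i₀ j) ∨
      Disjoint ((S j).disjSum (ex S i₀ j)) ((S k).disjSum (ex S i₀ k)) := by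
    intro j hj k hk _ hk0 hU hV
    have he : ex S i₀ k = ∅ := by simp only [ex, if_neg hk0, if_neg hV]
    rcases hL j hj k hk with h | h | h
    · exact absurd ⟨hU.1.trans h, hU.2⟩ hV
    · exact Or.inl (sub _ _ h (by simp [he]))
    · exact Or.inr (dis _ _ h (by simp [he]))
  intro j hj k hk
  by_cases hj0 : j = i₀
  · by_cases hk0 : k = i₀
    · left; rw [hj0, hk0]
    · rw [hj0]; exact c0 k hk hk0
  · by_cases hk0 : k = i₀
    · rw [hk0]
      rcases c0 j hj hj0 with h | h | h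
      · exact Or.inr (Or.inl h)
      · exact Or.inl h
      · exact Or.inr (Or.inr h.symm)
    · by_cases hU : S i₀ ⊆ S j ∧ S i₀ ≠ ∅
      · by_cases hV : S i₀ ⊆ S k ∧ S i₀ ≠ ∅
        · have e1 : ex S i₀ j = univ := by simp only [ex, if_neg hj0, if_pos hU]
          have e2 : ex S i₀ k = univ := by simp only [ex, if_neg hk0, if_pos hV]
          rcases hL j hj k hk with h | h | h
          · exact Or.inl (sub _ _ h (by rw [e1, e2]))
          · exact Or.inr (Or.inl (sub _ _ h (by rw [e1, e2])))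
          · obtain ⟨a, ha⟩ := Finset.nonempty_iff_ne_empty.2 hU.2
            exact absurd (hV.1 ha) (Finset.disjoint_left.1 h (hU.1 ha))
        · rcases c1 j hj k hk hj0 hk0 hU hV with h | h
          · exact Or.inr (Or.inl h)
          · exact Or.inr (Or.inr h)
      · by_cases hV : S i₀ ⊆ S k ∧ S i₀ ≠ ∅
        · rcases c1 k hk j hj hk0 hj0 hV hU with h | h
          · exact Or.inl h
          · exact Or.inr (Or.inr h.symm)
        · have e1 : ex S i₀ j = ∅ := by simp only [ex, if_neg hj0, if_neg hU]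
          have e2 : ex S i₀ k = ∅ := by simp only [ex, if_neg hk0, if_neg hV]
          rcases hL j hj k hk with h | h | h
          · exact Or.inl (sub _ _ h (by simp [e1]))
          · exact Or.inr (Or.inl (sub _ _ h (by simp [e2])))
          · exact Or.inr (Or.inr (dis _ _ h (by simp [e1])))

/-- shifted offsets -/
def off' (S : ι → Finset V) (off : ι → ℤ) (i₀ : ι) (b : ℤ) (D : ℕ) (j : ι) : ℤ :=
  if j = i₀ then off i₀ + b else if S i₀ ⊆ S j ∧ S i₀ ≠ ∅ then off j + D else off j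

theorem lamF_ext (I : Finset ι) (S : ι → Finset V) (χ : ι → ℤ → ℝ) (off : ι → ℤ) (i₀ : ι)
    (hi₀ : i₀ ∈ I) (ψ : ℤ → ℝ) (b : ℤ) (D i j : ℕ) (hij : i + j = D) (α : V → ℕ)
    (β : V ⊕ Bool → ℕ) (h1 : ∀ a, β (Sum.inl a) = α a) (h2 : β (Sum.inr false) = i)
    (h3 : β (Sum.inr true) = j) :
    lamF I (fun j => (S j).disjSum (ex S i₀ j)) (Function.update χ i₀ ψ) (off' S off i₀ b D) β =
      ψ ((∑ a ∈ S i₀, (α a : ℤ)) - off i₀ - (b - i)) * lamF (I.erase i₀) S χ off α := by
  unfold lamF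
  rw [← Finset.mul_prod_erase I _ hi₀]
  congr 1
  · rw [Function.update_self, Finset.sum_disjSum]
    simp only [h1, ex, off', if_true, Finset.sum_singleton, h2]
    congr 1; ring
  · refine Finset.prod_congr rfl fun k hk => ?_
    have hk0 : k ≠ i₀ := (Finset.mem_erase.1 hk).1
    rw [Function.update_of_ne hk0, Finset.sum_disjSum]
    simp only [h1, ex, off', if_neg hk0]
    split_ifs with hU
    · rw [Fintype.sum_bool, h2, h3, ← hij]
      congr 1; push_cast; ring
    · simp

end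

end MAR

open MAR in
theorem MAR_proof (hLam : LamStmt) (hMrg : MrgStmt) (hSmb : SmbStmt) : MarStmt := by
  intro ι κ _ _ _ u I S χ off i₀ hL hi₀ hχ
  have hPi : ∀ α, 0 < lamF (I.erase i₀) S χ off α := fun α =>
    Finset.prod_pos fun j hj => (hχ j (Finset.mem_of_mem_erase hj)).1 _
  refine ⟨fun d => Finset.sum_nonneg fun x _ => (hPi _).le, fun a b hab => ?_⟩
  obtain ⟨D, hD⟩ : ∃ D : ℕ, b = a + (D + 1 : ℕ) := ⟨(b - a - 1).toNat, by omega⟩
  -- the smoothed marginals
  set W : ℝ → ℕ → ℝ := fun ε i => ∑ x ∈ box u,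
    ε ^ ((∑ p ∈ S i₀, (node u x p : ℤ)) - off i₀ - (b - i)).natAbs *
      lamF (I.erase i₀) S χ off (node u x) with hW
  have hmain : ∀ ε : ℝ, 0 < ε → ε ≤ 1 → W ε (D + 1) * W ε 0 ≤ W ε D * W ε 1 := by
    intro ε h0 h1
    have hF := hLam ι ((κ × Bool) ⊕ Bool) I (fun j => (S j).disjSum (ex S i₀ j))
      (Function.update χ i₀ (fun z => ε ^ z.natAbs)) (off' S off i₀ b (D + 1)) 1 (fun _ => 1)
      (lam_ext I S i₀ hL hi₀) (fun j hj => by
        by_cases h : j = i₀
        · rw [h, Function.update_self]; exact LC_eps ε h0 h1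
        · rw [Function.update_of_ne h]; exact hχ j hj) one_pos (fun _ => one_pos)
    simp only [one_pow, Finset.prod_const_one, mul_one, one_mul] at hF
    have hG := hMrg _ _ hF ((blocks u).map
      (fun B => ((Sum.inl B.1 : (κ × Bool) ⊕ Bool), (Sum.inl B.2.1 : (κ × Bool) ⊕ Bool), B.2.2)))
    have hval : ∀ (δ : (κ × Bool) ⊕ Bool → ℕ) (i j : ℕ), i + j = D + 1 →
        (∀ p, δ (Sum.inl p) = 0) → δ (Sum.inr false) = i → δ (Sum.inr true) = j →
        Sm ((blocks u).map (fun B => ((Sum.inl B.1 : (κ × Bool) ⊕ Bool),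
          (Sum.inl B.2.1 : (κ × Bool) ⊕ Bool), B.2.2))) δ
          (lamF I (fun j => (S j).disjSum (ex S i₀ j))
            (Function.update χ i₀ (fun z => ε ^ z.natAbs)) (off' S off i₀ b (D + 1))) = W ε i := by
      intro δ i j hij hδ h2 h3
      rw [hSmb κ _ u Sum.inl δ]
      refine Finset.sum_congr rfl fun x _ => ?_
      refine lamF_ext I S χ off i₀ hi₀ _ b (D + 1) i j hij (node u x) _ ?_ ?_ ?_
      · intro p
        simp only [Pi.add_apply, Finset.sum_apply, hδ, zero_add, Pi.single_apply, Sum.inl.injEq]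
        simp
      · simp [Finset.sum_apply, h2]
      · simp [Finset.sum_apply, h3]
    have hpos : ∀ i, 0 < W ε i := by
      intro i
      refine Finset.sum_pos (fun x _ => mul_pos (pow_pos h0 _) (hPi _)) ⟨0, ?_⟩
      simp [box]
    refine seq_global (W ε) D hpos fun i hi => ?_
    have := rev_cs _ hG (pt (Sum.inr false) (Sum.inr true) i (D - 1 - i)) (Sum.inr false)
      (Sum.inr true)
    rw [hval _ (i + 2) (D - 1 - i) (by omega) (by simp [pt, ev]) (by simp [pt, ev])
        (by simp [pt, ev]),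
      hval _ i (D - 1 - i + 2) (by omega) (by simp [pt, ev]) (by simp [pt, ev]) (by simp [pt, ev]),
      hval _ (i + 1) (D - 1 - i + 1) (by omega) (by simp [pt, ev]) (by simp [pt, ev])
        (by simp [pt, ev])] at this
    exact this
  have hcont : ∀ i, Continuous (fun ε => W ε i) := fun i => by
    simp only [hW]; fun_prop
  have hlim : W 0 (D + 1) * W 0 0 ≤ W 0 D * W 0 1 := by
    have t1 : Filter.Tendsto (fun ε => W ε (D + 1) * W ε 0) (nhdsWithin 0 (Set.Ioi 0))
        (nhds (W 0 (D + 1) * W 0 0)) :=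
      (((hcont _).mul (hcont _)).tendsto 0).mono_left nhdsWithin_le_nhds
    have t2 : Filter.Tendsto (fun ε => W ε D * W ε 1) (nhdsWithin 0 (Set.Ioi 0))
        (nhds (W 0 D * W 0 1)) :=
      (((hcont _).mul (hcont _)).tendsto 0).mono_left nhdsWithin_le_nhds
    refine le_of_tendsto_of_tendsto t1 t2 ?_
    filter_upwards [Ioc_mem_nhdsGT (zero_lt_one' ℝ)] with ε hε using hmain ε hε.1 hε.2
  have hzero : ∀ (i : ℕ) (d : ℤ), d = b - i → W 0 i =
      ∑ x ∈ (box u).filter (fun x => (∑ a ∈ S i₀, (node u x a : ℤ)) - off i₀ = d),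
        lamF (I.erase i₀) S χ off (node u x) := by
    intro i d hd
    rw [Finset.sum_filter]
    refine Finset.sum_congr rfl fun x _ => ?_
    split_ifs with h
    · rw [h, hd]; simp
    · rw [zero_pow (by rw [← hd]; omega), zero_mul]
  rw [hzero (D + 1) a (by omega), hzero 0 b (by simp), hzero D (a + 1) (by omega),
    hzero 1 (b - 1) (by simp)] at hlim
  exact hlim

end Crest.Agent.R309
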