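import Crest.Agent.R309.SCH

set_option autoImplicit false

namespace Crest.Agent.R309

open Finset

namespace MRG

variable {V : Type} [Fintype V] [DecidableEq V]

/-- indicator of `some c` -/
def dl (c : V) : Option V → ℝ := fun o => if o = some c then 1 else 0

theorem Hf_dl_right (F : (V → ℕ) → ℝ) (γ : V → ℕ) (v : Option V → ℝ) (c : V) :
    Hf F γ v (dl c) = ∑ o, v o * F (γ + ev c + eo o) := by
  unfold Hf dl
  refine sum_congr rfl fun a _ => ?_
  rw [sum_eq_single (some c)]
  · simp only [if_true, mul_one, eo]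
    rw [add_right_comm]
  · intro b _ hb; simp [hb]
  · simp

theorem Hf_dl_dl (F : (V → ℕ) → ℝ) (γ : V → ℕ) (c c' : V) :
    Hf F γ (dl c') (dl c) = F (γ + ev c + ev c') := by
  rw [Hf_dl_right, sum_eq_single (some c')]
  · simp [dl, eo]
  · intro b _ hb; simp [dl, hb]
  · simp

omit [Fintype V] in
theorem pt_add_a (a b : V) (i j : ℕ) : pt a b i j + ev a = pt a b (i + 1) j := by
  unfold pt ev
  rw [Pi.single_add]; abel

omit [Fintype V] in
theorem pt_add_b (a b : V) (i j : ℕ) : pt a b i j + ev b = pt a b i (j + 1) := by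
  unfold pt ev
  rw [Pi.single_add]; abel

theorem one_block (F : (V → ℕ) → ℝ) (hF : IsL F) (a b : V) (s : ℕ) :
    IsL (fun γ => ∑ i ∈ range (s + 1), F (γ + pt a b i (s - i))) := by
  refine ⟨fun γ => sum_pos (fun i _ => hF.1 _) (by simp), fun γ v0 w hw => ?_⟩
  refine SCH.rcs_of_kernel _ γ
    (fun o => ∑ j ∈ range (s + 2), F (γ + pt a b j (s + 1 - j) + eo o)) ?_ v0 w hw
  intro v hv
  set d : ℕ → ℝ := fun j => ∑ o, v o * F (γ + pt a b j (s + 1 - j) + eo o) with hd
  set e : ℕ → ℝ := fun j => F (γ + pt a b j (s + 2 - j)) with he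
  have hepos : ∀ j, 0 < e j := fun j => hF.1 _
  have hsum : ∑ j ∈ range (s + 2), d j = 0 := by
    rw [← hv, hd]
    simp only [mul_sum]
    rw [sum_comm]
  set T : ℕ → ℝ := fun i => (∑ j ∈ range i, d j) / e i with hT
  have hTe : ∀ i, T i * e i = ∑ j ∈ range i, d j := fun i => div_mul_cancel₀ _ (hepos i).ne'
  have hdT : ∀ i, d i = T (i + 1) * e (i + 1) - T i * e i := by
    intro i; rw [hTe, hTe, sum_range_succ]; ring
  have hT0 : T 0 = 0 := by simp [hT]
  have hTs : T (s + 2) = 0 := by simp only [hT]; rw [hsum]; simp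
  have hA : Hf (fun γ => ∑ i ∈ range (s + 1), F (γ + pt a b i (s - i))) γ v v =
      ∑ i ∈ range (s + 1), Hf F (γ + pt a b i (s - i)) v v := by
    unfold Hf
    simp only [mul_sum]
    rw [sum_comm (s := range (s + 1))]
    refine sum_congr rfl fun x _ => ?_
    rw [sum_comm (s := range (s + 1))]
    refine sum_congr rfl fun y _ => sum_congr rfl fun i _ => ?_
    congr 2
    abel
  set g : ℕ → ℝ := fun i => T i ^ 2 * e i with hg
  have key : ∀ i ∈ range (s + 1), Hf F (γ + pt a b i (s - i)) v v ≤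
      (g (i + 1 + 1) - g (i + 1)) - (g (i + 1) - g i) := by
    intro i hi
    have his : i ≤ s := Nat.lt_succ_iff.1 (mem_range.1 hi)
    set γi := γ + pt a b i (s - i) with hγi
    have ha : γi + ev a = γ + pt a b (i + 1) (s + 1 - (i + 1)) := by
      rw [hγi, add_assoc, pt_add_a, Nat.add_sub_add_right]
    have hb : γi + ev b = γ + pt a b i (s + 1 - i) := by
      rw [hγi, add_assoc, pt_add_b, Nat.sub_add_comm his]
    have hva : Hf F γi v (dl a) = d (i + 1) := by rw [Hf_dl_right, ha]
    have hvb : Hf F γi v (dl b) = d i := by rw [Hf_dl_right, hb]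
    have haa : Hf F γi (dl a) (dl a) = e (i + 1 + 1) := by
      rw [Hf_dl_dl, ha, add_assoc, pt_add_a]
      simp only [he]
      congr 3; omega
    have hab : Hf F γi (dl a) (dl b) = e (i + 1) := by
      rw [Hf_dl_dl, hb, add_assoc, pt_add_a]
      simp only [he]
      congr 3; omega
    have hbb : Hf F γi (dl b) (dl b) = e i := by
      rw [Hf_dl_dl, hb, add_assoc, pt_add_b]
      simp only [he]
      congr 3; omega
    have h1 := hF.2 γi (fun o => (v o + (-T (i + 1)) * dl a o) + T i * dl b o) (dl b)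
      (by rw [hbb]; exact hepos i)
    simp only [SCH.Hf_lin_left, SCH.Hf_lin_right] at h1
    rw [SCH.Hf_symm F γi (dl a) v, SCH.Hf_symm F γi (dl b) v, SCH.Hf_symm F γi (dl b) (dl a),
      hva, hvb, haa, hab, hbb] at h1
    have h2 : d i + -T (i + 1) * e (i + 1) + T i * e i = 0 := by rw [hdT i]; ring
    rw [h2] at h1
    have h3 := nonpos_of_mul_nonpos_left (le_of_le_of_eq h1 (by ring)) (hepos i)
    rw [hdT (i + 1), hdT i] at h3
    simp only [hg]
    nlinarith [mul_nonneg (sq_nonneg (T (i + 1 + 1) - T (i + 1))) (hepos (i + 1 + 1)).le]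
  rw [hA]
  refine (sum_le_sum key).trans ?_
  rw [sum_range_sub (fun i => g (i + 1) - g i)]
  have h1 : g (s + 1 + 1) = 0 := by simp only [hg]; rw [show s + 1 + 1 = s + 2 from rfl, hTs]; ring
  have h2 : g 0 = 0 := by simp only [hg]; rw [hT0]; ring
  have h3 : ∀ i, 0 ≤ g i := fun i => mul_nonneg (sq_nonneg _) (hepos i).le
  rw [h1, h2]
  linarith [h3 (s + 1), h3 (0 + 1)]

end MRG

theorem MRG_proof (_hSch : SchStmt) : MrgStmt := by
  intro V _ _ F hF t
  induction t with
  | nil => exact hF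
  | cons B t ih => exact MRG.one_block _ ih B.1 B.2.1 B.2.2

end Crest.Agent.R309
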