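import Crest.Agent.R309.DefsA

/-! Row 309, task SMB: sums over splittings are sums over the box. -/

set_option autoImplicit false

namespace Crest.Agent.R309

open Finset

namespace SMB

variable {κ : Type} [Fintype κ] [DecidableEq κ]

/-- the partial box: coordinates outside the list are zero -/
def boxL (l : List κ) (u : κ → ℕ) : Finset (κ → ℕ) :=
  Fintype.piFinset (fun k => if k ∈ l then range (u k + 1) else {0})

theorem mem_boxL {l : List κ} {u x : κ → ℕ} :
    x ∈ boxL l u ↔ ∀ k, (k ∈ l → x k ≤ u k) ∧ (k ∉ l → x k = 0) := by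
  unfold boxL
  rw [Fintype.mem_piFinset]
  refine forall_congr' fun k => ?_
  by_cases h : k ∈ l <;> simp [h, Nat.lt_succ_iff]

theorem boxL_nil (u : κ → ℕ) : boxL ([] : List κ) u = {0} := by
  ext x
  simp [mem_boxL, funext_iff]

theorem boxL_univ (u : κ → ℕ) : boxL (Finset.univ : Finset κ).toList u = box u := by
  unfold boxL box
  simp

theorem sum_boxL_cons {M : Type} [AddCommMonoid M] (k : κ) (l : List κ) (hk : k ∉ l) (u : κ → ℕ)
    (f : (κ → ℕ) → M) :
    ∑ x ∈ boxL (k :: l) u, f x =
      ∑ i ∈ range (u k + 1), ∑ x ∈ boxL l u, f (Function.update x k i) := by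
  rw [← sum_product']
  symm
  refine sum_nbij' (fun p => Function.update p.2 k p.1) (fun y => (y k, Function.update y k 0))
    ?_ ?_ ?_ ?_ ?_
  · rintro ⟨i, x⟩ h
    simp only [mem_product, mem_range, mem_boxL] at h ⊢
    intro j
    by_cases hj : j = k
    · subst hj
      simp only [Function.update_self, List.mem_cons, true_or, not_true_eq_false, false_imp_iff,
        and_true, forall_const]
      omega
    · simp only [Function.update_of_ne hj, List.mem_cons, hj, false_or]
      exact h.2 j
  · intro y h
    simp only [mem_product, mem_range, mem_boxL] at h ⊢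
    refine ⟨Nat.lt_succ_of_le ((h k).1 (by simp)), fun j => ?_⟩
    by_cases hj : j = k
    · subst hj
      simp [hk]
    · have := h j
      simp only [List.mem_cons, hj, false_or] at this
      simpa only [Function.update_of_ne hj] using this
  · rintro ⟨i, x⟩ h
    simp only [mem_product, mem_range, mem_boxL] at h
    have hx : x k = 0 := (h.2 k).2 hk
    simp only [Function.update_self, Function.update_idem, Prod.mk.injEq, true_and]
    rw [← hx]; exact Function.update_eq_self k x
  · intro y _
    simp
  · intro p _
    rfl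

theorem sm_list {W : Type} [Fintype W] [DecidableEq W] (u : κ → ℕ) (a b : κ → W) (l : List κ)
    (hl : l.Nodup) (δ : W → ℕ) (Φ : (W → ℕ) → ℝ) :
    Sm (l.map (fun k => (a k, b k, u k))) δ Φ =
      ∑ x ∈ boxL l u, Φ (δ + ∑ k ∈ l.toFinset, pt (a k) (b k) (x k) (u k - x k)) := by
  induction l generalizing δ with
  | nil => simp [Sm, boxL_nil]
  | cons k l ih =>
    have hk : k ∉ l := (List.nodup_cons.1 hl).1
    have hl' : l.Nodup := (List.nodup_cons.1 hl).2
    rw [List.map_cons, Sm, sum_boxL_cons k l hk]
    refine sum_congr rfl fun i _ => ?_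
    rw [ih hl']
    refine sum_congr rfl fun x _ => ?_
    congr 1
    rw [List.toFinset_cons, sum_insert (by simpa using hk), Function.update_self, add_assoc]
    congr 2
    refine sum_congr rfl fun j hj => ?_
    have hjk : j ≠ k := fun e => hk (by rw [← e]; simpa using hj)
    rw [Function.update_of_ne hjk]

theorem sum_node {W : Type} [DecidableEq W] (u x : κ → ℕ) (ι : κ × Bool → W) :
    (∑ p, Pi.single (ι p) (node u x p) : W → ℕ) =
      ∑ k, pt (ι (k, false)) (ι (k, true)) (x k) (u k - x k) := by
  rw [Fintype.sum_prod_type]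
  refine sum_congr rfl fun k _ => ?_
  rw [Fintype.sum_bool, add_comm]
  simp [pt, node]

end SMB

theorem SMB_proof : SmbStmt := by
  intro κ W _ _ _ _ u ι δ Φ
  have e : (blocks u).map (fun B => (ι B.1, ι B.2.1, B.2.2)) =
      (Finset.univ : Finset κ).toList.map (fun k => (ι (k, false), ι (k, true), u k)) := by
    unfold blocks
    rw [List.map_map]
    rfl
  rw [e, SMB.sm_list u _ _ _ (Finset.nodup_toList _), SMB.boxL_univ]
  refine sum_congr rfl fun x _ => ?_
  rw [SMB.sum_node, Finset.toList_toFinset]

end Crest.Agent.R309
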