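import Crest.Agent.R309.DefsA

set_option autoImplicit false

namespace Crest.Agent.R309

open Finset

namespace DES

theorem sum_pos (f : ℤ → ℝ) (D : ℕ) :
    ∑ d ∈ Icc (1 : ℤ) D, f d = ∑ i ∈ range D, f ((i : ℤ) + 1) := by
  induction D with
  | zero => simp
  | succ D ih =>
    rw [sum_range_succ, ← ih]
    have : Icc (1 : ℤ) ((D + 1 : ℕ) : ℤ) = insert ((D : ℤ) + 1) (Icc (1 : ℤ) D) := by
      ext x; simp only [mem_Icc, mem_insert]; push_cast; omega
    rw [this, sum_insert (by simp), add_comm]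

theorem sum_sym (f : ℤ → ℝ) (D : ℕ) :
    ∑ d ∈ Icc (-(D : ℤ)) D, f d =
      f 0 + ∑ i ∈ range D, f ((i : ℤ) + 1) + ∑ i ∈ range D, f (-((i : ℤ) + 1)) := by
  induction D with
  | zero => simp
  | succ D ih =>
    rw [sum_range_succ, sum_range_succ]
    have : Icc (-((D + 1 : ℕ) : ℤ)) ((D + 1 : ℕ) : ℤ) =
        insert ((D : ℤ) + 1) (insert (-((D : ℤ) + 1)) (Icc (-(D : ℤ)) D)) := by
      ext x; simp only [mem_Icc, mem_insert]; push_cast; omega
    rw [this, sum_insert (by simp only [mem_Icc, mem_insert]; omega),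
      sum_insert (by simp only [mem_Icc]; omega), ih]
    ring

theorem geom (x : ℝ) (h0 : 0 ≤ x) (h1 : x ≤ 1 / 2) (D : ℕ) :
    ∑ i ∈ range D, x ^ (i + 1) ≤ 2 * x - 2 * x ^ (D + 1) := by
  induction D with
  | zero => simp
  | succ D ih =>
    rw [sum_range_succ]
    have h2 : 0 ≤ x ^ (D + 1) := pow_nonneg h0 _
    have : x ^ (D + 1 + 1) = x ^ (D + 1) * x := pow_succ _ _
    nlinarith

theorem pow_sub_one (M : ℕ) (hM : 1 ≤ M) (d : ℕ) :
    (1 + 1 / (M : ℝ)) ^ d - 1 ≤ (2 ^ d - 1) / M := by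
  have hM' : (1 : ℝ) ≤ M := by exact_mod_cast hM
  have hpos : (0 : ℝ) < M := by linarith
  have h1 : 1 / (M : ℝ) ≤ 1 := by rw [div_le_one hpos]; exact hM'
  have h0 : 0 ≤ 1 / (M : ℝ) := by positivity
  induction d with
  | zero => simp
  | succ d ih =>
    have hp : 1 ≤ (1 + 1 / (M : ℝ)) ^ d := one_le_pow₀ (by linarith)
    have e : (2 ^ (d + 1) - 1 : ℝ) / M = 2 * ((2 ^ d - 1) / M) + 1 / M := by
      field_simp; ring
    rw [e, pow_succ]
    nlinarith

end DES

open DES in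
theorem DES_proof : DesStmt := by
  intro g D M η l hg h0 hM hη hη1 hl hlη hyp
  obtain ⟨hn, hc⟩ := hg
  have hM' : (1 : ℝ) ≤ M := by exact_mod_cast hM
  have hMpos : (0 : ℝ) < M := by linarith
  rw [sum_sym, sum_pos] at hyp
  rw [sum_sym, sum_sym]
  have e1 : ∀ i : ℕ, ((i : ℤ) + 1).natAbs = i + 1 := fun i => by omega
  have e2 : ∀ i : ℕ, (-((i : ℤ) + 1)).natAbs = i + 1 := fun i => by omega
  simp only [e1, e2, Int.natAbs_zero, pow_zero, mul_one, neg_zero, zpow_zero, neg_neg] at hyp ⊢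
  set P := ∑ i ∈ range D, g ((i : ℤ) + 1) * l ^ (i + 1) with hP
  set N := ∑ i ∈ range D, g (-((i : ℤ) + 1)) * l ^ (i + 1) with hN
  have hP0 : 0 ≤ P := sum_nonneg fun i _ => mul_nonneg (hn _) (pow_nonneg hl.le _)
  have hN0 : 0 ≤ N := sum_nonneg fun i _ => mul_nonneg (hn _) (pow_nonneg hl.le _)
  -- `s ≥ η / 2`
  have hs : η / 2 * g 0 ≤ g 1 * l := by
    by_contra hlt
    push Not at hlt
    set s := g 1 * l / g 0 with hsdef
    have hs0 : 0 ≤ s := div_nonneg (mul_nonneg (hn _) hl.le) h0.le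
    have hs1 : s < η / 2 := by rw [hsdef, div_lt_iff₀ h0]; exact hlt
    have hq : ∀ i : ℕ, g (i : ℤ) * l ^ i ≤ g 0 * s ^ i := by
      intro i
      induction i with
      | zero => simp
      | succ i ih =>
        have h1 := hc 0 ((i : ℤ) + 1) (by omega)
        simp only [zero_add, add_sub_cancel_right] at h1
        have h2 : g ((i : ℤ) + 1) ≤ g 1 / g 0 * g i := by
          rw [div_mul_eq_mul_div, le_div_iff₀ h0]; linarith
        push_cast
        calc g ((i : ℤ) + 1) * l ^ (i + 1) ≤ g 1 / g 0 * g i * l ^ (i + 1) :=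
              mul_le_mul_of_nonneg_right h2 (pow_nonneg hl.le _)
          _ = s * (g i * l ^ i) := by rw [hsdef]; ring
          _ ≤ s * (g 0 * s ^ i) := mul_le_mul_of_nonneg_left ih hs0
          _ = g 0 * s ^ (i + 1) := by ring
    have hPle : P ≤ g 0 * (2 * s) := by
      calc P ≤ ∑ i ∈ range D, g 0 * s ^ (i + 1) := sum_le_sum fun i _ => by
              have := hq (i + 1); push_cast at this; exact this
        _ = g 0 * ∑ i ∈ range D, s ^ (i + 1) := by rw [mul_sum]
        _ ≤ g 0 * (2 * s) := by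
              apply mul_le_mul_of_nonneg_left _ h0.le
              have := geom s hs0 (by linarith) D
              have h3 : 0 ≤ s ^ (D + 1) := pow_nonneg hs0 _
              linarith
    have : g 0 * (2 * s) < η * g 0 := by nlinarith
    nlinarith
  have hg1 : 0 < g 1 := by
    by_contra h
    have : g 1 = 0 := le_antisymm (not_lt.mp h) (hn _)
    rw [this] at hs
    nlinarith
  -- `g (-1) ≤ g 0 / 3`
  have hm1 : g (-1) * l ≤ η / 18 * g 0 := by
    have h1 := hc (-1) 1 (by norm_num)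
    norm_num at h1
    have h2 : g 0 ≤ g 1 / 3 := by
      have : η / 2 * g 0 ≤ g 1 * (η / 6) := hs.trans (mul_le_mul_of_nonneg_left hlη hg1.le)
      nlinarith
    have h3 : g (-1) ≤ g 0 / 3 := by
      have : g (-1) * g 1 ≤ g 0 / 3 * g 1 := by nlinarith
      exact le_of_mul_le_mul_right this hg1
    have := hn (-1)
    nlinarith
  have hq : ∀ i : ℕ, g (-(i : ℤ)) * l ^ i ≤ g 0 * (η / 18) ^ i := by
    intro i
    induction i with
    | zero => simp
    | succ i ih =>
      have h1 := hc (-((i : ℤ) + 1)) 0 (by omega)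
      have e3 : -((i : ℤ) + 1) + 1 = -(i : ℤ) := by ring
      rw [e3, zero_sub] at h1
      have h2 : g (-((i : ℤ) + 1)) * l ≤ η / 18 * g (-(i : ℤ)) := by
        have h3 : g (-((i : ℤ) + 1)) * l * g 0 ≤ η / 18 * g (-(i : ℤ)) * g 0 := by
          have := hn (-(i : ℤ))
          calc g (-((i : ℤ) + 1)) * l * g 0 = g (-((i : ℤ) + 1)) * g 0 * l := by ring
            _ ≤ g (-(i : ℤ)) * g (-1) * l := mul_le_mul_of_nonneg_right h1 hl.le
            _ = g (-(i : ℤ)) * (g (-1) * l) := by ring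
            _ ≤ g (-(i : ℤ)) * (η / 18 * g 0) := mul_le_mul_of_nonneg_left hm1 this
            _ = _ := by ring
        exact le_of_mul_le_mul_right h3 h0
      push_cast
      calc g (-((i : ℤ) + 1)) * l ^ (i + 1) = g (-((i : ℤ) + 1)) * l * l ^ i := by ring
        _ ≤ η / 18 * g (-(i : ℤ)) * l ^ i := mul_le_mul_of_nonneg_right h2 (pow_nonneg hl.le _)
        _ = η / 18 * (g (-(i : ℤ)) * l ^ i) := by ring
        _ ≤ η / 18 * (g 0 * (η / 18) ^ i) := mul_le_mul_of_nonneg_left ih (by positivity)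
        _ = _ := by ring
  have hρ : 1 ≤ 1 + 1 / (M : ℝ) := by have : 0 ≤ 1 / (M : ℝ) := by positivity
                                      linarith
  -- gain
  have hgain : ∑ i ∈ range D, g ((i : ℤ) + 1) * l ^ (i + 1) * (1 + 1 / (M : ℝ)) ^ (-((i : ℤ) + 1)) ≤
      P * (1 - 1 / (2 * M)) := by
    rw [hP, sum_mul]
    refine sum_le_sum fun i _ => mul_le_mul_of_nonneg_left ?_ (mul_nonneg (hn _) (pow_nonneg hl.le _))
    calc (1 + 1 / (M : ℝ)) ^ (-((i : ℤ) + 1)) ≤ (1 + 1 / (M : ℝ)) ^ (-1 : ℤ) :=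
          zpow_le_zpow_right₀ hρ (by omega)
      _ ≤ 1 - 1 / (2 * M) := by
          rw [zpow_neg_one, inv_eq_one_div, div_le_iff₀ (by linarith)]
          have : (1 - 1 / (2 * (M : ℝ))) * (1 + 1 / M) = 1 + (M - 1) / (2 * M ^ 2) := by
            field_simp; ring
          rw [this]
          have : 0 ≤ ((M : ℝ) - 1) / (2 * M ^ 2) := div_nonneg (by linarith) (by positivity)
          linarith
  -- loss
  have hloss : ∑ i ∈ range D, g (-((i : ℤ) + 1)) * l ^ (i + 1) * (1 + 1 / (M : ℝ)) ^ ((i : ℤ) + 1) ≤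
      N + g 0 * (η / (4 * M)) := by
    have h1 : ∀ i ∈ range D, g (-((i : ℤ) + 1)) * l ^ (i + 1) * (1 + 1 / (M : ℝ)) ^ ((i : ℤ) + 1) ≤
        g (-((i : ℤ) + 1)) * l ^ (i + 1) + g 0 / M * (η / 9) ^ (i + 1) := by
      intro i _
      have e4 : (1 + 1 / (M : ℝ)) ^ ((i : ℤ) + 1) = (1 + 1 / (M : ℝ)) ^ (i + 1) := by
        rw [← zpow_natCast]; push_cast; rfl
      rw [e4]
      have h2 := pow_sub_one M hM (i + 1)
      have h3 := hq (i + 1)
      push_cast at h3
      have h4 : 0 ≤ g (-((i : ℤ) + 1)) * l ^ (i + 1) := mul_nonneg (hn _) (pow_nonneg hl.le _)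
      have h5 : (1 + 1 / (M : ℝ)) ^ (i + 1) - 1 ≤ 2 ^ (i + 1) / M := by
        refine h2.trans (div_le_div_of_nonneg_right (by linarith) hMpos.le)
      have h6 : g (-((i : ℤ) + 1)) * l ^ (i + 1) * ((1 + 1 / (M : ℝ)) ^ (i + 1) - 1) ≤
          g 0 * (η / 18) ^ (i + 1) * (2 ^ (i + 1) / M) :=
        (mul_le_mul_of_nonneg_left h5 h4).trans
          (mul_le_mul_of_nonneg_right h3 (by positivity))
      have e5 : g 0 * (η / 18) ^ (i + 1) * (2 ^ (i + 1) / M) = g 0 / M * (η / 9) ^ (i + 1) := by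
        have : (η / 9) = (η / 18) * 2 := by ring
        rw [this, mul_pow]; ring
      linarith
    refine (sum_le_sum h1).trans ?_
    rw [sum_add_distrib, ← mul_sum, ← hN]
    have h2 := geom (η / 9) (by positivity) (by linarith) D
    have h3 : 0 ≤ (η / 9) ^ (D + 1) := by positivity
    have h4 : ∑ i ∈ range D, (η / 9) ^ (i + 1) ≤ η / 4 := by linarith
    have h5 : g 0 / M * ∑ i ∈ range D, (η / 9) ^ (i + 1) ≤ g 0 / M * (η / 4) :=
      mul_le_mul_of_nonneg_left h4 (by positivity)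
    have e6 : g 0 / M * (η / 4) = g 0 * (η / (4 * M)) := by field_simp
    linarith
  have hk : 0 < 1 / (4 * (M : ℝ)) := by positivity
  have e7 : η / (4 * (M : ℝ)) = η * (1 / (4 * M)) := by ring
  have e8 : 1 / (2 * (M : ℝ)) = 2 * (1 / (4 * M)) := by field_simp; ring
  rw [e7] at hloss ⊢
  rw [e8] at hgain
  set k := 1 / (4 * (M : ℝ))
  have h9 : k * (η * (g 0 + P + N)) ≤ k * P := mul_le_mul_of_nonneg_left hyp hk.le
  have h10 : 0 ≤ k * η * (P + N) := by positivity
  nlinarith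

end Crest.Agent.R309
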