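import Crest.Agent.R309.DefsC

/-!
Row 309, ACC: at a near-critical tilt at the final temperature, at least half of the weight is accepted.
-/

set_option autoImplicit false

namespace Crest.Agent.R309

open Finset Crest.Agent.PT Crest.Agent.QC Crest.Agent.R317 Crest.Agent.R300U

namespace ACC

/-- marginal of the weight `r` along `E` -/
noncomputable def mg {X : Type} (Ω : Finset X) (E : X → ℤ) (r : X → ℝ) (e : ℤ) : ℝ :=
  ∑ x ∈ Ω.filter (fun x => E x = e), r x

theorem fib {X : Type} (Ω : Finset X) (E : X → ℤ) (r : X → ℝ) (T : Finset ℤ) (φ : ℤ → ℝ) :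
    ∑ e ∈ T, mg Ω E r e * φ e = ∑ x ∈ Ω.filter (fun x => E x ∈ T), r x * φ (E x) := by
  classical
  rw [← Finset.sum_fiberwise_of_maps_to (s := Ω.filter (fun x => E x ∈ T)) (t := T) (g := E)
    (fun x hx => (Finset.mem_filter.1 hx).2)]
  refine Finset.sum_congr rfl (fun e he => ?_)
  unfold mg
  rw [Finset.sum_mul, Finset.filter_filter]
  refine Finset.sum_congr ?_ (fun x hx => ?_)
  · ext x
    simp only [Finset.mem_filter]
    constructor
    · rintro ⟨h1, h2⟩; exact ⟨h1, h2 ▸ he, h2⟩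
    · rintro ⟨h1, _, h2⟩; exact ⟨h1, h2⟩
  · rw [(Finset.mem_filter.1 hx).2.2]

theorem le_mg {X : Type} (Ω : Finset X) (E : X → ℤ) (r : X → ℝ) (hr : ∀ x ∈ Ω, 0 ≤ r x) {x : X}
    (hx : x ∈ Ω) : r x ≤ mg Ω E r (E x) := by
  unfold mg
  exact Finset.single_le_sum (f := r) (fun y hy => hr y (Finset.mem_filter.1 hy).1)
    (Finset.mem_filter.2 ⟨hx, rfl⟩)

theorem glc_neg {g : ℤ → ℝ} (hg : GLC g) : GLC (fun t => g (-t)) := by
  refine ⟨fun z => hg.1 _, fun a b hab => ?_⟩
  have := hg.2 (-b) (-a) (by omega)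
  have e1 : -(a + 1) = -a - 1 := by ring
  have e2 : -(b - 1) = -b + 1 := by ring
  simp only [e1, e2]
  linarith [mul_comm (g (-a)) (g (-b)), mul_comm (g (-b + 1)) (g (-a - 1))]

theorem glc_tilt {g : ℤ → ℝ} (hg : GLC g) {ρ : ℝ} (hρ : 0 < ρ) (q : ℤ) :
    GLC (fun t => g t * ρ ^ (q * t)) := by
  refine ⟨fun z => mul_nonneg (hg.1 _) (zpow_pos hρ _).le, fun a b hab => ?_⟩
  have h := hg.2 a b hab
  have e : ρ ^ (q * a) * ρ ^ (q * b) = ρ ^ (q * (a + 1)) * ρ ^ (q * (b - 1)) := by
    rw [← zpow_add₀ hρ.ne', ← zpow_add₀ hρ.ne']; congr 1; ring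
  have hp : 0 < ρ ^ (q * a) * ρ ^ (q * b) := mul_pos (zpow_pos hρ _) (zpow_pos hρ _)
  calc g a * ρ ^ (q * a) * (g b * ρ ^ (q * b)) = (g a * g b) * (ρ ^ (q * a) * ρ ^ (q * b)) := by ring
    _ ≤ (g (a + 1) * g (b - 1)) * (ρ ^ (q * a) * ρ ^ (q * b)) := mul_le_mul_of_nonneg_right h hp.le
    _ = _ := by rw [e]; ring

theorem mg_neg {X : Type} (Ω : Finset X) (E : X → ℤ) (r : X → ℝ) :
    mg Ω (fun x => -E x) r = fun t => mg Ω E r (-t) := by
  funext t
  unfold mg
  refine Finset.sum_congr ?_ (fun _ _ => rfl)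
  ext x; simp only [Finset.mem_filter]
  constructor <;> rintro ⟨h1, h2⟩ <;> exact ⟨h1, by omega⟩

theorem mg_tilt {X : Type} (Ω : Finset X) (E : X → ℤ) (r : X → ℝ) (ρ : ℝ) (q : ℤ) :
    mg Ω E (fun x => r x * ρ ^ (q * E x)) = fun t => mg Ω E r t * ρ ^ (q * t) := by
  funext t
  unfold mg
  rw [Finset.sum_mul]
  refine Finset.sum_congr rfl (fun x hx => ?_)
  simp only [(Finset.mem_filter.1 hx).2]

theorem glc_sign {X : Type} (Ω : Finset X) (E : X → ℤ) (r : X → ℝ) (h : GLC (mg Ω E r)) {σ : ℤ}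
    (hσ : σ = 1 ∨ σ = -1) : GLC (mg Ω (fun x => σ * E x) r) := by
  rcases hσ with rfl | rfl
  · simpa using h
  · have : (fun x => -1 * E x) = fun x => -E x := by funext x; ring
    rw [this, mg_neg]; exact glc_neg h

/-- the root estimate -/
theorem root_bound (hDes : DesStmt) {X : Type} (Ω : Finset X) (E : X → ℤ) (r : X → ℝ) (D M : ℕ)
    (η l : ℝ) (hG : GLC (mg Ω E r)) (h0 : 0 < mg Ω E r 0) (hM : 1 ≤ M) (hη : 0 < η) (hη1 : η ≤ 1)
    (hl : 0 < l) (hlη : l ≤ η / 6) (hE : ∀ x ∈ Ω, |E x| ≤ D)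
    (hyp : (1 - η / (4 * M)) * ∑ x ∈ Ω, r x * l ^ (E x).natAbs <
      ∑ x ∈ Ω, r x * l ^ (E x).natAbs * (1 + 1 / (M : ℝ)) ^ (-E x)) :
    ∑ x ∈ Ω.filter (fun x => 1 ≤ E x), r x * l ^ (E x).natAbs ≤
      η * ∑ x ∈ Ω, r x * l ^ (E x).natAbs := by
  have hall : Ω.filter (fun x => E x ∈ Icc (-(D : ℤ)) D) = Ω := by
    refine Finset.filter_true_of_mem (fun x hx => ?_)
    have := abs_le.1 (hE x hx)
    exact Finset.mem_Icc.2 this
  have hpos : Ω.filter (fun x => E x ∈ Icc (1 : ℤ) D) = Ω.filter (fun x => 1 ≤ E x) := by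
    refine Finset.filter_congr (fun x hx => ?_)
    have := abs_le.1 (hE x hx)
    simp [Finset.mem_Icc, this.2]
  have e1 := fib Ω E r (Icc (-(D : ℤ)) D) (fun d => l ^ d.natAbs)
  have e2 := fib Ω E r (Icc (1 : ℤ) D) (fun d => l ^ d.natAbs)
  have e3 := fib Ω E r (Icc (-(D : ℤ)) D) (fun d => l ^ d.natAbs * (1 + 1 / (M : ℝ)) ^ (-d))
  rw [hall] at e1 e3
  rw [hpos] at e2
  by_contra hc
  push Not at hc
  have := hDes (mg Ω E r) D M η l hG h0 hM hη hη1 hl hlη (by rw [e1, e2]; exact hc.le)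
  rw [e1] at this
  simp only [← mul_assoc] at e3
  rw [e3] at this
  linarith

theorem wall_zero (L : ℕ) : wall L 0 = 1 := by simp [wall]

theorem wall_small (L d : ℕ) (h : 2 * d ≤ L) : wall L d = 1 - (d : ℝ) ^ 2 / (L : ℝ) ^ 2 := by
  have h1 : min d (L / 2) = d := min_eq_left (by omega)
  have h2 : d - L / 2 = 0 := by omega
  simp [wall, h1, h2]

/-- the wall estimate -/
theorem wall_bound (hWal : WalStmt) {X : Type} (Ω : Finset X) (T : X → ℤ) (r : X → ℝ) (lo : ℤ)
    (w n J : ℕ) (hG : GLC (mg Ω T r)) (hr : ∀ x ∈ Ω, 0 ≤ r x) (hn : 1 ≤ n) (hJ : 2 ^ 30 * n ^ 8 ≤ J)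
    (hw : 2 ^ 30 * n ^ 8 ≤ w) (hT : ∀ x ∈ Ω, dst lo (lo + w) (T x) ≤ n * w) (hlo : 1 ≤ mg Ω T r lo)
    (hZ : ∑ x ∈ Ω, r x * wall (2 * n ^ 2 * w) (dst lo (lo + w) (T x)).toNat ^ J ≤ 2 ^ n) :
    8 * n * ∑ x ∈ Ω.filter (fun x => lo + w < T x),
        r x * wall (2 * n ^ 2 * w) (dst lo (lo + w) (T x)).toNat ^ J ≤
      ∑ x ∈ Ω, r x * wall (2 * n ^ 2 * w) (dst lo (lo + w) (T x)).toNat ^ J := by
  have hnn : n * w ≤ n ^ 2 * w := Nat.mul_le_mul_right _ (by nlinarith)
  have hwn : ∀ x ∈ Ω, 0 ≤ wall (2 * n ^ 2 * w) (dst lo (lo + w) (T x)).toNat := by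
    intro x hx
    have h1 := hT x hx
    have h2 : (dst lo (lo + w) (T x)).toNat ≤ n * w := by
      rw [Int.toNat_le]; push_cast; exact h1
    rw [wall_small _ _ (by nlinarith)]
    have hw0 : 0 < w := lt_of_lt_of_le (by positivity) hw
    have hL : (0 : ℝ) < ((2 * n ^ 2 * w : ℕ) : ℝ) := by positivity
    rw [sub_nonneg, div_le_one (by positivity)]
    have : (((dst lo (lo + w) (T x)).toNat : ℕ) : ℝ) ≤ ((2 * n ^ 2 * w : ℕ) : ℝ) := by
      exact_mod_cast (by nlinarith : (dst lo (lo + w) (T x)).toNat ≤ 2 * n ^ 2 * w)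
    exact pow_le_pow_left₀ (by positivity) this 2
  have hterm : ∀ x ∈ Ω, 0 ≤ r x * wall (2 * n ^ 2 * w) (dst lo (lo + w) (T x)).toNat ^ J :=
    fun x hx => mul_nonneg (hr x hx) (pow_nonneg (hwn x hx) _)
  -- sums of the marginal over subsets of `[lo, hi]`
  have hsub : ∀ S : Finset ℤ, (∀ t ∈ S, lo ≤ t ∧ t ≤ lo + w) → ∑ t ∈ S, mg Ω T r t ≤
      ∑ x ∈ Ω, r x * wall (2 * n ^ 2 * w) (dst lo (lo + w) (T x)).toNat ^ J := by
    intro S hS
    have e := fib Ω T r S (fun _ => 1)
    simp only [mul_one] at e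
    rw [e]
    calc ∑ x ∈ Ω.filter (fun x => T x ∈ S), r x
        = ∑ x ∈ Ω.filter (fun x => T x ∈ S),
            r x * wall (2 * n ^ 2 * w) (dst lo (lo + w) (T x)).toNat ^ J := by
          refine Finset.sum_congr rfl (fun x hx => ?_)
          have h1 := hS _ (Finset.mem_filter.1 hx).2
          have : dst lo (lo + w) (T x) = 0 := by unfold dst; omega
          rw [this]; simp [wall_zero]
      _ ≤ _ := Finset.sum_le_sum_of_subset_of_nonneg (Finset.filter_subset _ _)
          (fun x hx _ => hterm x hx)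
  have hW := hWal (mg Ω T r) lo w n J (n * w) hG hn hJ hw le_rfl hlo (fun t h1 h2 => by
    have := hsub {t} (by simp [h1, h2])
    simp only [Finset.sum_singleton] at this
    exact this.trans hZ)
  have h2 := hsub (Icc lo (lo + w)) (fun t ht => Finset.mem_Icc.1 ht)
  refine le_trans (le_of_eq ?_) (hW.trans h2)
  congr 1
  have e := fib Ω T r ((Icc 1 (n * w)).image (fun d : ℕ => lo + w + d))
    (fun t => wall (2 * n ^ 2 * w) (dst lo (lo + w) t).toNat ^ J)
  rw [Finset.sum_image (fun a _ b _ h => by simpa using h)] at e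
  have hf : Ω.filter (fun x => T x ∈ (Icc 1 (n * w)).image (fun d : ℕ => lo + w + d)) =
      Ω.filter (fun x => lo + w < T x) := by
    refine Finset.filter_congr (fun x hx => ?_)
    have h1 := hT x hx
    simp only [Finset.mem_image, Finset.mem_Icc]
    constructor
    · rintro ⟨d, ⟨h2, _⟩, h3⟩; omega
    · intro h
      refine ⟨(T x - (lo + w)).toNat, ⟨by omega, ?_⟩, by omega⟩
      rw [Int.toNat_le]; push_cast
      unfold dst at h1; omega
  rw [hf] at e
  rw [← e]
  refine Finset.sum_congr rfl (fun d hd => ?_)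
  have h1 := Finset.mem_Icc.1 hd
  have : (dst lo (lo + w) (lo + w + d)).toNat = d := by unfold dst; omega
  rw [this, wall_small _ _ (by nlinarith [h1.2])]
  push_cast; ring

theorem l_small (n : ℕ) (hn : 1 ≤ n) :
    ((1 + 1 / (pJ' n : ℝ)) ^ pJ2 n)⁻¹ ≤ 1 / (8 * n) / 6 := by
  have hJ : 0 < pJ' n := by unfold pJ' pD pK0 pJ; positivity
  have hJ' : (0 : ℝ) < pJ' n := by exact_mod_cast hJ
  have h2 : (2 : ℝ) ≤ (1 + 1 / (pJ' n : ℝ)) ^ pJ' n := by
    have := one_add_mul_le_pow (a := 1 / (pJ' n : ℝ)) (by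
      have : (0 : ℝ) ≤ 1 / (pJ' n : ℝ) := by positivity
      linarith) (pJ' n)
    rw [mul_one_div_cancel hJ'.ne'] at this
    linarith
  have h3 : (48 * n : ℝ) ≤ (1 + 1 / (pJ' n : ℝ)) ^ pJ2 n := by
    unfold pJ2
    rw [mul_comm (48 * n).size, pow_mul]
    have h4 : 48 * n < 2 ^ (48 * n).size := Nat.lt_size_self _
    have h5 : (48 * n : ℝ) ≤ 2 ^ (48 * n).size := by exact_mod_cast h4.le
    exact h5.trans (pow_le_pow_left₀ (by norm_num) h2 _)
  have hn' : (0 : ℝ) < n := by exact_mod_cast hn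
  rw [div_div, show (8 * (n : ℝ) * 6) = 48 * n by ring, one_div (48 * (n : ℝ))]
  exact inv_anti₀ (by positivity) h3

theorem bump_getD (n : ℕ) (p : List ℤ) (v : ℕ) (δ : ℤ) (j : ℕ) :
    (bump n p v δ).getD j 0 = if j < n then p.getD j 0 + (if j = v then δ else 0) else 0 := by
  split_ifs with h h'
  · unfold bump; rw [getD_mkL _ _ h]; simp [h']
  · unfold bump; rw [getD_mkL _ _ h]; simp [h']
  · unfold bump
    rw [List.getD_eq_default]; simp; omega

end ACC

open ACC in
theorem ACC_proof (hMar : MarStmt) (hDes : DesStmt) (hWal : WalStmt) (hBij : BijStmt)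
    (hRep : RepStmt) : AccStmt := by
  classical
  intro P hP p hp hZ hyp
  obtain ⟨hB1, -, hB3, hB4, hB5⟩ := hBij P hP
  obtain ⟨hLam, hR⟩ := hRep P hP
  have hn : 1 ≤ nn P := hP.pos
  have hn' : (0 : ℝ) < nn P := by exact_mod_cast hn
  have hval : Valid P (pS (nn P)) p := ⟨le_rfl, fun v => (hp v).le⟩
  obtain ⟨hLC, hRx⟩ := hR _ _ hval
  -- the weight without the factor of `v`
  set rest : ℕ → (Fin (nA (gG P)) → ℕ) → ℝ := fun v x =>
    ∏ i ∈ (range (nV (gG P))).erase v, chiT P (pS (nn P)) p i (Ev P (toL x) i) with hrest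
  have hrpos : ∀ v x, 0 < rest v x := fun v x => Finset.prod_pos (fun i hi =>
    (hLC i (Finset.mem_range.1 (Finset.mem_of_mem_erase hi))).2.1 _)
  have hsplit : ∀ v < nV (gG P), ∀ x ∈ bx P,
      πq P (pS (nn P)) p x = rest v x * chiT P (pS (nn P)) p v (Ev P (toL x) v) := by
    intro v hv x hx
    rw [(hRx x hx).2, hrest]
    exact (Finset.prod_erase_mul _ _ (Finset.mem_range.2 hv)).symm
  have hπpos : ∀ x ∈ bx P, 0 < πq P (pS (nn P)) p x := by
    intro x hx
    rw [(hRx x hx).2]
    exact Finset.prod_pos (fun i hi => (hLC i (Finset.mem_range.1 hi)).2.1 _)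
  have hglc : ∀ v < nV (gG P), GLC (mg (bx P) (fun x => Ev P (toL x) v) (rest v)) := by
    intro v hv
    have h := hMar ℕ (Fin (nA (gG P))) (fun k => uB P k) (range (nV (gG P))) (Sc P)
      (chiT P (pS (nn P)) p) (off P) v hLam (Finset.mem_range.2 hv)
      (fun i hi => (hLC i (Finset.mem_range.1 hi)).2)
    convert h using 1
    funext d
    unfold mg
    refine Finset.sum_congr ?_ (fun x hx => ?_)
    · refine Finset.filter_congr (fun x hx => ?_)
      rw [(hRx x hx).1 v]
    · have hx' : x ∈ bx P := (Finset.mem_filter.1 hx).1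
      unfold lamF
      exact Finset.prod_congr rfl (fun i _ => by rw [(hRx x hx').1 i])
  have hSJ : pS (nn P) - pJ (nn P) = pJ2 (nn P) := by unfold pS; omega
  have hmin : min (pS (nn P)) (pJ (nn P)) = pJ (nn P) := min_eq_right (by unfold pS; omega)
  -- the bad event at each node
  have hnode : ∀ v < nV (gG P), 4 * nn P * ∑ x ∈ (bx P).filter
      (fun x => ¬ (if isRoot P v then Ev P (toL x) v = 0 else ds P (toL x) v = 0)),
        πq P (pS (nn P)) p x ≤ Zq P (pS (nn P)) p := by
    intro v hv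
    have hvn : v < nn P := lt_of_lt_of_le hv hP.hV
    by_cases hroot : isRoot P v
    · -- root
      simp only [if_pos hroot]
      set ρ : ℝ := 1 + 1 / (pM (nn P) : ℝ) with hρ
      have hρ0 : 0 < ρ := by positivity
      set l : ℝ := ((1 + 1 / (pJ' (nn P) : ℝ)) ^ pJ2 (nn P))⁻¹ with hl
      have hl0 : 0 < l := by positivity
      have hchi : ∀ (q : List ℤ) (e : ℤ), chiT P (pS (nn P)) q v e = l ^ e.natAbs * ρ ^ (q.getD v 0 * e) := by
        intro q e
        unfold chiT chi
        rw [if_pos hroot, if_pos hroot, hSJ, hl, inv_pow, ← pow_mul, zpow_neg, ← Int.natCast_natAbs,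
          ← Nat.cast_mul, zpow_natCast]
      have hside : ∀ σ : ℤ, σ = 1 ∨ σ = -1 →
          ∑ x ∈ (bx P).filter (fun x => 1 ≤ σ * Ev P (toL x) v), πq P (pS (nn P)) p x ≤
            1 / (8 * nn P) * Zq P (pS (nn P)) p := by
        intro σ hσ
        have habs : ∀ e : ℤ, (σ * e).natAbs = e.natAbs := by
          intro e; rcases hσ with rfl | rfl <;> simp
        have hπ : ∀ x ∈ bx P, πq P (pS (nn P)) p x =
            (rest v x * ρ ^ (p.getD v 0 * Ev P (toL x) v)) * l ^ (σ * Ev P (toL x) v).natAbs := by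
          intro x hx
          rw [hsplit v hv x hx, hchi, habs]; ring
        have hG : GLC (mg (bx P) (fun x => σ * Ev P (toL x) v)
            (fun x => rest v x * ρ ^ (p.getD v 0 * Ev P (toL x) v))) := by
          refine glc_sign _ _ _ ?_ hσ
          rw [mg_tilt]
          exact glc_tilt (hglc v hv) hρ0 _
        obtain ⟨X, hX⟩ := hP.ne
        obtain ⟨x₀, hx₀, hacc, -⟩ := hB3 X hX
        have hE0 : Ev P (toL x₀) v = 0 := by
          have := hacc v hv
          simpa [hroot] using this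
        have h0 : 0 < mg (bx P) (fun x => σ * Ev P (toL x) v)
            (fun x => rest v x * ρ ^ (p.getD v 0 * Ev P (toL x) v)) 0 := by
          have := le_mg (bx P) (fun x => σ * Ev P (toL x) v)
            (fun x => rest v x * ρ ^ (p.getD v 0 * Ev P (toL x) v))
            (fun x _ => (mul_pos (hrpos v x) (zpow_pos hρ0 _)).le) hx₀
          simp only [hE0, mul_zero] at this
          exact lt_of_lt_of_le (mul_pos (hrpos v x₀) (zpow_pos hρ0 _)) this
        have hM : 1 ≤ pM (nn P) := by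
          have : 0 < pM (nn P) := by unfold pM pD pK0 pJ; positivity
          omega
        have hvalb : Valid P (pS (nn P)) (bump (nn P) p v (-σ)) := by
          refine ⟨le_rfl, fun j => ?_⟩
          rw [bump_getD]
          have := hp j
          have h2 := abs_lt.1 this
          split_ifs
          · rcases hσ with rfl | rfl <;> exact abs_le.2 ⟨by omega, by omega⟩
          · simpa using this.le
          · simp
        have hZb : Zq P (pS (nn P)) (bump (nn P) p v (-σ)) = ∑ x ∈ bx P,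
            (rest v x * ρ ^ (p.getD v 0 * Ev P (toL x) v)) * l ^ (σ * Ev P (toL x) v).natAbs *
              ρ ^ (-(σ * Ev P (toL x) v)) := by
          unfold Zq
          refine Finset.sum_congr rfl (fun x hx => ?_)
          rw [((hR _ _ hvalb).2 x hx).2, ← Finset.prod_erase_mul _ _ (Finset.mem_range.2 hv), hchi,
            habs, bump_getD, if_pos hvn, if_pos rfl]
          have : ∏ i ∈ (range (nV (gG P))).erase v,
              chiT P (pS (nn P)) (bump (nn P) p v (-σ)) i (Ev P (toL x) i) = rest v x := by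
            refine Finset.prod_congr rfl (fun i hi => ?_)
            have hi1 := Finset.ne_of_mem_erase hi
            have hi2 : i < nn P := lt_of_lt_of_le (Finset.mem_range.1 (Finset.mem_of_mem_erase hi)) hP.hV
            unfold chiT
            rw [bump_getD, if_pos hi2, if_neg hi1, add_zero]
          rw [this, add_mul, zpow_add₀ hρ0.ne', neg_mul]
          ring
        have hZ' : Zq P (pS (nn P)) p = ∑ x ∈ bx P,
            (rest v x * ρ ^ (p.getD v 0 * Ev P (toL x) v)) * l ^ (σ * Ev P (toL x) v).natAbs :=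
          Finset.sum_congr rfl hπ
        have hy := hyp v hvn (-σ) (by rcases hσ with rfl | rfl <;> simp)
        have key := root_bound hDes (bx P) (fun x => σ * Ev P (toL x) v)
          (fun x => rest v x * ρ ^ (p.getD v 0 * Ev P (toL x) v)) (pD (nn P)) (pM (nn P))
          (1 / (8 * nn P)) l hG h0 hM (by positivity) (by
            rw [div_le_one (by positivity)]
            have : (1 : ℝ) ≤ nn P := by exact_mod_cast hn
            linarith) hl0 (l_small _ hn)
          (fun x hx => by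
            have := (hB1 x hx v hv).1 hroot
            rcases hσ with rfl | rfl <;> simpa using this)
          (by
            rw [← hZ', ← hρ, ← hZb]
            convert hy using 3
            field_simp; ring)
        rw [← hZ'] at key
        refine le_trans (le_of_eq ?_) key
        exact Finset.sum_congr rfl (fun x hx => hπ x (Finset.mem_filter.1 hx).1)
      have h1 := hside 1 (Or.inl rfl)
      have h2 := hside (-1) (Or.inr rfl)
      have h3 : ∑ x ∈ (bx P).filter (fun x => ¬ Ev P (toL x) v = 0), πq P (pS (nn P)) p x =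
          ∑ x ∈ (bx P).filter (fun x => 1 ≤ 1 * Ev P (toL x) v), πq P (pS (nn P)) p x +
          ∑ x ∈ (bx P).filter (fun x => 1 ≤ -1 * Ev P (toL x) v), πq P (pS (nn P)) p x := by
        rw [Finset.sum_filter, Finset.sum_filter, Finset.sum_filter, ← Finset.sum_add_distrib]
        refine Finset.sum_congr rfl (fun x _ => ?_)
        split_ifs <;> first | omega | simp
      rw [h3]
      have e : 4 * (nn P : ℝ) * (1 / (8 * nn P) * Zq P (pS (nn P)) p + 1 / (8 * nn P) * Zq P (pS (nn P)) p)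
          = Zq P (pS (nn P)) p := by field_simp; ring
      rw [← e]
      exact mul_le_mul_of_nonneg_left (add_le_add h1 h2) (by positivity)
    · -- tree arc
      simp only [if_neg hroot]
      have hta : ta P v < nA (gG P) := by unfold isRoot at hroot; omega
      obtain ⟨hK, hown⟩ := hP.tree.own v hv hta
      have hσ0 : -sg P v (ta P v) = 1 ∨ -sg P v (ta P v) = -1 := by
        unfold sg
        revert hown
        cases inS P v (tl (gG P) (ta P v)) <;> cases inS P v (hd (gG P) (ta P v)) <;> simp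
      have hw : 2 ^ 30 * nn P ^ 8 ≤ wd P (ta P v) := by
        unfold pK0 pJ at hK; omega
      set w := wd P (ta P v) with hwdef
      set a : ℤ := ((lo P (ta P v) : ℕ) : ℤ) with ha
      have hπ : ∀ x ∈ bx P, πq P (pS (nn P)) p x = rest v x *
          wall (2 * nn P ^ 2 * w) (dst a (a + w) (Tv P (toL x) v)).toNat ^ pJ (nn P) := by
        intro x hx
        rw [hsplit v hv x hx]
        unfold chiT chi
        rw [if_neg hroot, if_neg hroot, hmin, mul_one]
        rfl
      have hds : ∀ x : Fin (nA (gG P)) → ℕ, ds P (toL x) v = dst a (a + w) (Tv P (toL x) v) := by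
        intro x; unfold ds bz; push_cast; rfl
      have hGT : GLC (mg (bx P) (fun x => Tv P (toL x) v) (rest v)) := glc_sign _ _ _ (hglc v hv) hσ0
      have hat : ∀ X ∈ flows (gG P), ∃ x ∈ bx P, Tv P (toL x) v = X ⟨ta P v, hta⟩ ∧ rest v x = 1 := by
        intro X hX
        obtain ⟨x, hx, hacc, -, -, hT⟩ := hB3 X hX
        refine ⟨x, hx, hT v hv hta, ?_⟩
        have h1 := hB4 (pS (nn P)) p x hx hacc
        have h2 : ds P (toL x) v = 0 := by simpa [hroot] using hacc v hv
        rw [hπ x hx, ← hds, h2] at h1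
        simpa [wall_zero] using h1
      obtain ⟨⟨X₁, hX₁, e₁⟩, ⟨X₂, hX₂, e₂⟩⟩ := hP.rng.2 ⟨ta P v, hta⟩
      obtain ⟨x₁, hx₁, t₁, r₁⟩ := hat X₁ hX₁
      obtain ⟨x₂, hx₂, t₂, r₂⟩ := hat X₂ hX₂
      have hZ' : Zq P (pS (nn P)) p = ∑ x ∈ bx P, rest v x *
          wall (2 * nn P ^ 2 * w) (dst a (a + w) (Tv P (toL x) v)).toNat ^ pJ (nn P) :=
        Finset.sum_congr rfl hπ
      have hbd : ∀ x ∈ bx P, dst a (a + w) (Tv P (toL x) v) ≤ nn P * w := by
        intro x hx
        rw [← hds]; exact (hB1 x hx v hv).2 hroot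
      have h1 := wall_bound hWal (bx P) (fun x => Tv P (toL x) v) (rest v) a w (nn P) (pJ (nn P)) hGT
        (fun x _ => (hrpos v x).le) hn le_rfl hw hbd (by
          have := le_mg (bx P) (fun x => Tv P (toL x) v) (rest v) (fun x _ => (hrpos v x).le) hx₁
          rw [r₁, t₁, e₁] at this
          exact this) (by rw [← hZ']; exact hZ)
      have hrefl : ∀ t : ℤ, dst (-(a + w)) (-(a + w) + w) (-t) = dst a (a + w) t := by
        intro t; unfold dst; omega
      have h2 := wall_bound hWal (bx P) (fun x => -Tv P (toL x) v) (rest v) (-(a + w)) w (nn P)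
        (pJ (nn P)) (by rw [mg_neg]; exact glc_neg hGT)
        (fun x _ => (hrpos v x).le) hn le_rfl hw (fun x hx => by rw [hrefl]; exact hbd x hx) (by
          have := le_mg (bx P) (fun x => -Tv P (toL x) v) (rest v) (fun x _ => (hrpos v x).le) hx₂
          rw [r₂, t₂, e₂] at this
          push_cast at this
          exact this) (by simp only [hrefl]; rw [← hZ']; exact hZ)
      simp only [hrefl] at h2
      rw [← hZ'] at h1 h2
      have h3 : ∑ x ∈ (bx P).filter (fun x => ¬ ds P (toL x) v = 0), πq P (pS (nn P)) p x =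
          ∑ x ∈ (bx P).filter (fun x => a + w < Tv P (toL x) v), rest v x *
            wall (2 * nn P ^ 2 * w) (dst a (a + w) (Tv P (toL x) v)).toNat ^ pJ (nn P) +
          ∑ x ∈ (bx P).filter (fun x => -(a + w) + w < -Tv P (toL x) v), rest v x *
            wall (2 * nn P ^ 2 * w) (dst a (a + w) (Tv P (toL x) v)).toNat ^ pJ (nn P) := by
        rw [Finset.sum_filter, Finset.sum_filter, Finset.sum_filter, ← Finset.sum_add_distrib]
        refine Finset.sum_congr rfl (fun x hx => ?_)
        rw [← hπ x hx, hds]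
        unfold dst
        split_ifs <;> first | omega | simp
      rw [h3]
      nlinarith
  -- union bound
  have hZ0 : 0 ≤ Zq P (pS (nn P)) p := Finset.sum_nonneg (fun x hx => (hπpos x hx).le)
  have hrej : ∑ x ∈ (bx P).filter (fun x => ¬ acc P (toL x)), πq P (pS (nn P)) p x ≤
      ∑ v ∈ range (nV (gG P)), ∑ x ∈ (bx P).filter
        (fun x => ¬ (if isRoot P v then Ev P (toL x) v = 0 else ds P (toL x) v = 0)),
          πq P (pS (nn P)) p x := by
    simp only [Finset.sum_filter]
    rw [Finset.sum_comm]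
    refine Finset.sum_le_sum (fun x hx => ?_)
    have hnn : ∀ v ∈ range (nV (gG P)), 0 ≤ (if ¬ (if isRoot P v then Ev P (toL x) v = 0
        else ds P (toL x) v = 0) then πq P (pS (nn P)) p x else 0) := by
      intro v _
      by_cases h : ¬ (if isRoot P v then Ev P (toL x) v = 0 else ds P (toL x) v = 0)
      · rw [if_pos h]; exact (hπpos x hx).le
      · rw [if_neg h]
    by_cases h : acc P (toL x)
    · rw [if_neg (not_not.2 h)]
      exact Finset.sum_nonneg hnn
    · rw [if_pos h]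
      unfold acc All at h
      push Not at h
      obtain ⟨v, hv, hbad⟩ := h
      have := Finset.single_le_sum hnn (Finset.mem_range.2 hv)
      rwa [if_pos hbad] at this
  have hrej2 : ∑ v ∈ range (nV (gG P)), ∑ x ∈ (bx P).filter
        (fun x => ¬ (if isRoot P v then Ev P (toL x) v = 0 else ds P (toL x) v = 0)),
          πq P (pS (nn P)) p x ≤ Zq P (pS (nn P)) p / 4 := by
    calc _ ≤ ∑ v ∈ range (nV (gG P)), Zq P (pS (nn P)) p / (4 * nn P) := by
          refine Finset.sum_le_sum (fun v hv => ?_)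
          rw [le_div_iff₀ (by positivity), mul_comm]
          exact hnode v (Finset.mem_range.1 hv)
      _ = nV (gG P) * (Zq P (pS (nn P)) p / (4 * nn P)) := by simp
      _ ≤ nn P * (Zq P (pS (nn P)) p / (4 * nn P)) :=
          mul_le_mul_of_nonneg_right (by exact_mod_cast hP.hV) (by positivity)
      _ = _ := by field_simp
  have hacc : ∑ x ∈ (bx P).filter (fun x => acc P (toL x)), πq P (pS (nn P)) p x =
      (flows (gG P)).card := by
    rw [← hB5, Finset.sum_congr rfl (fun x hx => hB4 (pS (nn P)) p x (Finset.mem_filter.1 hx).1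
      (Finset.mem_filter.1 hx).2)]
    simp
  have htot := Finset.sum_filter_add_sum_filter_not (bx P) (fun x => acc P (toL x))
    (πq P (pS (nn P)) p)
  have : Zq P (pS (nn P)) p = ∑ x ∈ bx P, πq P (pS (nn P)) p x := rfl
  linarith

end Crest.Agent.R309
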