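import Crest.Agent.R309.DefsC

/-! Row 309, task REP: the weight is a laminar product. -/

set_option autoImplicit false

namespace Crest.Agent.R309

open Finset Crest.Agent.PT Crest.Agent.QC Crest.Agent.R317 Crest.Agent.R300U

namespace REP

theorem gv_toL {N : ℕ} (x : Fin N → ℕ) (k : Fin N) : gv (toL x) k = x k := by
  unfold gv toL
  rw [List.getD_eq_getElem _ _ (by simp)]
  simp

theorem gv_nil (k : ℕ) : gv [] k = 0 := by
  unfold gv; simp

theorem mem_bx {P : Pre} {x : Fin (nA (gG P)) → ℕ} (hx : x ∈ bx P) (k : Fin (nA (gG P))) :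
    x k ≤ uB P k := by
  unfold bx box at hx
  have := Fintype.mem_piFinset.1 hx k
  simpa [Nat.lt_succ_iff] using this

theorem zcl_eq {L : ℕ} {z : ℤ} (h : |z| ≤ L) : zcl L z = z := by
  unfold zcl
  have := abs_le.1 h
  omega

theorem lc_mul {f g : ℤ → ℝ} (hf : LC f) (hg : LC g) : LC (fun z => f z * g z) := by
  refine ⟨fun z => mul_pos (hf.1 z) (hg.1 z), fun z => ?_⟩
  have h1 := hf.2 z
  have h2 := hg.2 z
  have := mul_le_mul h1 h2 (mul_pos (hg.1 _) (hg.1 _)).le (sq_nonneg _)
  calc f (z - 1) * g (z - 1) * (f (z + 1) * g (z + 1))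
      = f (z - 1) * f (z + 1) * (g (z - 1) * g (z + 1)) := by ring
    _ ≤ f z ^ 2 * g z ^ 2 := this
    _ = (f z * g z) ^ 2 := by ring

theorem lc_one : LC (fun _ => (1 : ℝ)) := ⟨fun _ => one_pos, fun _ => by simp⟩

theorem lc_pow {f : ℤ → ℝ} (hf : LC f) (m : ℕ) : LC (fun z => f z ^ m) := by
  induction m with
  | zero => simpa using lc_one
  | succ m ih => simpa [pow_succ] using lc_mul ih hf

theorem lc_neg {f : ℤ → ℝ} (hf : LC f) : LC (fun z => f (-z)) := by
  refine ⟨fun z => hf.1 _, fun z => ?_⟩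
  have := hf.2 (-z)
  have e1 : -(z - 1) = -z + 1 := by ring
  have e2 : -(z + 1) = -z - 1 := by ring
  simp only [e1, e2]
  linarith [mul_comm (f (-z - 1)) (f (-z + 1))]

theorem lc_zpow {ρ : ℝ} (hρ : 1 ≤ ρ) (e : ℤ → ℤ) (he : ∀ z, e (z - 1) + e (z + 1) ≤ 2 * e z) :
    LC (fun z => ρ ^ e z) := by
  have h0 : 0 < ρ := by linarith
  refine ⟨fun z => zpow_pos h0 _, fun z => ?_⟩
  rw [← zpow_add₀ h0.ne', ← zpow_natCast, ← zpow_mul]
  apply zpow_le_zpow_right₀ hρ
  have := he z
  push_cast
  linarith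

theorem sg_tree {P : Pre} (hP : Spec P) {v : ℕ} (hv : v < nV (gG P)) (hr : ¬ isRoot P v) :
    sg P v (ta P v) = 1 ∨ sg P v (ta P v) = -1 := by
  have h := (hP.tree.own v hv (by unfold isRoot at hr; omega)).2
  unfold sg
  cases h1 : inS P v (tl (gG P) (ta P v)) <;> cases h2 : inS P v (hd (gG P) (ta P v)) <;>
    simp_all

theorem wd_tree {P : Pre} (hP : Spec P) {v : ℕ} (hv : v < nV (gG P)) (hr : ¬ isRoot P v) :
    4 ≤ wd P (ta P v) := by
  have h := (hP.tree.own v hv (by unfold isRoot at hr; omega)).1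
  have hn := hP.pos
  have : 1 ≤ pJ (nn P) := by
    unfold pJ
    exact Nat.mul_pos (by positivity) (by positivity)
  unfold pK0 at h
  omega

theorem Lv_ge {P : Pre} (hP : Spec P) {v : ℕ} (hv : v < nV (gG P)) (hr : ¬ isRoot P v) :
    8 ≤ Lv P v := by
  have h := wd_tree hP hv hr
  have hn := hP.pos
  unfold Lv
  have : 1 ≤ nn P ^ 2 := Nat.one_le_pow _ _ hn
  nlinarith

theorem lc_chi (hWf : WfStmt) {P : Pre} (hP : Spec P) (s : ℕ) {v : ℕ} (hv : v < nV (gG P)) :
    LC (chi P s v) := by
  unfold chi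
  by_cases hr : isRoot P v
  · simp only [hr, if_true]
    apply lc_zpow (ρ := 1 + 1 / (pJ' (nn P) : ℝ)) (by
      have : (0 : ℝ) ≤ 1 / (pJ' (nn P) : ℝ) := by positivity
      linarith) (fun e => -(((s - pJ (nn P) : ℕ) : ℤ) * |e|))
    intro z
    have h0 : (0 : ℤ) ≤ ((s - pJ (nn P) : ℕ) : ℤ) := by positivity
    have h1 : 2 * |z| ≤ |z - 1| + |z + 1| := by
      have := abs_add_le (z - 1) (z + 1)
      have e : z - 1 + (z + 1) = 2 * z := by ring
      rw [e, abs_mul] at this
      simpa using this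
    nlinarith
  · simp only [hr, if_false]
    have hw := wd_tree hP hv hr
    have hl := (hWf (Lv P v) (lo P (ta P v)) (lo P (ta P v) + wd P (ta P v)) (Lv_ge hP hv hr)
      (by omega)).1
    rcases sg_tree hP hv hr with h | h
    · have := lc_pow (lc_neg hl) (min s (pJ (nn P)))
      simpa [h] using this
    · have := lc_pow hl (min s (pJ (nn P)))
      simpa [h] using this

theorem lc_chiT (hWf : WfStmt) {P : Pre} (hP : Spec P) (s : ℕ) (p : List ℤ) {v : ℕ}
    (hv : v < nV (gG P)) : LC (chiT P s p v) := by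
  unfold chiT
  apply lc_mul (lc_chi hWf hP s hv)
  by_cases hr : isRoot P v
  · simp only [hr, if_true]
    apply lc_zpow (ρ := 1 + 1 / (pM (nn P) : ℝ)) (by
      have : (0 : ℝ) ≤ 1 / (pM (nn P) : ℝ) := by positivity
      linarith) (fun e => p.getD v 0 * e)
    intro z
    nlinarith
  · simp only [hr, if_false]
    exact lc_one

theorem lam {P : Pre} (hP : Spec P) : Lam (range (nV (gG P))) (Sc P) := by
  intro v hv v' hv'
  have hend : ∀ c : Fin (nA (gG P)) × Bool,
      (if c.2 = true then hd (gG P) c.1 else tl (gG P) c.1) < nV (gG P) := by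
    intro c
    have := hP.wf c.1 c.1.2
    split_ifs
    · exact this.2
    · exact this.1
  rcases hP.tree.lam v (mem_range.1 hv) v' (mem_range.1 hv') with h | h | h
  · left
    intro c hc
    simp only [Sc, mem_filter, mem_univ, true_and] at hc ⊢
    exact h _ (hend c) hc
  · right; left
    intro c hc
    simp only [Sc, mem_filter, mem_univ, true_and] at hc ⊢
    exact h _ (hend c) hc
  · right; right
    rw [Finset.disjoint_left]
    intro c hc hc'
    simp only [Sc, mem_filter, mem_univ, true_and] at hc hc'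
    exact h _ (hend c) ⟨hc, hc'⟩

theorem sum_eq {P : Pre} {x : Fin (nA (gG P)) → ℕ} (hx : x ∈ bx P) (v : ℕ) :
    (∑ c ∈ Sc P v, (node (fun k : Fin (nA (gG P)) => uB P k) x c : ℤ)) - off P v =
      Ev P (toL x) v := by
  unfold Sc off Ev
  rw [Finset.sum_filter, Fintype.sum_prod_type]
  rw [← Fin.sum_univ_eq_sum_range (fun k => if inS P v (hd (gG P) k) = true then (uB P k : ℤ) else 0),
    ← Fin.sum_univ_eq_sum_range (fun k => sg P v k * bz (x0 P [] k)),
    ← Fin.sum_univ_eq_sum_range (fun k => sg P v k * bz (x0 P (toL x) k))]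
  have key : ∀ k : Fin (nA (gG P)),
      (∑ b : Bool, if inS P v (if (k, b).2 = true then hd (gG P) (k, b).1 else tl (gG P) (k, b).1) = true
        then (node (fun k : Fin (nA (gG P)) => uB P k) x (k, b) : ℤ) else 0) =
      (if inS P v (hd (gG P) k) = true then (uB P k : ℤ) else 0) - sg P v k * bz (x0 P [] k) +
        sg P v k * bz (x0 P (toL x) k) := by
    intro k
    have hk := mem_bx hx k
    have h0 : bz (x0 P (toL x) k) = bz (x0 P [] k) + x k := by
      unfold x0 bz
      by_cases ht : isTree P k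
      · have : x k = 0 := by
          have : uB P k = 0 := by unfold uB; simp [ht]
          omega
        simp [ht, this]
      · simp [ht, gv_toL, gv_nil]
    rw [h0, Fintype.sum_bool]
    simp only [node, sg, if_true, Bool.false_eq_true, if_false]
    rw [Nat.cast_sub hk]
    split_ifs <;> ring
  rw [Finset.sum_congr rfl (fun k _ => key k), Finset.sum_add_distrib, Finset.sum_sub_distrib]
  ring

end REP

theorem REP_proof (hWf : WfStmt) (hBij : BijStmt) : RepStmt := by
  intro P hP
  refine ⟨REP.lam hP, fun s p hV => ⟨fun v hv => ⟨REP.lc_chi hWf hP s hv, REP.lc_chiT hWf hP s p hv⟩,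
    fun x hx => ⟨REP.sum_eq hx, ?_⟩⟩⟩
  unfold πq wq
  rw [Rat.cast_prod]
  refine Finset.prod_congr rfl (fun v hv => ?_)
  have hv' := mem_range.1 hv
  have hb := (hBij P hP).1 x hx v hv'
  unfold chiT chi
  by_cases hr : isRoot P v
  · simp only [hr, if_true]
    rw [REP.zcl_eq (hb.1 hr), REP.zcl_eq (hV.2 v)]
    push_cast
    rfl
  · simp only [hr, if_false, mul_one]
    have hw := REP.wd_tree hP hv' hr
    have hl := (hWf (Lv P v) (lo P (ta P v)) (lo P (ta P v) + wd P (ta P v)) (REP.Lv_ge hP hv' hr)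
      (by omega)).2.2.2.2
    have hds : dst (lo P (ta P v)) (lo P (ta P v) + wd P (ta P v)) (-sg P v (ta P v) * Ev P (toL x) v) =
        ds P (toL x) v := by
      unfold ds Tv bz
      push_cast
      rfl
    have h0 : 0 ≤ ds P (toL x) v := by unfold ds dst; exact le_max_left _ _
    have h1 := hb.2 hr
    have hn := hP.pos
    have h2 : 2 * (ds P (toL x) v).toNat ≤ Lv P v := by
      unfold Lv
      have h3 : (ds P (toL x) v).toNat ≤ nn P * wd P (ta P v) := by
        have : ((ds P (toL x) v).toNat : ℤ) = ds P (toL x) v := Int.toNat_of_nonneg h0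
        zify
        rw [this]; exact h1
      have h4 : nn P ≤ nn P ^ 2 := by nlinarith
      nlinarith [Nat.mul_le_mul_right (wd P (ta P v)) h4]
    rw [hds, hl _ h2]
    have h5 : (((ds P (toL x) v).toNat : ℕ) : ℝ) = ((ds P (toL x) v : ℤ) : ℝ) := by
      rw [← Int.cast_natCast, Int.toNat_of_nonneg h0]
    rw [h5]
    push_cast
    rfl

end Crest.Agent.R309
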