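import Crest.Agent.R309.DefsB
import Crest.Agent.R300U.GPT
import Crest.Agent.R309X.Defs

/-!
Row 309, part C: integer flows in networks, preprocessing (ranges, maximum-width forest), the soft
model, the chain, annealing and descent, the counter and the sampler.
-/

set_option autoImplicit false

namespace Crest.Agent.R309

open Finset Crest.Agent.PT Crest.Agent.QC Crest.Agent.R317 Crest.Agent.R300U

/-! ### Networks -/

/-- number of nodes, arcs `(tail, head, capacity)`, demands (net outflow of each node) -/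
abbrev Net : Type := ℕ × List (ℕ × ℕ × Bin) × List ℤ

/-- entry of a list of binary numbers -/
def gv (l : List Bin) (k : ℕ) : ℕ := (l.getD k ⟨0⟩).val

/-- a function as a list -/
def toL {N : ℕ} (x : Fin N → ℕ) : List Bin := List.ofFn (fun k => (⟨x k⟩ : Bin))

def nV (G : Net) : ℕ := G.1
def nA (G : Net) : ℕ := G.2.1.length
def tl (G : Net) (k : ℕ) : ℕ := (G.2.1.getD k (0, 0, ⟨0⟩)).1
def hd (G : Net) (k : ℕ) : ℕ := (G.2.1.getD k (0, 0, ⟨0⟩)).2.1
def cap (G : Net) (k : ℕ) : ℕ := (G.2.1.getD k (0, 0, ⟨0⟩)).2.2.val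
def dem (G : Net) (v : ℕ) : ℤ := G.2.2.getD v 0

/-- arcs join nodes -/
def WF (G : Net) : Prop := ∀ k < nA G, tl G k < nV G ∧ hd G k < nV G

/-- net outflow -/
def netv (G : Net) (l : List Bin) (v : ℕ) : ℤ :=
  ∑ k ∈ range (nA G), ((if tl G k = v then bz (gv l k) else 0) - (if hd G k = v then bz (gv l k) else 0))

/-- feasible flows, as lists -/
def FeasL (G : Net) (l : List Bin) : Prop :=
  All (nA G) (fun k => gv l k ≤ cap G k) ∧ All (nV G) (fun v => netv G l v = dem G v)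

open Classical in
/-- the feasible flows -/
noncomputable def flows (G : Net) : Finset (Fin (nA G) → ℕ) :=
  (box (fun k : Fin (nA G) => cap G k)).filter (fun x => FeasL G (toL x))

/-- **FEAS**. Bit scaling. Level `j` uses capacities `cap / 2^j` and demands `⌊dem / 2^j⌋` (`ℤ`
division); at the top level `j = sz G` start from the zero flow (capacities `0`). Going down one
level: double the flow, then repeat `nA + nV` (at the top level: `0`) times `aug`. Let
`ex v = netv l v - dem v`, deficit `Df = ∑ (-ex v)⁺`. `aug`: closure in `nV` rounds; every reached node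
`v` carries a flow `Y_v` within capacities that differs from `l` only on arcs with both ends
reached, with `netv Y_v = netv l + e_s - e_v` for a source `s` (`ex s < 0`; sources carry `l`); an
unreached `v'` is reached from a reached `v` through an arc `k` with tail `v`, head `v'`,
`l k < cap k` (`Y = Y_v + e_k`) or head `v`, tail `v'`, `l k > 0` (`Y = Y_v - e_k`). If a reached `v`
has `ex v > 0`, replace `l` by `Y_v` (`Df` drops by one). Otherwise the reached set `S` is a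
certificate: `Df l = dem(S) - cap(δ⁺S)`, and every flow within capacities has
`Df ≥ dem(S) - cap(δ⁺ S)`. Hence after doubling at most `nA + nV` augmentations are possible
(`dem_j ≥ 2 dem_{j+1}`, `cap_j ≤ 2 cap_{j+1} + 1`, `dem_j ≤ 2 dem_{j+1} + 1`), so at the end of
each level `l` minimises `Df`. At level `0`, if a feasible flow exists then `Df = 0` and
`∑ ex = 0`, so `l` is feasible. Any other polynomial-time algorithm is welcome. -/
def FeasStmt : Prop :=
  ∃ fe : Net → List Bin, PT fe ∧ ∀ G, WF G → (flows G).Nonempty → ∃ X ∈ flows G, fe G = toL X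

/-- `lo k`, `lo k + wd k` are the extreme values of arc `k` over the feasible flows. -/
def RangeSpec (G : Net) (lo wd : ℕ → ℕ) : Prop :=
  (∀ X ∈ flows G, ∀ k : Fin (nA G), lo k ≤ X k ∧ X k ≤ lo k + wd k) ∧
  ∀ k : Fin (nA G), (∃ X ∈ flows G, X k = lo k) ∧ ∃ X ∈ flows G, X k = lo k + wd k

/-- **RNG** (uses FEAS). `FeasL G (fe G)` decides feasibility. `lo k` is the least `t` such that the
network with `cap k := min t (cap k)` is feasible; `hi k` is the largest `t ≤ cap k` such that the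
network with `cap k - t`, `dem (tl k) - t`, `dem (hd k) + t` is feasible; binary search
(`BT.search`). -/
def RngStmt : Prop :=
  ∃ rg : Net → List Bin × List Bin, PT rg ∧
    ∀ G, WF G → (flows G).Nonempty → RangeSpec G (gv (rg G).1) (gv (rg G).2)

/-- A rooted spanning forest of the arcs of width `≥ K`, of maximum width. `S v u`: `u` is a
descendant of `v` (or `v`); `ta v`: the arc from `v` to its parent (`≥ nA` for a root). -/
structure TreeSpec (G : Net) (w : ℕ → ℕ) (K : ℕ) (S : ℕ → ℕ → Bool) (ta : ℕ → ℕ) : Prop where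
  lam : ∀ v < nV G, ∀ v' < nV G, (∀ u < nV G, S v u = true → S v' u = true) ∨
    (∀ u < nV G, S v' u = true → S v u = true) ∨ ∀ u < nV G, ¬ (S v u = true ∧ S v' u = true)
  own : ∀ v < nV G, ta v < nA G → K ≤ w (ta v) ∧ S v (tl G (ta v)) ≠ S v (hd G (ta v))
  uniq : ∀ v < nV G, ∀ v' < nV G, ta v' < nA G → S v (tl G (ta v')) ≠ S v (hd G (ta v')) → v = v'
  wide : ∀ v < nV G, ∀ k < nA G, S v (tl G k) ≠ S v (hd G k) →
    (ta v < nA G → w k ≤ w (ta v)) ∧ (nA G ≤ ta v → w k < K)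
  det : ∀ D : ℕ → ℤ, (∀ v < nV G, ∑ u ∈ range (nV G), (if S v u = true then D u else 0) = 0) →
    ∀ u < nV G, D u = 0
  roots : ∀ v < nV G, ∀ v' < nV G, nA G ≤ ta v → nA G ≤ ta v' → v ≠ v' →
    ∀ u < nV G, ¬ (S v u = true ∧ S v' u = true)

/-- entry of a Boolean matrix -/
def gb (S : List (List Bool)) (v u : ℕ) : Bool := (S.getD v []).getD u false

/-- **PRIM**. `nV` rounds. If some arc of width `≥ K` has exactly one visited end (`v` visited iff
`S v v`), take one of maximal width `k*`, with visited end `p` and new end `b`: `ta b = k*`,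
`S b = {b}`, add `b` to every `S v` containing `p`. Otherwise the first unvisited node `b` becomes a
root. Invariants, with `thr v = w (ta v)` (root: `K - 1`; treat `K = 0` via `<`): (I1) an arc between
visited nodes crossing `S v` has width `≤ thr v`; (I2) if `k` joins `S v` to an unvisited node and
`k'` joins a visited node outside `S v` to an unvisited node then `min (w k) (w k') ≤ thr v`;
members of `S v` other than `v` were visited after `v`; for a non-root `v'` with parent `p'`: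
`S v v' ↔ v = v' ∨ S v p'`, `¬ S v' p'`. -/
def PrimStmt : Prop :=
  ∃ pr : Net × List Bin × ℕ → List (List Bool) × List ℕ, PT pr ∧
    ∀ G w K, WF G → 1 ≤ K →
      TreeSpec G (gv w) K (gb (pr (G, w, K)).1) (fun v => (pr (G, w, K)).2.getD v 0)

/-! ### Parameters (polynomials in the size parameter `n` and the accuracy `a`) -/

def pJ (n : ℕ) : ℕ := 2 ^ 30 * n ^ 8
def pK2 (n : ℕ) : ℕ := 2 * pJ n
def pK0 (n : ℕ) : ℕ := 4 * pJ n
def pD (n : ℕ) : ℕ := n * pK0 n
def pM (n : ℕ) : ℕ := 2 * pD n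
def pJ' (n : ℕ) : ℕ := 4 * n * pD n
def pJ2 (n : ℕ) : ℕ := (48 * n).size * pJ' n
def pS (n : ℕ) : ℕ := pJ n + pJ2 n
def pTt (n : ℕ) : ℕ := pS n + (128 * n ^ 2 * pM n + 2) * (2 * n + 1) + 1
def pΛ (n : ℕ) : ℕ := 2 * (96 * n) ^ 2
def pCP (n : ℕ) : ℕ := n * (2 * pΛ n ^ 2 + 4 * pK0 n ^ 2 * n * pΛ n ^ 4)
def pC (n : ℕ) : ℕ := 16 * (n + 1) * 4000 * (pCP n * (8 * pK2 n) ^ 2 + n)
def pB1 (n : ℕ) : ℕ := n + pS n + 2 * n * pTt n
def pT (n A : ℕ) : ℕ := pC n * (pB1 n + 2 * A)
def pH (n : ℕ) : ℕ :=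
  n * (pJ2 n * pD n * (pJ' n + 1) + pTt n * pD n * (pM n + 1) + pJ n * 2 * (n + 2 * n ^ 2 + 1)) + 1
def pXi (n a : ℕ) : ℕ := 512 * n * pM n * a * pTt n
def pN (n a : ℕ) : ℕ := 4 * pXi n a ^ 2 * (a + pTt n + 2)

/-! ### Preprocessed networks and the soft model -/

/-- network, `lo`, `wd`, descendant matrix, tree arcs, size parameter -/
abbrev Pre : Type := Net × List Bin × List Bin × List (List Bool) × List ℕ × ℕ

def gG (P : Pre) : Net := P.1
def lo (P : Pre) (k : ℕ) : ℕ := gv P.2.1 k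
def wd (P : Pre) (k : ℕ) : ℕ := gv P.2.2.1 k
def inS (P : Pre) (v u : ℕ) : Bool := gb P.2.2.2.1 v u
def ta (P : Pre) (v : ℕ) : ℕ := P.2.2.2.2.1.getD v 0
def nn (P : Pre) : ℕ := P.2.2.2.2.2

/-- the specification of the preprocessing -/
structure Spec (P : Pre) : Prop where
  wf : WF (gG P)
  pos : 1 ≤ nn P
  hV : nV (gG P) ≤ nn P
  hA : nA (gG P) ≤ nn P
  hsz : ∑ k ∈ range (nA (gG P)), (wd P k).size ≤ nn P
  ne : (flows (gG P)).Nonempty
  rng : RangeSpec (gG P) (lo P) (wd P)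
  tree : TreeSpec (gG P) (wd P) (pK0 (nn P)) (inS P) (ta P)

/-- **PRE** (uses RNG, PRIM). `wd k ≤ cap k`. -/
def PreStmt : Prop :=
  ∃ pre : Net → Pre, PT pre ∧ ∀ G, gG (pre G) = G ∧ nn (pre G) = sz G + 1 ∧
    (WF G → (flows G).Nonempty → Spec (pre G))

def isRoot (P : Pre) (v : ℕ) : Prop := nA (gG P) ≤ ta P v
def isTree (P : Pre) (k : ℕ) : Prop := Ex (nV (gG P)) (fun v => ta P v = k)

instance (P : Pre) (v : ℕ) : Decidable (isRoot P v) := by unfold isRoot; infer_instance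
instance (P : Pre) (k : ℕ) : Decidable (isTree P k) := by unfold isTree; infer_instance

/-- range of the free coordinate of arc `k` -/
def uB (P : Pre) (k : ℕ) : ℕ := if isTree P k then 0 else wd P k

/-- the state space -/
def bx (P : Pre) : Finset (Fin (nA (gG P)) → ℕ) := box (fun k : Fin (nA (gG P)) => uB P k)

/-- how arc `k` crosses the set of `v` -/
def sg (P : Pre) (v k : ℕ) : ℤ :=
  (if inS P v (tl (gG P) k) = true then 1 else 0) - (if inS P v (hd (gG P) k) = true then 1 else 0)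

/-- flow on the non-tree arcs -/
def x0 (P : Pre) (l : List Bin) (k : ℕ) : ℕ := if isTree P k then 0 else lo P k + gv l k

/-- imbalance of the set of `v` -/
def Ev (P : Pre) (l : List Bin) (v : ℕ) : ℤ :=
  ∑ k ∈ range (nA (gG P)), sg P v k * bz (x0 P l k) -
    ∑ u ∈ range (nV (gG P)), (if inS P v u = true then dem (gG P) u else 0)

/-- forced flow on the tree arc of `v` -/
def Tv (P : Pre) (l : List Bin) (v : ℕ) : ℤ := -sg P v (ta P v) * Ev P l v

/-- violation on the tree arc of `v` -/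
def ds (P : Pre) (l : List Bin) (v : ℕ) : ℤ :=
  dst (bz (lo P (ta P v))) (bz (lo P (ta P v) + wd P (ta P v))) (Tv P l v)

/-- wall scale -/
def Lv (P : Pre) (v : ℕ) : ℕ := 2 * nn P ^ 2 * wd P (ta P v)

/-- clamp -/
def zcl (L : ℕ) (z : ℤ) : ℤ := max (-(L : ℤ)) (min (L : ℤ) z)

/-- the weight of a state at temperature `s` and tilt `p` -/
def wq (P : Pre) (s : ℕ) (p : List ℤ) (l : List Bin) : ℚ :=
  ∏ v ∈ range (nV (gG P)),
    if isRoot P v then
      (1 + 1 / (pJ' (nn P) : ℚ)) ^ (-(((s - pJ (nn P) : ℕ) : ℤ) * |zcl (pD (nn P)) (Ev P l v)|)) *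
        (1 + 1 / (pM (nn P) : ℚ)) ^ (zcl (pTt (nn P)) (p.getD v 0) * zcl (pD (nn P)) (Ev P l v))
    else (1 - (ds P l v : ℚ) ^ 2 / (Lv P v : ℚ) ^ 2) ^ (min s (pJ (nn P)))

/-- the weight on the state space -/
def πq (P : Pre) (s : ℕ) (p : List ℤ) (x : Fin (nA (gG P)) → ℕ) : ℝ := (wq P s p (toL x) : ℝ)

/-- partition function -/
def Zq (P : Pre) (s : ℕ) (p : List ℤ) : ℝ := ∑ x ∈ bx P, πq P s p x

/-- admissible parameters -/
def Valid (P : Pre) (s : ℕ) (p : List ℤ) : Prop :=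
  s ≤ pS (nn P) ∧ ∀ v, |p.getD v 0| ≤ pTt (nn P)

/-- states that come from feasible flows -/
def acc (P : Pre) (l : List Bin) : Prop :=
  All (nV (gG P)) (fun v => if isRoot P v then Ev P l v = 0 else ds P l v = 0)

/-- the completed flow -/
noncomputable def comp (P : Pre) (l : List Bin) : List Bin :=
  mkL (nA (gG P)) (fun k => if isTree P k then
    ⟨(Tv P l (fnd (nV (gG P)) (fun v => ta P v = k))).toNat⟩ else ⟨lo P k + gv l k⟩)

/-- change the tilt at `v` by `δ` -/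
def bump (n : ℕ) (p : List ℤ) (v : ℕ) (δ : ℤ) : List ℤ :=
  mkL n (fun j => p.getD j 0 + if j = v then δ else 0)

/-- **BIJ**. Summing conservation over the set of `v` gives `∑_k sg v k X k = dem(S v)`; only the
tree arc `ta v` crosses it among tree arcs (`uniq`, `own`), so `X (ta v) = Tv`; conversely `det`.
The bounds: compare with the state of a feasible flow; crossing arcs have width `< K0` (root) or
`≤ wd (ta v)`. -/
def BijStmt : Prop :=
  ∀ P : Pre, Spec P →
    (∀ x ∈ bx P, ∀ v < nV (gG P), (isRoot P v → |Ev P (toL x) v| ≤ pD (nn P)) ∧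
      (¬ isRoot P v → ds P (toL x) v ≤ nn P * wd P (ta P v))) ∧
    (∀ x ∈ bx P, acc P (toL x) → ∃ X ∈ flows (gG P), comp P (toL x) = toL X) ∧
    (∀ X ∈ flows (gG P), ∃ x ∈ bx P, acc P (toL x) ∧ comp P (toL x) = toL X ∧
      (∀ y ∈ bx P, comp P (toL y) = toL X → y = x) ∧
      ∀ v < nV (gG P), ∀ h : ta P v < nA (gG P), Tv P (toL x) v = X ⟨ta P v, h⟩) ∧
    (∀ s p, ∀ x ∈ bx P, acc P (toL x) → πq P s p x = 1) ∧
    (@Finset.filter _ (fun x => acc P (toL x)) (Classical.decPred _) (bx P)).card = (flows (gG P)).card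

/-- the factor of node `v` without tilt -/
noncomputable def chi (P : Pre) (s v : ℕ) (e : ℤ) : ℝ :=
  if isRoot P v then (1 + 1 / (pJ' (nn P) : ℝ)) ^ (-(((s - pJ (nn P) : ℕ) : ℤ) * |e|))
  else wall (Lv P v) (dst (lo P (ta P v)) (lo P (ta P v) + wd P (ta P v))
    (-sg P v (ta P v) * e)).toNat ^ (min s (pJ (nn P)))

/-- the factor of node `v` with tilt -/
noncomputable def chiT (P : Pre) (s : ℕ) (p : List ℤ) (v : ℕ) (e : ℤ) : ℝ :=
  chi P s v e * if isRoot P v then (1 + 1 / (pM (nn P) : ℝ)) ^ (p.getD v 0 * e) else 1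

/-- the copies located in the set of `v` -/
def Sc (P : Pre) (v : ℕ) : Finset (Fin (nA (gG P)) × Bool) :=
  univ.filter (fun c => inS P v (if c.2 = true then hd (gG P) c.1 else tl (gG P) c.1) = true)

/-- offset between the copies located in the set of `v` and the imbalance -/
def off (P : Pre) (v : ℕ) : ℤ :=
  ∑ k ∈ range (nA (gG P)), (if inS P v (hd (gG P) k) = true then (uB P k : ℤ) else 0) - Ev P [] v

/-- **REP** (uses WF, BIJ). The weight is a laminar product. -/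
def RepStmt : Prop :=
  ∀ P : Pre, Spec P → Lam (range (nV (gG P))) (Sc P) ∧ ∀ s p, Valid P s p →
    (∀ v < nV (gG P), LC (chi P s v) ∧ LC (chiT P s p v)) ∧
    ∀ x ∈ bx P,
      (∀ v, (∑ c ∈ Sc P v, (node (fun k : Fin (nA (gG P)) => uB P k) x c : ℤ)) - off P v =
        Ev P (toL x) v) ∧
      πq P s p x = ∏ v ∈ range (nV (gG P)), chiT P s p v (Ev P (toL x) v)

/-- **LF** (uses LAM, BUP, WF, REP). `F α = c * lamF (range nV) Sc (chi P s) off α * ∏ t a ^ α a`.
The tilt is `∏_{roots} ρ^(p_v E_v) = const * ∏_k ρ^(q_k x_k)`, `q_k = ∑_{roots v} p_v sg v k`; put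
`t (k,false) = ρ^(min q_k 0)`, `t (k,true) = ρ^(min (-q_k) 0)`, so `t ≤ 1` and one of them is `1`.
`Λ = pΛ n`: a unit at one copy changes each wall factor by at most `(1+2/L)^J` (`L ≥ 2n²K0`, total
`≤ 2`) and at most one root factor (`roots`) by at most `(1+1/J')^(c J') ≤ 3^c ≤ (96 n)²`.
`Γ = K0²`: for arcs with `uB k < K0` take `κ = 1`; otherwise `k` crosses no root set, the sets not
crossed by `k` do not contribute, and each crossed set has `L ≥ 2n² wd k`, so
`κ = min 1 (n J · 5/(2n² wd k)²)` works (Bernoulli). -/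
def LfStmt : Prop :=
  ∀ P : Pre, Spec P → ∀ s p, Valid P s p → ∀ g, Var (bx P) (πq P s p) g ≤
    pCP (nn P) * ∑ k : Fin (nA (gG P)), ((uB P k : ℝ) + 1) ^ 2 *
      Ed (fun k : Fin (nA (gG P)) => uB P k) (πq P s p) g k 1

/-- exponent of the step size of arc `k` -/
def he (P : Pre) (k : ℕ) : ℕ :=
  if uB P k < pK0 (nn P) then 0 else (uB P k / pK2 (nn P)).size - 1

/-- **LL** (uses WF, REP). The hypotheses of SMO. A jump `d ≤ 2^he ≤ wd k / K2` of a large arc changes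
`Ev v` by `d` for the sets it crosses (non-roots, `L ≥ 2n² wd k`), so the weight changes by at most
`(1+2/L)^(J d n) ≤ exp(1/(2n)) ≤ 1 + 1/n`. -/
def LlStmt : Prop :=
  ∀ P : Pre, Spec P → ∀ s p, Valid P s p → ∀ k : Fin (nA (gG P)),
    he P k ≤ nn P ∧ (uB P k : ℝ) + 1 ≤ 8 * pK2 (nn P) * (2 ^ he P k : ℕ) ∧
    (3 ≤ 2 ^ he P k → 2 ^ he P k ≤ uB P k ∧ ∀ x ∈ bx P, ∀ d ≤ 2 ^ he P k, x k + d ≤ uB P k →
      πq P s p (x + Pi.single k d) ≤ (1 + 1 / nn P) * πq P s p x ∧
      πq P s p x ≤ (1 + 1 / nn P) * πq P s p (x + Pi.single k d))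

/-- **RAT** (uses BIJ). Ratios and crude bounds: `∏ (1 - ds²/L²) ≥ 3/4`,
`(1+1/J')^(-∑|E|) ≥ 3/4`, `(1+1/M)^D ≤ 2`, `∏ (uB k + 1) ≤ 2^(∑ size)`. -/
def RatStmt : Prop :=
  ∀ P : Pre, Spec P → ((bx P).card = ∏ k ∈ range (nA (gG P)), (uB P k + 1)) ∧
    (bx P).card ≤ 2 ^ nn P ∧ ∀ x ∈ bx P, πq P 0 [] x = 1 ∧ ∀ s p, Valid P s p →
    (1 ≤ 2 ^ (pS (nn P) + nn P * pTt (nn P)) * πq P s p x ∧ πq P s p x ≤ 2 ^ (nn P * pTt (nn P))) ∧
    (s < pS (nn P) → πq P s p x ≤ 2 * πq P (s + 1) p x ∧ πq P (s + 1) p x ≤ πq P s p x) ∧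
    (∀ v (δ : ℤ), |δ| ≤ 1 → |p.getD v 0 + δ| ≤ pTt (nn P) →
      πq P s p x ≤ 2 * πq P s (bump (nn P) p v δ) x ∧ πq P s (bump (nn P) p v δ) x ≤ 2 * πq P s p x)

/-- **HT** (uses BIJ). Heights of the weights (write the weight as a quotient of two naturals below
`2^pH`; `size x ≤ x`, `wd < 2^n`). -/
def HtStmt : Prop :=
  ∀ P : Pre, Spec P → ∀ s p, Valid P s p → ∀ x ∈ bx P,
    0 < wq P s p (toL x) ∧ (wq P s p (toL x)).num.toNat < 2 ^ pH (nn P) ∧
      (wq P s p (toL x)).den < 2 ^ pH (nn P)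

/-- **ACC** (uses MAR, DES, WAL, WF, BIJ, REP). A rejected state has a root with `E ≥ 1` or `E ≤ -1`
or a non-root with `Tv > hi` or `Tv < lo`; each of these `≤ 2n` events has weight `≤ Z/(8n)·`(at most
`≤ Z/(4n)` per node, so the rejected weight is `≤ Z/2`; accepted states have weight `1`).
Root `v`: `g d` = marginal of MAR for `chiT` times the tilt `ρ^(p_v d)` (still `GLC`), `g 0 ≥ 1`,
`l = (1+1/J')^(-J2) ≤ 2^(-size(48n)) ≤ η/6` with `η = 1/(8n)`; `Zq (bump p v (-1)) = ∑ g d l^|d| ρ^(-d)`,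
so DES (and DES for `d ↦ g (-d)`) contradicts the hypothesis. Non-root: `g t` = marginal in the
variable `t = Tv` (reflection keeps `GLC`), `g lo ≥ 1`, `g hi ≥ 1` (RangeSpec, BIJ), `g t ≤ Z ≤ 2^n` on
`[lo,hi]`; WAL, and WAL for `t ↦ g (-t)`. -/
def AccStmt : Prop :=
  ∀ P : Pre, Spec P → ∀ p : List ℤ, (∀ v, |p.getD v 0| < pTt (nn P)) →
    Zq P (pS (nn P)) p ≤ 2 ^ nn P →
    (∀ v < nn P, ∀ δ : ℤ, δ = 1 ∨ δ = -1 →
      (1 - 1 / (32 * nn P * pM (nn P) : ℝ)) * Zq P (pS (nn P)) p <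
        Zq P (pS (nn P)) (bump (nn P) p v δ)) →
    Zq P (pS (nn P)) p ≤ 2 * (flows (gG P)).card

/-! ### The chain -/

def aB (P : Pre) : ℕ := (nA (gG P)).size
def b0 (P : Pre) : ℕ := aB P + 2 + nn P
def b1 (P : Pre) : ℕ := b0 P + 2 * pH (nn P)

/-- overwrite one entry -/
def setL (N : ℕ) (l : List Bin) (k v : ℕ) : List Bin :=
  mkL N (fun j => if j = k then ⟨v⟩ else ⟨gv l j⟩)

/-- the move in direction `k`, with sign bit `σ` and length `d` -/
def mv (P : Pre) (l : List Bin) (k σ d : ℕ) : List Bin :=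
  if σ = 1 then (if gv l k + d ≤ uB P k then setL (nA (gG P)) l k (gv l k + d) else l)
  else (if d ≤ gv l k then setL (nA (gG P)) l k (gv l k - d) else l)

/-- proposal from `b0` random bits -/
def prop (P : Pre) (l : List Bin) (u : ℕ) : List Bin :=
  if fld u 0 (aB P) < nA (gG P) ∧ fld u (aB P) 1 = 1 then
    mv P l (un (nA (gG P)) (fld u 0 (aB P))) (fld u (aB P + 1) 1)
      (fld u (aB P + 2) (un (nn P) (he P (un (nA (gG P)) (fld u 0 (aB P))))) + 1)
  else l

/-- cross product `w'.num * w.den` -/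
def crs (w w' : ℚ) : ℕ := w'.num.toNat * w.den

/-- exactly reversible dyadic acceptance probability -/
noncomputable def acq (w w' : ℚ) : ℝ := (crs w w' : ℝ) / 2 ^ (max (crs w w') (crs w' w)).size

/-- acceptance threshold for a `B`-bit number -/
def accN (B : ℕ) (w w' : ℚ) : ℕ := crs w w' * 2 ^ (B - (max (crs w w') (crs w' w)).size)

/-- one step of the chain, from `b1` random bits -/
def mstep (P : Pre) (s : ℕ) (p : List ℤ) (l : List Bin) (u : ℕ) : List Bin :=
  if fld u (b0 P) (2 * pH (nn P)) <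
      accN (2 * pH (nn P)) (wq P s p l) (wq P s p (prop P l (fld u 0 (b0 P)))) then
    prop P l (fld u 0 (b0 P)) else l

/-- the initial state -/
def zer (P : Pre) : List Bin := List.replicate (nA (gG P)) ⟨0⟩

/-- run the chain -/
def samp (P : Pre) (s : ℕ) (p : List ℤ) (T u : ℕ) : List Bin :=
  iterN (b1 P) (mstep P s p) (zer P) u T

/-- **KT** (uses AV, HT, LL for `he ≤ n`). The random step realises the ideal kernel. -/
def KtStmt : Prop :=
  (∀ w w' : ℚ, 0 < w → 0 < w' → 0 ≤ acq w w' ∧ acq w w' ≤ 1 ∧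
    (w : ℝ) * acq w w' = w' * acq w' w ∧ min (w : ℝ) w' ≤ 2 * (w * acq w w')) ∧
  ∀ P : Pre, Spec P → ∀ s p, Valid P s p → ∀ x ∈ bx P,
    (∀ u, ∃ y ∈ bx P, mstep P s p (toL x) u = toL y) ∧
    ∀ φ : List Bin → ℝ, Kt (b1 P) (mstep P s p) φ (toL x) =
      Kop (bx P) (kerA (fun k : Fin (nA (gG P)) => uB P k) (fun k => 2 ^ he P k) (2 ^ aB P)
        (fun x y => acq (wq P s p (toL x)) (wq P s p (toL y)))) (fun y => φ (toL y)) x

/-- **SAMP** (uses LF, LL, SMO, KRA, MIX, KT, RAT, HT). Poincaré constant `pC n`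
(`2^aB ≤ 2n+1`), `Z/π 0 ≤ 2^pB1`, `(1-1/C)^C ≤ 1/2`. -/
def SampStmt : Prop :=
  ∀ P : Pre, Spec P → ∀ s p, Valid P s p →
    (∀ T u, ∃ y ∈ bx P, samp P s p T u = toL y) ∧
    ∀ (A : ℕ) (φ : List Bin → ℝ), (∀ l, |φ l| ≤ 1) →
      |(Kt (b1 P) (mstep P s p))^[pT (nn P) A] φ (zer P) -
        (∑ x ∈ bx P, πq P s p x * φ (toL x)) / Zq P s p| ≤ (2 : ℝ)⁻¹ ^ A

/-! ### Estimates, annealing, descent -/

/-- bits of one sample -/
def bS (P : Pre) (a : ℕ) : ℕ := pT (nn P) (pXi (nn P) a) * b1 P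
/-- bits of one coin -/
def bC (P : Pre) (a : ℕ) : ℕ := bS P a + pXi (nn P) a
/-- bits of one estimate -/
def bE (P : Pre) (a : ℕ) : ℕ := pN (nn P) a * bC P a
/-- bits of the whole preparation -/
def bP (P : Pre) (a : ℕ) : ℕ := pTt (nn P) * bE P a

/-- one sample at accuracy `a` -/
def smp (P : Pre) (a s : ℕ) (p : List ℤ) (u : ℕ) : List Bin := samp P s p (pT (nn P) (pXi (nn P) a)) u

/-- a coin of bias about `Z'/(2Z)` -/
def coin (P : Pre) (a s : ℕ) (p : List ℤ) (s' : ℕ) (p' : List ℤ) (u : ℕ) : Prop :=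
  fld u (bS P a) (pXi (nn P) a) <
    ⌊2 ^ pXi (nn P) a * wq P s' p' (smp P a s p u) / (2 * wq P s p (smp P a s p u))⌋₊

/-- estimate of `Z'/Z` -/
noncomputable def est (P : Pre) (a s : ℕ) (p : List ℤ) (s' : ℕ) (p' : List ℤ) (u : ℕ) : ℚ :=
  2 * (cnt (bC P a) (pN (nn P) a) (coin P a s p s' p') u : ℚ) / pN (nn P) a

/-- estimate of the accepted fraction -/
noncomputable def estA (P : Pre) (a s : ℕ) (p : List ℤ) (u : ℕ) : ℚ :=
  (cnt (bC P a) (pN (nn P) a) (fun v => acc P (smp P a s p v)) u : ℚ) / pN (nn P) a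

/-- **EST** (uses AV, ITR, HOE, SAMP, BIJ). The bias is within `2/Xi` of `Z'/(2Z)` (sampler error
`2^(-Xi)`, rounding `2^(-Xi)`), Hoeffding with `ξ = 1/Xi`, `2 exp(-(a+Tt+2)) ≤ 2^(-a-1)/(Tt+1)`. -/
def EstStmt : Prop :=
  ∀ P : Pre, Spec P → ∀ a, 1 ≤ a → ∀ s p, Valid P s p →
    (∀ s' p', (∀ x ∈ bx P, 0 ≤ πq P s' p' x ∧ πq P s' p' x ≤ 2 * πq P s p x) →
      Pb (bE P a) (fun u => 6 / (pXi (nn P) a : ℝ) < |(est P a s p s' p' u : ℝ) - Zq P s' p' / Zq P s p|) ≤
        (2 : ℝ)⁻¹ ^ (a + 1) / (pTt (nn P) + 1)) ∧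
    Pb (bE P a) (fun u => 3 / (pXi (nn P) a : ℝ) <
        |(estA P a s p u : ℝ) - (flows (gG P)).card / Zq P s p|) ≤ (2 : ℝ)⁻¹ ^ (a + 1)

/-- temperature, tilt, estimate of `Z`, number of candidate moves already rejected -/
abbrev St : Type := ℕ × List ℤ × ℚ × ℕ

/-- the candidate tilt number `q` -/
def cand (P : Pre) (p : List ℤ) (q : ℕ) : List ℤ :=
  bump (nn P) p (q / 2) (if q % 2 = 0 then 1 else -1)

/-- one step of annealing or descent -/
noncomputable def astep (P : Pre) (a : ℕ) (st : St) (u : ℕ) : St :=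
  if st.1 < pS (nn P) then
    (st.1 + 1, st.2.1, st.2.2.1 * est P a st.1 st.2.1 (st.1 + 1) st.2.1 u, st.2.2.2)
  else if st.2.2.2 < 2 * nn P then
    (if est P a st.1 st.2.1 st.1 (cand P st.2.1 st.2.2.2) u ≤ 1 - 1 / (64 * nn P * pM (nn P) : ℚ) then
      (st.1, cand P st.2.1 st.2.2.2,
        st.2.2.1 * est P a st.1 st.2.1 st.1 (cand P st.2.1 st.2.2.2) u, 0)
    else (st.1, st.2.1, st.2.2.1, st.2.2.2 + 1))
  else st

/-- annealing followed by descent -/
noncomputable def prep (P : Pre) (a u : ℕ) : St :=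
  iterN (bE P a) (astep P a) (0, [], ((∏ k ∈ range (nA (gG P)), (uB P k + 1) : ℕ) : ℚ), 0) u (pTt (nn P))

/-- **ANN** (uses ITR, EST, RAT, ACC, BIJ). Sure invariants after `i` steps: `s = min i pS`,
`|p_v| ≤ i - s`, `Ẑ ≥ 0`, length of `p ≤ n`. Good event after `i` steps, with `z = 1/(32 n M)`,
`r = 12/Xi`: `(1-r)^i Z ≤ Ẑ ≤ (1+r)^i Z`, and for some `m` (number of moves):
`Z(s,p) ≤ 2^n (1 - z/4)^m`, `|p_v| ≤ m`, all candidates `q' < q` have `Z(cand q') > (1-z) Z`, and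
`q = 2n ∨ i ≤ s + m (2n+1) + q`. As `Z ≥ 1` (a feasible flow), `m ≤ 128 n² M`; so at the end
`q = 2n` and ACC applies. -/
def AnnStmt : Prop :=
  ∀ P : Pre, Spec P → ∀ a, 1 ≤ a →
    (∀ u, (prep P a u).1 = pS (nn P) ∧ Valid P (pS (nn P)) (prep P a u).2.1 ∧
      (prep P a u).2.1.length ≤ nn P ∧ 0 ≤ (prep P a u).2.2.1) ∧
    ∀ c, bP P a ≤ c → Pb c (fun u => ¬ (Zq P (pS (nn P)) (prep P a u).2.1 ≤ 2 * (flows (gG P)).card ∧
      |((prep P a u).2.2.1 : ℝ) - Zq P (pS (nn P)) (prep P a u).2.1| ≤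
        Zq P (pS (nn P)) (prep P a u).2.1 / (8 * a))) ≤ (2 : ℝ)⁻¹ ^ (a + 1)

/-- the counter -/
noncomputable def cntq (P : Pre) (a u : ℕ) : ℚ :=
  (prep P a (fld u 0 (bP P a))).2.2.1 *
    estA P a (pS (nn P)) (prep P a (fld u 0 (bP P a))).2.1 (fld u (bP P a) (bE P a))

/-- **CNT** (uses AV, EST, ANN, BIJ). `N ≤ Z ≤ 2N`. -/
def CntStmt : Prop :=
  ∀ P : Pre, Spec P → ∀ a, 1 ≤ a → (∀ u, 0 ≤ cntq P a u) ∧
    1 - (2 : ℝ)⁻¹ ^ a ≤ Pb (bP P a + bE P a) (fun u =>
      (1 - 1 / (a : ℝ)) * (flows (gG P)).card ≤ cntq P a u ∧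
        (cntq P a u : ℝ) ≤ (1 + 1 / (a : ℝ)) * (flows (gG P)).card)

/-! ### The sampler -/

/-- found?, result, tilt, chain state -/
abbrev SS : Type := Bool × List Bin × List ℤ × List Bin

/-- period of the sampler -/
def pPd (P : Pre) (k : ℕ) : ℕ := pT (nn P) (k + 4) + 2

open Classical in
/-- one step of the sampler at time `t` -/
noncomputable def sstep (P : Pre) (k t : ℕ) (st : SS) (u : ℕ) : SS :=
  if t % pPd P k = 0 then (st.1, st.2.1, (prep P 1 u).2.1, zer P)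
  else if t % pPd P k + 1 < pPd P k then
    (st.1, st.2.1, st.2.2.1, mstep P (pS (nn P)) st.2.2.1 st.2.2.2 (fld u 0 (b1 P)))
  else if st.1 = false ∧ acc P st.2.2.2 then (true, comp P st.2.2.2, st.2.2.1, st.2.2.2) else st

/-- **PT1**. State and prove each fact also as a `@[fun_prop]` lemma in composed form
(`PT P → PT l → … → PT (fun a => f (P a) (l a) …)`), including all accessors and parameters. -/
def Pt1Stmt : Prop :=
  PT (fun q : Pre × ℕ × List ℤ × List Bin => wq q.1 q.2.1 q.2.2.1 q.2.2.2) ∧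
  DT (fun q : Pre × List Bin => acc q.1 q.2) ∧ PT (fun q : Pre × List Bin => comp q.1 q.2) ∧
  PT (fun q : Pre × ℕ × List ℤ × List Bin × Bin => mstep q.1 q.2.1 q.2.2.1 q.2.2.2.1 q.2.2.2.2.val) ∧
  DT (fun q : Net × List Bin => FeasL q.1 q.2)

/-- **PT2** (uses PT1). `samp`: every state has length `nA` and entries `≤ uB k`, for every input.
`prep`: the size of the state grows by a bounded amount per step. -/
def Pt2Stmt : Prop :=
  PT (fun q : Pre × ℕ × Bin => prep q.1 q.2.1 q.2.2.val) ∧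
  PT (fun q : Pre × ℕ × Bin => cntq q.1 q.2.1 q.2.2.val) ∧
  PT (fun q : Pre × ℕ × ℕ × SS × Bin => sstep q.1 q.2.1 q.2.2.1 q.2.2.2.1 q.2.2.2.2.val) ∧
  PT (fun q : Pre × ℕ => bP q.1 q.2) ∧ PT (fun q : Pre × ℕ => bE q.1 q.2) ∧
  PT (fun q : Pre × ℕ => pPd q.1 q.2) ∧ PT b1

/-- expectation after `t` steps of the sampler, with chunks of `c` bits -/
noncomputable def sE (P : Pre) (k c : ℕ) (s₀ : SS) : ℕ → (SS → ℝ) → ℝ
  | 0, F => F s₀
  | t + 1, F => sE P k c s₀ t (fun s => Av c (fun u => F (sstep P k t s u)))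

/-- states after `t` steps of the sampler -/
inductive sR (P : Pre) (k : ℕ) (s₀ : SS) : ℕ → SS → Prop
  | init : sR P k s₀ 0 s₀
  | step {t : ℕ} {s : SS} (u : ℕ) : sR P k s₀ t s → sR P k s₀ (t + 1) (sstep P k t s u)

/-- **STR1** (uses KT, ANN, BIJ). Sure invariants of the sampler. -/
def Str1Stmt : Prop :=
  ∀ P : Pre, Spec P → ∀ k, ∀ X₀ ∈ flows (gG P), ∀ t s, sR P k (false, toL X₀, [], zer P) t s →
    (∃ X ∈ flows (gG P), s.2.1 = toL X) ∧ s.2.2.1.length ≤ nn P ∧ Valid P (pS (nn P)) s.2.2.1 ∧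
      ∃ y ∈ bx P, s.2.2.2 = toL y

open Classical in
/-- **STR2** (uses AV, SAMP, ANN, BIJ, RAT). One period, started with `found = false`, ends with
`found = true` and result `toL X` with probability `m X = Av_u q_{θ(u)}(x_X)`, where
`|q_θ(x_X) - 1/Z_θ| ≤ τ`, `|q_θ(acc) - N/Z_θ| ≤ τ`, `τ = 2^(-k-4)` (SAMP with indicator functions), and
otherwise leaves `(found, result)` unchanged; once found, nothing changes. With `α = ∑ m X ≥ 3/8 - τ`
(ANN with `a = 1`; `N/Z_θ ≥ 0` always), `|m X/α - 1/N| ≤ 2τ/α ≤ 8τ`, and after `R` periods the result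
is `X` with probability `(m X/α)(1 - (1-α)^R) + (1-α)^R [X = X₀]`, `(3/4)^(3(k+1)) ≤ 2^(-k-1)`. -/
def Str2Stmt : Prop :=
  ∀ P : Pre, Spec P → ∀ k c, bP P 1 ≤ c → b1 P ≤ c → ∀ X₀ ∈ flows (gG P), ∀ X ∈ flows (gG P),
    |sE P k c (false, toL X₀, [], zer P) (3 * (k + 1) * pPd P k)
        (fun s => if s.2.1 = toL X then 1 else 0) - 1 / ((flows (gG P)).card : ℝ)| ≤ (2 : ℝ)⁻¹ ^ k

/-! ### Tables -/

/-- the network of a table problem: row sums, column sums, cell bounds row by row -/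
def tnet (r c b : List Bin) : Net :=
  (r.length + c.length,
    mkL (r.length * c.length) (fun k => (k / c.length, r.length + k % c.length, ⟨gv b k⟩)),
    mkL (r.length + c.length) (fun v => if v < r.length then bz (gv r v) else -bz (gv c (v - r.length))))

/-- **TAB**. -/
def TabStmt : Prop :=
  PT (fun q : List Bin × List Bin × List Bin => tnet q.1 q.2.1 q.2.2) ∧
  ∀ (m n : ℕ) (rs : Fin m → ℕ) (cs : Fin n → ℕ) (b : Fin m → Fin n → ℕ),
    WF (tnet (toL rs) (toL cs) (R309X.flat b)) ∧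
    (flows (tnet (toL rs) (toL cs) (R309X.flat b))).card = Crest.Tables.numBoundedTables rs cs b ∧
    (∀ x ∈ flows (tnet (toL rs) (toL cs) (R309X.flat b)), ∃ X : Fin m → Fin n → ℕ,
      Crest.Tables.IsTable rs cs X ∧ (∀ i j, X i j ≤ b i j) ∧ toL x = R309X.flat X) ∧
    ∀ X : Fin m → Fin n → ℕ, Crest.Tables.IsTable rs cs X → (∀ i j, X i j ≤ b i j) →
      ∃ x ∈ flows (tnet (toL rs) (toL cs) (R309X.flat b)), toL x = R309X.flat X

/-- **GS** (uses FEAS, PRE, PT2, STR1, STR2, TAB). The stream on `((r, c), k)`: `G = tnet r c b` with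
all bounds equal to the total, `P = pre G`, `init = (false, fe G, [], zer P)`, `step = sstep P k`,
`T = 3 (k+1) pPd P k`, `c = bP P 1 + b1 P`, `out s = s.2.1`. A table exists when the totals agree. -/
def GsStmt : Prop := ∃ (A : R309X.Stream R309X.In SS) (D : ℕ), R309X.GoodSampler A D

theorem anchorC : True := by
  have := @sE.eq_def; have := @sE.eq_1; have := @sE.eq_2
  have := @gv.eq_1; have := @toL.eq_1; have := @nV.eq_1; have := @nA.eq_1; have := @tl.eq_1
  have := @hd.eq_1; have := @cap.eq_1; have := @dem.eq_1; have := @WF.eq_1; have := @netv.eq_1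
  have := @FeasL.eq_1; have := @flows.eq_1; have := @RangeSpec.eq_1; have := @gb.eq_1
  have := @pJ.eq_1; have := @pK2.eq_1; have := @pK0.eq_1; have := @pD.eq_1; have := @pM.eq_1
  have := @pJ'.eq_1; have := @pJ2.eq_1; have := @pS.eq_1; have := @pTt.eq_1; have := @pΛ.eq_1
  have := @pCP.eq_1; have := @pC.eq_1; have := @pB1.eq_1; have := @pT.eq_1; have := @pH.eq_1
  have := @pXi.eq_1; have := @pN.eq_1; have := @gG.eq_1; have := @lo.eq_1; have := @wd.eq_1
  have := @inS.eq_1; have := @ta.eq_1; have := @nn.eq_1; have := @isRoot.eq_1; have := @isTree.eq_1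
  have := @uB.eq_1; have := @bx.eq_1; have := @sg.eq_1; have := @x0.eq_1; have := @Ev.eq_1
  have := @Tv.eq_1; have := @ds.eq_1; have := @Lv.eq_1; have := @zcl.eq_1; have := @wq.eq_1
  have := @πq.eq_1; have := @Zq.eq_1; have := @Valid.eq_1; have := @acc.eq_1; have := @comp.eq_1
  have := @bump.eq_1; have := @chi.eq_1; have := @chiT.eq_1; have := @Sc.eq_1; have := @off.eq_1
  have := @he.eq_1; have := @aB.eq_1; have := @b0.eq_1; have := @b1.eq_1; have := @setL.eq_1
  have := @mv.eq_1; have := @prop.eq_1; have := @crs.eq_1; have := @acq.eq_1; have := @accN.eq_1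
  have := @mstep.eq_1; have := @zer.eq_1; have := @samp.eq_1; have := @bS.eq_1; have := @bC.eq_1
  have := @bE.eq_1; have := @bP.eq_1; have := @smp.eq_1; have := @coin.eq_1; have := @est.eq_1
  have := @estA.eq_1; have := @cand.eq_1; have := @astep.eq_1; have := @prep.eq_1; have := @cntq.eq_1
  have := @pPd.eq_1; have := @sstep.eq_1; have := @tnet.eq_1
  have := @mkL.eq_1; have := @un.eq_1; have := @bz.eq_1; have := @All.eq_1; have := @Ex.eq_1
  have := @R309X.flat.eq_1; have := @R309X.margins.eq_1; have := @R309X.Stream.E.eq_def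
  have := @R309X.Stream.E.eq_1; have := @R309X.Stream.E.eq_2
  trivial

end Crest.Agent.R309
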