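import Crest.Agent.R309.AV

/-!
Row 309: Hoeffding-type concentration for independent trials.
-/

set_option autoImplicit false

namespace Crest.Agent.R309

open Finset Crest.Agent.QC

namespace HOE

theorem cnt_mod (b N : ℕ) (β : ℕ → Prop) (u s : ℕ) (h : N * b ≤ s) :
    cnt b N β (u % 2 ^ s) = cnt b N β u := by
  unfold cnt
  refine sum_congr rfl fun i hi => ?_
  have hi' : i + 1 ≤ N := mem_range.1 hi
  have : i * b + b ≤ s := by
    have := Nat.mul_le_mul_right b hi'
    rw [Nat.succ_mul] at this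
    omega
  rw [fld_mod this]

open Classical in
theorem cnt_succ (b N : ℕ) (β : ℕ → Prop) (u : ℕ) :
    (cnt b (N + 1) β u : ℝ) = cnt b N β u + if β (fld u (N * b) b) then 1 else 0 := by
  unfold cnt
  rw [sum_range_succ]
  push_cast
  rfl

open Classical in
theorem one_step (b : ℕ) (β : ℕ → Prop) (t : ℝ) (ht : |t| ≤ 1) :
    Av b (fun v => Real.exp (t * ((if β v then 1 else 0) - Pb b β))) ≤ Real.exp (t ^ 2) := by
  have hp0 := Pb_nonneg b β
  have hp1 := Pb_le_one b β
  have h1 : Av b (fun v => Real.exp (t * ((if β v then 1 else 0) - Pb b β))) ≤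
      Av b (fun v => (1 + t ^ 2) + t * ((if β v then 1 else 0) - Pb b β)) := by
    refine Av_mono fun v _ => ?_
    set y : ℝ := (if β v then 1 else 0) - Pb b β with hy
    have hy1 : |y| ≤ 1 := by
      rw [hy, abs_le]
      split_ifs <;> constructor <;> linarith
    have hty : |t * y| ≤ 1 := by
      rw [abs_mul]
      exact mul_le_one₀ ht (abs_nonneg _) hy1
    have h2 := (abs_le.1 (Real.abs_exp_sub_one_sub_id_le hty)).2
    have h3 : (t * y) ^ 2 ≤ t ^ 2 := by
      rw [mul_pow]
      have : y ^ 2 ≤ 1 := by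
        rw [← sq_abs]
        exact pow_le_one₀ (abs_nonneg _) hy1
      exact mul_le_of_le_one_right (sq_nonneg t) this
    linarith
  rw [Av_add, Av_const, Av_const_mul, Av_sub, Av_const] at h1
  have e : Av b (fun v => if β v then (1 : ℝ) else 0) = Pb b β := rfl
  rw [e, sub_self, mul_zero, add_zero] at h1
  have := Real.add_one_le_exp (t ^ 2)
  linarith

theorem moment (b : ℕ) (β : ℕ → Prop) (t : ℝ) (ht : |t| ≤ 1) :
    ∀ N c : ℕ, N * b ≤ c →
      Av c (fun u => Real.exp (t * ((cnt b N β u : ℝ) - N * Pb b β))) ≤ Real.exp (N * t ^ 2)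
  | 0, c, _ => by simp [cnt]
  | N + 1, c, h => by
    classical
    have h' : N * b + b ≤ c := by rwa [Nat.succ_mul] at h
    have ih := moment b β t ht N (N * b) le_rfl
    have e := Av_mod_fld h' (fun w v => Real.exp (t * ((cnt b N β w : ℝ) - N * Pb b β)) *
      Real.exp (t * ((if β v then 1 else 0) - Pb b β)))
    have e2 : Av c (fun u => Real.exp (t * ((cnt b (N + 1) β u : ℝ) - (N + 1 : ℕ) * Pb b β))) =
        Av c (fun u => Real.exp (t * ((cnt b N β (u % 2 ^ (N * b)) : ℝ) - N * Pb b β)) *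
          Real.exp (t * ((if β (fld u (N * b) b) then 1 else 0) - Pb b β))) := by
      refine Av_congr fun u _ => ?_
      rw [cnt_mod b N β u _ le_rfl, cnt_succ, ← Real.exp_add]
      congr 1
      push_cast
      ring
    rw [e2, e]
    have h3 : Av (N * b) (fun w => Av b (fun v =>
        Real.exp (t * ((cnt b N β w : ℝ) - N * Pb b β)) *
          Real.exp (t * ((if β v then 1 else 0) - Pb b β)))) ≤
        Av (N * b) (fun w => Real.exp (t * ((cnt b N β w : ℝ) - N * Pb b β)) *
          Real.exp (t ^ 2)) := by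
      refine Av_mono fun w _ => ?_
      rw [Av_const_mul]
      exact mul_le_mul_of_nonneg_left (one_step b β t ht) (Real.exp_pos _).le
    refine h3.trans ?_
    rw [Av_mul_const]
    refine (mul_le_mul_of_nonneg_right ih (Real.exp_pos _).le).trans ?_
    rw [← Real.exp_add]
    refine le_of_eq ?_
    congr 1
    push_cast
    ring

theorem tail (b N c : ℕ) (β : ℕ → Prop) (ξ σ : ℝ) (h : N * b ≤ c) (h0 : 0 < ξ) (h1 : ξ ≤ 1)
    (hσ : σ = 1 ∨ σ = -1) :
    Pb c (fun u => N * ξ < σ * ((cnt b N β u : ℝ) - N * Pb b β)) ≤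
      Real.exp (-(N * ξ ^ 2 / 4)) := by
  have hσ2 : σ ^ 2 = 1 := by rcases hσ with rfl | rfl <;> norm_num
  have ht : |σ * (ξ / 2)| ≤ 1 := by
    rcases hσ with rfl | rfl <;> rw [abs_le] <;> constructor <;> linarith
  have hm := moment b β (σ * (ξ / 2)) ht N c h
  have h2 : Pb c (fun u => N * ξ < σ * ((cnt b N β u : ℝ) - N * Pb b β)) ≤
      Av c (fun u => Real.exp (σ * (ξ / 2) * ((cnt b N β u : ℝ) - N * Pb b β)) *
        Real.exp (-(N * ξ ^ 2 / 2))) := by
    refine Pb_le_Av (fun u _ => by positivity) fun u _ hu => ?_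
    rw [← Real.exp_add]
    refine Real.one_le_exp ?_
    have := mul_le_mul_of_nonneg_left hu.le (by linarith : (0 : ℝ) ≤ ξ / 2)
    linarith
  refine h2.trans ?_
  rw [Av_mul_const]
  refine (mul_le_mul_of_nonneg_right hm (Real.exp_pos _).le).trans ?_
  rw [← Real.exp_add, mul_pow, hσ2]
  refine le_of_eq ?_
  congr 1
  ring

end HOE

theorem hoeffding (b N c : ℕ) (β : ℕ → Prop) (ξ : ℝ) (h : N * b ≤ c) (h0 : 0 < ξ) (h1 : ξ ≤ 1) :
    Pb c (fun u => N * ξ < |(cnt b N β u : ℝ) - N * Pb b β|) ≤ 2 * Real.exp (-(N * ξ ^ 2 / 4)) := by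
  have a := HOE.tail b N c β ξ 1 h h0 h1 (Or.inl rfl)
  have a' := HOE.tail b N c β ξ (-1) h h0 h1 (Or.inr rfl)
  have := Pb_le_add (c := c)
    (E := fun u => N * ξ < |(cnt b N β u : ℝ) - N * Pb b β|)
    (E₁ := fun u => N * ξ < 1 * ((cnt b N β u : ℝ) - N * Pb b β))
    (E₂ := fun u => N * ξ < -1 * ((cnt b N β u : ℝ) - N * Pb b β)) (fun u _ hu => by
      rcases lt_abs.1 hu with h | h
      · left; linarith
      · right; linarith)
  linarith

theorem HOE_proof (_hAv : AvStmt) : HoeStmt :=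
  fun b N c β ξ h h0 h1 => hoeffding b N c β ξ h h0 h1

end Crest.Agent.R309
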