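import Crest.Agent.R309.DefsC
import Crest.Agent.R309.ITR
import Crest.Agent.R309.HOE

/-!
Row 309: accuracy of the estimates.
-/

set_option autoImplicit false

namespace Crest.Agent.R309

open Finset Crest.Agent.PT Crest.Agent.QC Crest.Agent.R317 Crest.Agent.R300U

namespace EST

theorem pM_pos {n : ℕ} (hn : 1 ≤ n) : 1 ≤ pM n := by
  unfold pM pD pK0 pJ
  have : 0 < 2 * (n * (4 * (2 ^ 30 * n ^ 8))) := by positivity
  omega

theorem pTt_pos (n : ℕ) : 1 ≤ pTt n := by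
  unfold pTt
  omega

theorem pXi_ge {n : ℕ} (hn : 1 ≤ n) (a : ℕ) : 512 * a ≤ pXi n a := by
  unfold pXi
  have h1 := pM_pos hn
  have h2 := pTt_pos n
  calc 512 * a = 512 * 1 * 1 * a * 1 := by ring
    _ ≤ 512 * n * pM n * a * pTt n := by gcongr

theorem natFloor_cast (x : ℚ) : ⌊(x : ℝ)⌋₊ = ⌊x⌋₊ := by
  rw [← Int.floor_toNat, ← Int.floor_toNat, Rat.floor_cast]

theorem half_pow_le {m : ℕ} (hm : 1 ≤ m) : (2 : ℝ)⁻¹ ^ m ≤ 1 / m := by
  have h1 : (m : ℝ) ≤ 2 ^ m := by exact_mod_cast (Nat.lt_two_pow_self).le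
  have h2 : (0 : ℝ) < m := by exact_mod_cast hm
  rw [inv_pow, one_div]
  exact inv_anti₀ h2 h1

theorem exp_bound (a T : ℕ) :
    2 * Real.exp (-((a : ℝ) + T + 2)) ≤ (2 : ℝ)⁻¹ ^ (a + 1) / (T + 1) := by
  have h1 : (T : ℝ) + 1 ≤ Real.exp T := Real.add_one_le_exp _
  have h2 : (2 : ℝ) ^ (a + 2) ≤ Real.exp ((a : ℝ) + 2) := by
    have h3 : (2 : ℝ) ≤ Real.exp 1 := by
      have := Real.add_one_le_exp 1
      linarith
    calc (2 : ℝ) ^ (a + 2) ≤ Real.exp 1 ^ (a + 2) := by gcongr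
      _ = Real.exp ((a : ℝ) + 2) := by
        rw [← Real.exp_nat_mul]
        congr 1
        push_cast
        ring
  have hT : (0 : ℝ) < T + 1 := by positivity
  have h4 : (2 : ℝ) ^ (a + 2) * (T + 1) ≤ Real.exp ((a : ℝ) + T + 2) := by
    calc (2 : ℝ) ^ (a + 2) * (T + 1) ≤ Real.exp ((a : ℝ) + 2) * Real.exp T := by gcongr
      _ = _ := by
        rw [← Real.exp_add]
        congr 1
        ring
  rw [Real.exp_neg]
  have h5 : (Real.exp ((a : ℝ) + T + 2))⁻¹ ≤ ((2 : ℝ) ^ (a + 2) * (T + 1))⁻¹ :=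
    inv_anti₀ (by positivity) h4
  calc 2 * (Real.exp ((a : ℝ) + T + 2))⁻¹ ≤ 2 * ((2 : ℝ) ^ (a + 2) * (T + 1))⁻¹ := by gcongr
    _ = (2 : ℝ)⁻¹ ^ (a + 1) / (T + 1) := by
      rw [inv_pow]
      field_simp
      ring

/-- Hoeffding with the parameters of the estimates -/
theorem conc {n a : ℕ} (hn : 1 ≤ n) (ha : 1 ≤ a) (b : ℕ) (β : ℕ → Prop) :
    Pb (pN n a * b) (fun u => 1 / (pXi n a : ℝ) < |(cnt b (pN n a) β u : ℝ) / pN n a - Pb b β|) ≤
      (2 : ℝ)⁻¹ ^ (a + 1) / (pTt n + 1) := by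
  have hX : 1 ≤ pXi n a := by have := pXi_ge hn a; omega
  have hX' : (1 : ℝ) ≤ pXi n a := by exact_mod_cast hX
  have hN : (pN n a : ℝ) = 4 * (pXi n a : ℝ) ^ 2 * ((a : ℝ) + pTt n + 2) := by
    unfold pN
    push_cast
    ring
  have hN0 : (0 : ℝ) < pN n a := by rw [hN]; positivity
  have h := hoeffding b (pN n a) (pN n a * b) β (1 / (pXi n a : ℝ)) le_rfl (by positivity)
    (by rw [div_le_one (by linarith)]; exact hX')
  have e : (pN n a : ℝ) * (1 / (pXi n a : ℝ)) ^ 2 / 4 = (a : ℝ) + pTt n + 2 := by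
    rw [hN]
    field_simp
  rw [e] at h
  refine le_trans (Pb_mono fun u _ hu => ?_) (h.trans (exp_bound a (pTt n)))
  have e2 : (cnt b (pN n a) β u : ℝ) - pN n a * Pb b β =
      pN n a * ((cnt b (pN n a) β u : ℝ) / pN n a - Pb b β) := by
    field_simp
  rw [e2, abs_mul, abs_of_pos hN0]
  exact mul_lt_mul_of_pos_left hu hN0

open Classical in
/-- the weight of the accepted states is the number of feasible flows -/
theorem sum_acc (hBij : BijStmt) {P : Pre} (hP : Spec P) (s : ℕ) (p : List ℤ) :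
    ∑ x ∈ bx P, πq P s p x * (if acc P (toL x) then 1 else 0) = (flows (gG P)).card := by
  obtain ⟨-, -, -, h4, h5⟩ := hBij P hP
  rw [← h5, card_eq_sum_ones, Nat.cast_sum, sum_filter]
  refine sum_congr rfl fun x hx => ?_
  by_cases h : acc P (toL x)
  · simp [h, h4 s p x hx h]
  · simp [h]

/-- the law of a sample -/
theorem Av_samp (hSamp : SampStmt) {P : Pre} (hP : Spec P) {s : ℕ} {p : List ℤ} (hv : Valid P s p)
    (A c : ℕ) (hc : pT (nn P) A * b1 P ≤ c) (φ : List Bin → ℝ) (hφ : ∀ l, |φ l| ≤ 1) :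
    |Av c (fun u => φ (samp P s p (pT (nn P) A) u)) -
      (∑ x ∈ bx P, πq P s p x * φ (toL x)) / Zq P s p| ≤ (2 : ℝ)⁻¹ ^ A := by
  have := (hSamp P hP s p hv).2 A φ hφ
  unfold samp
  rw [Av_iterN _ _ _ _ c hc φ]
  exact this

theorem coin_bias (hSamp : SampStmt) {P : Pre} (hP : Spec P) {a : ℕ} (ha : 1 ≤ a) {s : ℕ}
    {p : List ℤ} (hv : Valid P s p) (s' : ℕ) (p' : List ℤ)
    (h : ∀ x ∈ bx P, 0 ≤ πq P s' p' x ∧ πq P s' p' x ≤ 2 * πq P s p x) :
    |Pb (bC P a) (coin P a s p s' p') - Zq P s' p' / (2 * Zq P s p)| ≤ 2 / (pXi (nn P) a : ℝ) := by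
  classical
  have hX : 1 ≤ pXi (nn P) a := by have := pXi_ge hP.pos a; omega
  set X := pXi (nn P) a with hXdef
  let r : List Bin → ℝ := fun l => (wq P s' p' l : ℝ) / (2 * (wq P s p l : ℝ))
  let φ : List Bin → ℝ := fun l => if |r l| ≤ 1 then r l else 0
  have hr : ∀ x ∈ bx P, 0 ≤ r (toL x) ∧ r (toL x) ≤ 1 := by
    intro x hx
    obtain ⟨h0, h1⟩ := h x hx
    unfold πq at h0 h1
    refine ⟨div_nonneg h0 (by linarith), div_le_one_of_le₀ h1 (by linarith)⟩
  have hφr : ∀ x ∈ bx P, φ (toL x) = r (toL x) := by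
    intro x hx
    obtain ⟨h0, h1⟩ := hr x hx
    simp only [φ]
    rw [if_pos (by rw [abs_of_nonneg h0]; exact h1)]
  have hφ : ∀ l, |φ l| ≤ 1 := by
    intro l
    simp only [φ]
    split_ifs with h1
    · exact h1
    · simp
  have hsum : ∑ x ∈ bx P, πq P s p x * φ (toL x) = Zq P s' p' / 2 := by
    unfold Zq
    rw [sum_div]
    refine sum_congr rfl fun x hx => ?_
    obtain ⟨h0, h1⟩ := h x hx
    rw [hφr x hx]
    simp only [r]
    unfold πq at h0 h1 ⊢
    by_cases hz : (wq P s p (toL x) : ℝ) = 0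
    · have : (wq P s' p' (toL x) : ℝ) = 0 := by linarith
      rw [hz, this]
      simp
    · field_simp
  have h1 := Av_samp hSamp hP hv X (bS P a) le_rfl φ hφ
  rw [hsum] at h1
  let m : List Bin → ℕ := fun l => ⌊2 ^ X * wq P s' p' l / (2 * wq P s p l)⌋₊
  have hm : ∀ l, m l = ⌊(2 : ℝ) ^ X * r l⌋₊ := by
    intro l
    simp only [m, r]
    rw [← natFloor_cast]
    congr 1
    push_cast
    ring
  have h2 : Pb (bC P a) (coin P a s p s' p') =
      Av (bS P a) (fun w => Pb X (fun y => y < m (smp P a s p w))) := by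
    rw [← Pb_mod_fld (c := bC P a) (s := bS P a) (k := X) le_rfl
      (fun w y => y < m (smp P a s p w))]
    refine Pb_congr fun u _ => ?_
    have : smp P a s p (u % 2 ^ bS P a) = smp P a s p u := iterN_mod _ _ _ _ _ _ le_rfl
    rw [this]
    rfl
  have h3 : ∀ w, |Pb X (fun y => y < m (smp P a s p w)) - φ (smp P a s p w)| ≤ (2 : ℝ)⁻¹ ^ X := by
    intro w
    obtain ⟨y, hy, e⟩ := (hSamp P hP s p hv).1 (pT (nn P) X) w
    have e' : smp P a s p w = toL y := e
    obtain ⟨h0, h1⟩ := hr y hy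
    have hp : (0 : ℝ) < 2 ^ X := by positivity
    have hf1 : (m (toL y) : ℝ) ≤ 2 ^ X * r (toL y) := by
      rw [hm]; exact Nat.floor_le (by positivity)
    have hf2 : 2 ^ X * r (toL y) < m (toL y) + 1 := by
      rw [hm]; exact Nat.lt_floor_add_one _
    have hle : m (toL y) ≤ 2 ^ X := by
      have : (m (toL y) : ℝ) ≤ 2 ^ X := hf1.trans (mul_le_of_le_one_right hp.le h1)
      exact_mod_cast this
    rw [e', Pb_lt hle, hφr y hy]
    have e2 : (m (toL y) : ℝ) / 2 ^ X - r (toL y) = (m (toL y) - 2 ^ X * r (toL y)) * 2⁻¹ ^ X := by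
      rw [inv_pow]
      field_simp
    rw [e2, abs_mul, abs_of_pos (by positivity : (0 : ℝ) < 2⁻¹ ^ X)]
    refine mul_le_of_le_one_left (by positivity) ?_
    rw [abs_le]
    constructor <;> linarith
  have h4 : |Pb (bC P a) (coin P a s p s' p') - Av (bS P a) (fun w => φ (smp P a s p w))| ≤
      (2 : ℝ)⁻¹ ^ X := by
    rw [h2, ← Av_sub]
    exact (abs_Av_le _ _).trans (Av_le_const fun w _ => h3 w)
  have h5 := half_pow_le hX
  have e3 : Zq P s' p' / (2 * Zq P s p) = Zq P s' p' / 2 / Zq P s p := by rw [div_div]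
  rw [e3]
  have h6 := abs_sub_le (Pb (bC P a) (coin P a s p s' p'))
    (Av (bS P a) (fun w => φ (smp P a s p w))) (Zq P s' p' / 2 / Zq P s p)
  have h1' : |Av (bS P a) (fun w => φ (smp P a s p w)) - Zq P s' p' / 2 / Zq P s p| ≤
      (2 : ℝ)⁻¹ ^ X := h1
  have e4 : 2 / (X : ℝ) = 1 / X + 1 / X := by ring
  linarith

theorem acc_bias (hSamp : SampStmt) (hBij : BijStmt) {P : Pre} (hP : Spec P) {a : ℕ} (ha : 1 ≤ a)
    {s : ℕ} {p : List ℤ} (hv : Valid P s p) :
    |Pb (bC P a) (fun v => acc P (smp P a s p v)) - (flows (gG P)).card / Zq P s p| ≤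
      1 / (pXi (nn P) a : ℝ) := by
  classical
  have hX : 1 ≤ pXi (nn P) a := by have := pXi_ge hP.pos a; omega
  have h1 := Av_samp hSamp hP hv (pXi (nn P) a) (bC P a) (Nat.le_add_right _ _)
    (fun l => if acc P l then 1 else 0) (fun l => by split_ifs <;> simp)
  rw [sum_acc hBij hP] at h1
  exact le_trans h1 (half_pow_le hX)

end EST

theorem EST_proof (_hAv : AvStmt) (_hItr : ItrStmt) (_hHoe : HoeStmt) (hSamp : SampStmt)
    (hBij : BijStmt) : EstStmt := by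
  intro P hP a ha s p hv
  have hX : (0 : ℝ) < pXi (nn P) a := by
    have := EST.pXi_ge hP.pos a
    exact_mod_cast (by omega : 0 < pXi (nn P) a)
  constructor
  · intro s' p' h
    refine le_trans (Pb_mono fun u _ hu => ?_)
      (EST.conc hP.pos ha (bC P a) (coin P a s p s' p'))
    have hb := EST.coin_bias hSamp hP ha hv s' p' h
    by_contra hc
    rw [not_lt] at hc
    have e : (est P a s p s' p' u : ℝ) - Zq P s' p' / Zq P s p =
        2 * ((cnt (bC P a) (pN (nn P) a) (coin P a s p s' p') u : ℝ) / pN (nn P) a -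
          Pb (bC P a) (coin P a s p s' p')) +
        2 * (Pb (bC P a) (coin P a s p s' p') - Zq P s' p' / (2 * Zq P s p)) := by
      unfold est
      push_cast
      ring
    rw [e] at hu
    obtain ⟨c1, c2⟩ := abs_le.1 hc
    obtain ⟨b1', b2'⟩ := abs_le.1 hb
    have e1 : 6 / (pXi (nn P) a : ℝ) = 6 * (1 / (pXi (nn P) a : ℝ)) := by ring
    have e2 : 2 / (pXi (nn P) a : ℝ) = 2 * (1 / (pXi (nn P) a : ℝ)) := by ring
    refine absurd hu (not_lt.2 (abs_le.2 ⟨?_, ?_⟩)) <;> linarith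
  · have h0 : (2 : ℝ)⁻¹ ^ (a + 1) / (pTt (nn P) + 1) ≤ (2 : ℝ)⁻¹ ^ (a + 1) :=
      div_le_self (by positivity) (by have : (0 : ℝ) ≤ pTt (nn P) := by positivity
                                      linarith)
    refine le_trans (Pb_mono fun u _ hu => ?_)
      ((EST.conc hP.pos ha (bC P a) (fun v => acc P (smp P a s p v))).trans h0)
    have hb := EST.acc_bias hSamp hBij hP ha hv
    by_contra hc
    rw [not_lt] at hc
    have e : (estA P a s p u : ℝ) =
        (cnt (bC P a) (pN (nn P) a) (fun v => acc P (smp P a s p v)) u : ℝ) / pN (nn P) a := by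
      unfold estA
      push_cast
      ring
    rw [e] at hu
    obtain ⟨c1, c2⟩ := abs_le.1 hc
    obtain ⟨b1', b2'⟩ := abs_le.1 hb
    have e1 : 3 / (pXi (nn P) a : ℝ) = 3 * (1 / (pXi (nn P) a : ℝ)) := by ring
    have e2 : 0 < 1 / (pXi (nn P) a : ℝ) := by positivity
    refine absurd hu (not_lt.2 (abs_le.2 ⟨?_, ?_⟩)) <;> linarith

end Crest.Agent.R309
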