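import Crest.Agent.R309.ONE

/-! Row 309, task KEY: the key flow lemma (dual form). -/

set_option autoImplicit false

namespace Crest.Agent.R309

open Finset

namespace KEY

open ONE

variable {V : Type} [Fintype V] [DecidableEq V]

omit [Fintype V] in
theorem Sm_shift (t : List (V × V × ℕ)) (γ δ : V → ℕ) (Φ : (V → ℕ) → ℝ) :
    Sm t (γ + δ) Φ = Sm t γ (fun U => Φ (U + δ)) := by
  induction t generalizing γ with
  | nil => rfl
  | cons B t ih =>
    simp only [Sm]
    refine sum_congr rfl fun i _ => ?_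
    rw [add_right_comm, ih]

omit [Fintype V] in
theorem Sm_add (t : List (V × V × ℕ)) (γ : V → ℕ) (Φ Ψ : (V → ℕ) → ℝ) :
    Sm t γ (fun U => Φ U + Ψ U) = Sm t γ Φ + Sm t γ Ψ := by
  induction t generalizing γ with
  | nil => rfl
  | cons B t ih => simp only [Sm, ih, sum_add_distrib]

omit [Fintype V] in
theorem Sm_mul (t : List (V × V × ℕ)) (γ : V → ℕ) (c : ℝ) (Φ : (V → ℕ) → ℝ) :
    Sm t γ (fun U => c * Φ U) = c * Sm t γ Φ := by
  induction t generalizing γ with
  | nil => rfl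
  | cons B t ih => simp only [Sm, ih, mul_sum]

omit [Fintype V] in
theorem Sm_mono (t : List (V × V × ℕ)) (γ : V → ℕ) {Φ Ψ : (V → ℕ) → ℝ} (h : ∀ U, Φ U ≤ Ψ U) :
    Sm t γ Φ ≤ Sm t γ Ψ := by
  induction t generalizing γ with
  | nil => exact h γ
  | cons B t ih => exact sum_le_sum fun i _ => ih _

omit [Fintype V] in
theorem Sm_nonneg (t : List (V × V × ℕ)) (γ : V → ℕ) {Φ : (V → ℕ) → ℝ} (h : ∀ U, 0 ≤ Φ U) :
    0 ≤ Sm t γ Φ := by
  induction t generalizing γ with
  | nil => exact h γ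
  | cons B t ih => exact sum_nonneg fun i _ => ih _

omit [Fintype V] in
theorem Sm_sum {ι : Type} (s : Finset ι) (t : List (V × V × ℕ)) (γ : V → ℕ)
    (Φ : ι → (V → ℕ) → ℝ) :
    Sm t γ (fun U => ∑ i ∈ s, Φ i U) = ∑ i ∈ s, Sm t γ (Φ i) := by
  induction t generalizing γ with
  | nil => rfl
  | cons B t ih =>
    simp only [Sm, ih]
    exact sum_comm

theorem Dv_Sm (t : List (V × V × ℕ)) (F : (V → ℕ) → ℝ) (γ : V → ℕ) (x : V → ℝ) :
    Dv (fun γ => Sm t γ F) γ x = Sm t γ (fun U => Dv F U x) := by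
  unfold Dv
  rw [Sm_sum]
  exact sum_congr rfl fun c _ => by rw [Sm_mul, ← Sm_shift]

omit [Fintype V] in
theorem WS_nonneg (F : (V → ℕ) → ℝ) (hF : ∀ U, 0 ≤ F U) (t : List (V × V × ℕ)) (γ : V → ℕ) :
    0 ≤ WS F t γ := by
  induction t generalizing γ with
  | nil => exact le_rfl
  | cons B t ih =>
    simp only [WS]
    refine add_nonneg (div_nonneg (sum_nonneg fun i hi => ?_) (by positivity))
      (sum_nonneg fun i _ => ih _)
    have hs : (i : ℝ) ≤ B.2.2 := by exact_mod_cast (mem_range.1 hi).le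
    exact mul_nonneg (mul_nonneg (by positivity) (by linarith)) (Sm_nonneg _ _ hF)

theorem Qv_WS (F : (V → ℕ) → ℝ) (a b : V) (s : ℕ) (t : List (V × V × ℕ)) (γ : V → ℕ)
    (x : V → ℝ) :
    Qv (WS F ((a, b, s) :: t)) γ x =
      (∑ i ∈ range s, ((i : ℝ) + 1) * ((s : ℝ) - i) *
        Qv (fun γ => Sm t γ F) (γ + pt a b i (s - 1 - i)) x) / (2 * ((s : ℝ) + 1) ^ 2) +
      ∑ i ∈ range (s + 1), Qv (WS F t) (γ + pt a b i (s - i)) x := by
  have e : ∀ (c d : V) (δ : V → ℕ), γ + ev c + ev d + δ = γ + δ + ev c + ev d := by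
    intro c d δ
    abel
  simp only [Qv, WS, e, mul_add, sum_add_distrib, sum_div, mul_sum]
  congr 1
  · rw [sum_comm]
    refine (sum_congr rfl fun c _ => sum_comm).trans (sum_comm.trans ?_)
    refine sum_congr rfl fun i _ => ?_
    rw [sum_comm]
    exact sum_congr rfl fun c _ => sum_congr rfl fun d _ => by ring
  · rw [sum_comm]
    refine (sum_congr rfl fun c _ => sum_comm).trans (sum_comm.trans ?_)
    refine sum_congr rfl fun i _ => ?_
    rw [sum_comm]

/-- the corrected vectors have larger total square for every non-negative `W` -/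
theorem slices (W : (V → ℕ) → ℝ) (hW : ∀ U, 0 ≤ W U) (a b : V) (s : ℕ) (γ : V → ℕ) (x : V → ℝ)
    (θ : ℕ → ℝ) (h0 : θ 0 = 0) (hs : θ (s + 1) = 0) :
    ∑ i ∈ range (s + 1), Qv W (γ + pt a b i (s - i)) x ≤
      ∑ i ∈ range (s + 1), Qv W (γ + pt a b i (s - i)) (upd x a b (-θ (i + 1)) (θ i)) := by
  set u : ℕ → ℝ := fun i => -2 * θ i * Dv W (γ + pt a b i (s + 1 - i)) x +
    θ i ^ 2 * W (γ + pt a b (i + 1) (s + 1 - i)) - θ i ^ 2 * W (γ + pt a b i (s + 2 - i)) with hu
  have h1 : ∑ i ∈ range (s + 1), (u (i + 1) - u i) = 0 := by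
    rw [sum_range_sub]
    simp [hu, h0, hs]
  rw [← add_zero (∑ i ∈ range (s + 1), Qv W (γ + pt a b i (s - i)) x), ← h1, ← sum_add_distrib]
  refine sum_le_sum fun i hi => ?_
  have hi' := mem_range.1 hi
  rw [Qv_upd]
  simp only [pt_a, pt_b, hu]
  have e1 : s - i + 1 = s + 1 - i := by omega
  have e2 : s + 1 - i + 1 = s + 2 - i := by omega
  have e3 : s + 1 - (i + 1) = s - i := by omega
  have e4 : s + 2 - (i + 1) = s + 1 - i := by omega
  rw [e1, e2, e3, e4]
  nlinarith [mul_nonneg (hW (γ + pt a b (i + 1) (s + 1 - i))) (sq_nonneg (θ (i + 1) - θ i))]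

end KEY

open ONE KEY in
theorem KEY_proof (hMrg : MrgStmt) (hOne : OneStmt) : KeyStmt := by
  intro V _ _ F hF t
  induction t with
  | nil =>
    intro γ x g h
    simp only [Sm] at h
    simp [Sm, Dir, WS, Qv, h]
  | cons B t ih =>
    obtain ⟨a, b, s⟩ := B
    intro γ x g h
    have hG := hMrg V F hF t
    set G : (V → ℕ) → ℝ := fun γ => Sm t γ F with hGd
    have hD : ∀ δ y, Sm t δ (fun U => Dv F U y) = Dv G δ y := fun δ y => (Dv_Sm t F δ y).symm
    simp only [Sm, hD] at h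
    set θ : ℕ → ℝ := fun i => (∑ j ∈ range i, Dv G (γ + pt a b j (s - j)) x) /
      G (γ + pt a b i (s + 1 - i)) with hθ
    have hθ0 : θ 0 = 0 := by simp [hθ]
    have hθs : θ (s + 1) = 0 := by simp [hθ, h]
    have hθi : ∀ i, θ i * G (γ + pt a b i (s + 1 - i)) =
        ∑ j ∈ range i, Dv G (γ + pt a b j (s - j)) x := by
      intro i
      exact div_mul_cancel₀ _ (hG.1 _).ne'
    have hone := hOne V G hG a b s γ x (fun i => θ (i + 1)) h (by
      intro i _
      have := hθi (i + 1)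
      rwa [Nat.add_sub_add_right] at this)
    -- the induction hypothesis on each slice
    set P : ℕ → ℝ := fun i => Sm t (γ + pt a b i (s - i)) (fun U => g U * F (U + ev a)) with hP
    set R : ℕ → ℝ := fun i => Sm t (γ + pt a b i (s - i)) (fun U => g U * F (U + ev b)) with hR
    have h1 : ∀ i ∈ range (s + 1),
        2 * (Sm t (γ + pt a b i (s - i)) (fun U => g U * Dv F U x) - θ (i + 1) * P i + θ i * R i) ≤
          -Qv (WS F t) (γ + pt a b i (s - i)) (upd x a b (-θ (i + 1)) (θ i)) +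
            Dir (cX F) t (γ + pt a b i (s - i)) g := by
      intro i hi
      have hi' := mem_range.1 hi
      have h2 := ih (γ + pt a b i (s - i)) (upd x a b (-θ (i + 1)) (θ i)) g (by
        rw [hD, Dv_upd, pt_a, pt_b]
        have e1 := hθi (i + 1)
        have e2 := hθi i
        rw [Nat.add_sub_add_right, sum_range_succ] at e1
        rw [show s - i + 1 = s + 1 - i by omega]
        linarith)
      refine le_trans (le_of_eq ?_) h2
      congr 1
      simp only [hP, hR]
      rw [sub_eq_add_neg, ← neg_mul, ← Sm_mul, ← Sm_mul, ← Sm_add, ← Sm_add]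
      congr 1
      funext U
      rw [Dv_upd]
      ring
    have h2 := sum_le_sum h1
    have h3 := slices (WS F t) (WS_nonneg F (fun U => (hF.1 U).le) t) a b s γ x θ hθ0 hθs
    -- the crossing terms
    have h4 : ∑ i ∈ range (s + 1), (θ (i + 1) * P i - θ i * R i) =
        ∑ i ∈ range s, θ (i + 1) * (P i - R (i + 1)) := by
      rw [sum_sub_distrib, sum_range_succ, sum_range_succ' (fun i => θ i * R i), hθ0, hθs]
      simp only [mul_sub, sum_sub_distrib]
      ring
    have hs1 : (0 : ℝ) < (s : ℝ) + 1 := by positivity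
    have h5 : ∀ i ∈ range s, 2 * (θ (i + 1) * (P i - R (i + 1))) ≤
        θ (i + 1) ^ 2 * G (γ + pt a b (i + 1) (s - i)) / ((s : ℝ) + 1) ^ 2 +
          ((s : ℝ) + 1) ^ 2 * Sm t (γ + pt a b i (s - 1 - i))
            (fun U => cX F a b U * (g (U + ev a) - g (U + ev b)) ^ 2) := by
      intro i hi
      have hi' := mem_range.1 hi
      have e1 : γ + pt a b i (s - i) = γ + pt a b i (s - 1 - i) + ev b := by
        rw [pt_b, show s - 1 - i + 1 = s - i by omega]
      have e2 : γ + pt a b (i + 1) (s - (i + 1)) = γ + pt a b i (s - 1 - i) + ev a := by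
        rw [pt_a, show s - (i + 1) = s - 1 - i by omega]
      have e3 : γ + pt a b (i + 1) (s - i) = γ + pt a b i (s - 1 - i) + (ev a + ev b) := by
        rw [← add_assoc, pt_a, pt_b, show s - 1 - i + 1 = s - i by omega]
      simp only [hP, hR, hGd]
      rw [e1, e2, e3, Sm_shift _ _ (ev b), Sm_shift _ _ (ev a), Sm_shift _ _ (ev a + ev b),
        ← mul_assoc, mul_sub, sub_eq_add_neg, ← neg_mul, ← Sm_mul, ← Sm_mul, ← Sm_add,
        mul_div_right_comm, ← Sm_mul, ← Sm_mul, ← Sm_add]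
      refine Sm_mono _ _ fun U => ?_
      simp only [cX]
      rw [add_right_comm U (ev b) (ev a), ← add_assoc]
      have hw := hF.1 (U + ev a + ev b)
      have key : 2 * θ (i + 1) * (g (U + ev b) - g (U + ev a)) ≤
          θ (i + 1) ^ 2 / ((s : ℝ) + 1) ^ 2 +
            ((s : ℝ) + 1) ^ 2 * (g (U + ev a) - g (U + ev b)) ^ 2 := by
        have := sq_nonneg (θ (i + 1) / ((s : ℝ) + 1) + ((s : ℝ) + 1) * (g (U + ev a) - g (U + ev b)))
        have e : θ (i + 1) / ((s : ℝ) + 1) * ((s : ℝ) + 1) = θ (i + 1) := by field_simp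
        rw [← div_pow]
        set q := θ (i + 1) / ((s : ℝ) + 1)
        rw [← e]
        nlinarith
      nlinarith [mul_le_mul_of_nonneg_left key hw.le]
    have h6 := sum_le_sum h5
    rw [← mul_sum, ← h4, sum_add_distrib, ← sum_div, ← mul_sum] at h6
    have h7 : (∑ i ∈ range s, θ (i + 1) ^ 2 * G (γ + pt a b (i + 1) (s - i))) / ((s : ℝ) + 1) ^ 2 ≤
        -((∑ i ∈ range s, ((i : ℝ) + 1) * ((s : ℝ) - i) * Qv G (γ + pt a b i (s - 1 - i)) x) /
          (2 * ((s : ℝ) + 1) ^ 2)) := by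
      rw [← neg_div, div_le_div_iff₀ (by positivity) (by positivity)]
      nlinarith [mul_le_mul_of_nonneg_right hone (sq_nonneg ((s : ℝ) + 1))]
    rw [Qv_WS]
    simp only [Sm, Dir]
    rw [← mul_sum, sum_add_distrib, sum_add_distrib, sum_sub_distrib, sum_neg_distrib] at h2
    rw [sum_sub_distrib] at h6
    linarith

end Crest.Agent.R309
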