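import Crest.Agent.R309.DefsA

/-! Row 309, task ONE: the one-block energy estimate. -/

set_option autoImplicit false

namespace Crest.Agent.R309

open Finset

namespace ONE

variable {V : Type} [Fintype V] [DecidableEq V]

/-- `x + t₁ δ_a + t₂ δ_b` -/
def upd (x : V → ℝ) (a b : V) (t₁ t₂ : ℝ) : V → ℝ :=
  fun c => x c + (if c = a then t₁ else 0) + (if c = b then t₂ else 0)

theorem sum_upd (x : V → ℝ) (a b : V) (t₁ t₂ : ℝ) (f : V → ℝ) :
    ∑ c, upd x a b t₁ t₂ c * f c = ∑ c, x c * f c + t₁ * f a + t₂ * f b := by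
  simp only [upd, add_mul, sum_add_distrib, ite_mul, zero_mul, sum_ite_eq', mem_univ, if_true]

theorem Dv_upd (F : (V → ℕ) → ℝ) (γ : V → ℕ) (x : V → ℝ) (a b : V) (t₁ t₂ : ℝ) :
    Dv F γ (upd x a b t₁ t₂) = Dv F γ x + t₁ * F (γ + ev a) + t₂ * F (γ + ev b) := by
  unfold Dv
  exact sum_upd x a b t₁ t₂ _

theorem Qv_eq (F : (V → ℕ) → ℝ) (γ : V → ℕ) (x : V → ℝ) :
    Qv F γ x = ∑ c, x c * Dv F (γ + ev c) x := by
  unfold Qv Dv
  refine sum_congr rfl fun c _ => ?_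
  rw [mul_sum]
  exact sum_congr rfl fun d _ => by ring

theorem Qv_upd (F : (V → ℕ) → ℝ) (γ : V → ℕ) (x : V → ℝ) (a b : V) (t₁ t₂ : ℝ) :
    Qv F γ (upd x a b t₁ t₂) = Qv F γ x + 2 * t₁ * Dv F (γ + ev a) x + 2 * t₂ * Dv F (γ + ev b) x +
      t₁ ^ 2 * F (γ + ev a + ev a) + 2 * t₁ * t₂ * F (γ + ev a + ev b) +
      t₂ ^ 2 * F (γ + ev b + ev b) := by
  rw [Qv_eq, sum_upd, Qv_eq]
  simp only [Dv_upd]
  have ha : ∑ c, x c * F (γ + ev c + ev a) = Dv F (γ + ev a) x := by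
    unfold Dv
    exact sum_congr rfl fun c _ => by rw [add_right_comm]
  have hb : ∑ c, x c * F (γ + ev c + ev b) = Dv F (γ + ev b) x := by
    unfold Dv
    exact sum_congr rfl fun c _ => by rw [add_right_comm]
  have h1 : ∑ c, x c * (Dv F (γ + ev c) x + t₁ * F (γ + ev c + ev a) + t₂ * F (γ + ev c + ev b)) =
      ∑ c, x c * Dv F (γ + ev c) x + t₁ * Dv F (γ + ev a) x + t₂ * Dv F (γ + ev b) x := by
    rw [← ha, ← hb, mul_sum, mul_sum, ← sum_add_distrib, ← sum_add_distrib]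
    exact sum_congr rfl fun c _ => by ring
  rw [h1, add_right_comm γ (ev b) (ev a)]
  ring

theorem Hf_lift (F : (V → ℕ) → ℝ) (γ : V → ℕ) (x y : V → ℝ) :
    Hf F γ (fun o => o.elim 0 x) (fun o => o.elim 0 y) =
      ∑ c, ∑ d, x c * y d * F (γ + ev c + ev d) := by
  simp [Hf, Fintype.sum_option, eo]

/-- reverse Cauchy–Schwarz against `δ_a` -/
theorem rev (F : (V → ℕ) → ℝ) (hF : IsL F) (γ : V → ℕ) (x : V → ℝ) (a : V) :
    Qv F γ x * F (γ + ev a + ev a) ≤ Dv F (γ + ev a) x ^ 2 := by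
  have h := hF.2 γ (fun o => o.elim 0 x) (fun o => o.elim 0 (fun c => if c = a then 1 else 0))
  rw [Hf_lift, Hf_lift, Hf_lift] at h
  have e1 : ∑ c, ∑ d, (if c = a then (1 : ℝ) else 0) * (if d = a then 1 else 0) *
      F (γ + ev c + ev d) = F (γ + ev a + ev a) := by
    simp [ite_mul, sum_ite_eq']
  have e2 : ∑ c, ∑ d, x c * (if d = a then (1 : ℝ) else 0) * F (γ + ev c + ev d) =
      Dv F (γ + ev a) x := by
    unfold Dv
    refine sum_congr rfl fun c _ => ?_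
    simp [ite_mul, sum_ite_eq', add_right_comm γ (ev c) (ev a)]
  rw [e1, e2] at h
  exact h (hF.1 _)

/-- the local discrete Laplacian estimate -/
theorem loc (F : (V → ℕ) → ℝ) (hF : IsL F) (β : V → ℕ) (x : V → ℝ) (a b : V) (φ : ℝ) :
    Qv F β x ≤ (φ + Dv F (β + ev a) x) ^ 2 / F (β + ev a + ev a) -
      2 * (φ ^ 2 / F (β + ev a + ev b)) + (φ - Dv F (β + ev b) x) ^ 2 / F (β + ev b + ev b) := by
  have hA := hF.1 (β + ev a + ev a)
  have hB := hF.1 (β + ev a + ev b)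
  have hC := hF.1 (β + ev b + ev b)
  have h := rev F hF β (upd x a b (-(φ / F (β + ev a + ev b))) (φ / F (β + ev a + ev b))) a
  rw [Qv_upd, Dv_upd] at h
  set A := F (β + ev a + ev a)
  set B := F (β + ev a + ev b)
  set C := F (β + ev b + ev b)
  set p := Dv F (β + ev a) x
  set q := Dv F (β + ev b) x
  set N := Qv F β x
  obtain ⟨h₀, rfl⟩ : ∃ h₀, φ = h₀ * B := ⟨φ / B, by field_simp⟩
  rw [mul_div_cancel_right₀ _ hB.ne'] at h
  have e1 : (h₀ * B) ^ 2 / B = h₀ ^ 2 * B := by field_simp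
  rw [e1]
  have e2 : N + 2 * h₀ * q + h₀ ^ 2 * C ≤ (h₀ * B + p) ^ 2 / A := by
    rw [le_div_iff₀ hA]
    nlinarith
  have e3 : -(2 * h₀ * q) - h₀ ^ 2 * C + 2 * (h₀ ^ 2 * B) ≤ (h₀ * B - q) ^ 2 / C := by
    rw [le_div_iff₀ hC]
    nlinarith [sq_nonneg (h₀ * B - q - h₀ * C)]
  linarith

theorem pt_a (a b : V) (γ : V → ℕ) (i j : ℕ) :
    γ + pt a b i j + ev a = γ + pt a b (i + 1) j := by
  unfold pt ev
  rw [Pi.single_add]
  abel

theorem pt_b (a b : V) (γ : V → ℕ) (i j : ℕ) :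
    γ + pt a b i j + ev b = γ + pt a b i (j + 1) := by
  unfold pt ev
  rw [Pi.single_add]
  abel

theorem parts (E : ℕ → ℝ) (S : ℝ) (n : ℕ) :
    ∑ l ∈ range n, ((l : ℝ) + 1) * (S - l) * (E (l + 2) - 2 * E (l + 1) + E l) =
      S * E 0 - 2 * ∑ l ∈ range n, E (l + 1) - (n + 1) * (S - n) * E n +
        n * (S - n + 1) * E (n + 1) := by
  induction n with
  | zero => simp
  | succ n ih =>
    rw [sum_range_succ, sum_range_succ, ih]
    push_cast
    ring

end ONE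

open ONE in
theorem ONE_proof : OneStmt := by
  intro V _ _ G hG a b s γ x θ h0 hθ
  set φ : ℕ → ℝ := fun i => ∑ j ∈ range i, Dv G (γ + pt a b j (s - j)) x with hφ
  set E : ℕ → ℝ := fun i => φ i ^ 2 / G (γ + pt a b i (s + 1 - i)) with hE
  have hE0 : E 0 = 0 := by simp [hE, hφ]
  have hEs : E (s + 1) = 0 := by simp [hE, hφ, h0]
  have h1 : ∀ i ∈ range s, θ i ^ 2 * G (γ + pt a b (i + 1) (s - i)) = E (i + 1) := by
    intro i hi
    have hi' := mem_range.1 hi
    have hp := hG.1 (γ + pt a b (i + 1) (s - i))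
    simp only [hE, hφ, Nat.add_sub_add_right]
    rw [← hθ i hi']
    field_simp
  have h2 : ∀ i ∈ range s, ((i : ℝ) + 1) * ((s : ℝ) - i) * Qv G (γ + pt a b i (s - 1 - i)) x ≤
      ((i : ℝ) + 1) * ((s : ℝ) - i) * (E (i + 2) - 2 * E (i + 1) + E i) := by
    intro i hi
    have hi' := mem_range.1 hi
    have hs : (i : ℝ) ≤ s := by exact_mod_cast hi'.le
    refine mul_le_mul_of_nonneg_left ?_ (mul_nonneg (by positivity) (by linarith))
    have h := loc G hG (γ + pt a b i (s - 1 - i)) x a b (φ (i + 1))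
    simp only [pt_a, pt_b] at h
    have e1 : s - 1 - i + 1 = s - i := by omega
    have e2 : s - i + 1 = s + 1 - i := by omega
    have e3 : s - 1 - i = s - (i + 1) := by omega
    rw [e1, e2] at h
    have f1 : φ (i + 1) + Dv G (γ + pt a b (i + 1) (s - 1 - i)) x = φ (i + 2) := by
      simp only [hφ]
      rw [sum_range_succ _ (i + 1), e3]
    have f2 : φ (i + 1) - Dv G (γ + pt a b i (s - i)) x = φ i := by
      simp only [hφ]
      rw [sum_range_succ]
      ring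
    rw [f1, f2] at h
    simp only [hE]
    have e4 : s + 1 - (i + 2) = s - 1 - i := by omega
    have e5 : s + 1 - (i + 1) = s - i := by omega
    rw [e4, e5]
    exact h
  rw [sum_congr rfl h1]
  have h3 := sum_le_sum h2
  rw [parts, hE0, hEs] at h3
  simp only [sub_self, mul_zero, zero_mul] at h3
  linarith

end Crest.Agent.R309
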