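import Crest.Agent.R309.DefsA

/-! Row 309, task SLI: comparison of the means on two neighbouring slices. -/

set_option autoImplicit false

namespace Crest.Agent.R309

open Finset

namespace SLI

variable {V : Type} [Fintype V] [DecidableEq V]

omit [Fintype V] in
theorem Sm_shift (t : List (V × V × ℕ)) (γ δ : V → ℕ) (Φ : (V → ℕ) → ℝ) :
    Sm t (γ + δ) Φ = Sm t γ (fun U => Φ (U + δ)) := by
  induction t generalizing γ with
  | nil => simp [Sm]
  | cons B t ih =>
    simp only [Sm]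
    refine sum_congr rfl fun i _ => ?_
    rw [← ih, add_right_comm]

omit [Fintype V] in
theorem Sm_add (t : List (V × V × ℕ)) (γ : V → ℕ) (Φ Ψ : (V → ℕ) → ℝ) :
    Sm t γ (fun U => Φ U + Ψ U) = Sm t γ Φ + Sm t γ Ψ := by
  induction t generalizing γ with
  | nil => simp [Sm]
  | cons B t ih => simp only [Sm, ih, sum_add_distrib]

omit [Fintype V] in
theorem Sm_mul (t : List (V × V × ℕ)) (γ : V → ℕ) (c : ℝ) (Φ : (V → ℕ) → ℝ) :
    Sm t γ (fun U => c * Φ U) = c * Sm t γ Φ := by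
  induction t generalizing γ with
  | nil => simp [Sm]
  | cons B t ih => simp only [Sm, ih, mul_sum]

omit [Fintype V] in
theorem Sm_sub (t : List (V × V × ℕ)) (γ : V → ℕ) (Φ Ψ : (V → ℕ) → ℝ) :
    Sm t γ (fun U => Φ U - Ψ U) = Sm t γ Φ - Sm t γ Ψ := by
  induction t generalizing γ with
  | nil => simp [Sm]
  | cons B t ih => simp only [Sm, ih, sum_sub_distrib]

omit [Fintype V] in
theorem Sm_mono (t : List (V × V × ℕ)) (γ : V → ℕ) {Φ Ψ : (V → ℕ) → ℝ} (h : ∀ U, Φ U ≤ Ψ U) :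
    Sm t γ Φ ≤ Sm t γ Ψ := by
  induction t generalizing γ with
  | nil => simpa [Sm] using h γ
  | cons B t ih => simp only [Sm]; exact sum_le_sum fun i _ => ih _

omit [Fintype V] in
theorem Sm_zero (t : List (V × V × ℕ)) (γ : V → ℕ) : Sm t γ (fun _ => (0 : ℝ)) = 0 := by
  induction t generalizing γ with
  | nil => simp [Sm]
  | cons B t ih => simp [Sm, ih]

omit [Fintype V] in
theorem Sm_nonneg (t : List (V × V × ℕ)) (γ : V → ℕ) {Φ : (V → ℕ) → ℝ} (h : ∀ U, 0 ≤ Φ U) :
    0 ≤ Sm t γ Φ := by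
  have := Sm_mono t γ (Φ := fun _ => 0) h
  rwa [Sm_zero] at this

omit [Fintype V] in
theorem Sm_pos (t : List (V × V × ℕ)) (γ : V → ℕ) {Φ : (V → ℕ) → ℝ} (h : ∀ U, 0 < Φ U) :
    0 < Sm t γ Φ := by
  induction t generalizing γ with
  | nil => simpa [Sm] using h γ
  | cons B t ih =>
    simp only [Sm]
    exact sum_pos (fun i _ => ih _) ⟨0, by simp⟩

omit [Fintype V] in
/-- Cauchy–Schwarz for `Sm`. -/
theorem Sm_cs (t : List (V × V × ℕ)) (γ : V → ℕ) {w : (V → ℕ) → ℝ} (hw : ∀ U, 0 < w U)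
    (f : (V → ℕ) → ℝ) :
    Sm t γ (fun U => w U * f U) ^ 2 ≤ Sm t γ w * Sm t γ (fun U => w U * f U ^ 2) := by
  have hZ := Sm_pos t γ hw
  set Z := Sm t γ w with hZd
  set S := Sm t γ (fun U => w U * f U) with hS
  have h := Sm_nonneg t γ (Φ := fun U => w U * (Z * f U - S) ^ 2)
    (fun U => mul_nonneg (hw U).le (sq_nonneg _))
  have e : (fun U => w U * (Z * f U - S) ^ 2) =
      fun U => (Z ^ 2 * (w U * f U ^ 2) - (2 * Z * S) * (w U * f U)) + S ^ 2 * w U := by
    funext U; ring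
  rw [e, Sm_add, Sm_sub, Sm_mul, Sm_mul, Sm_mul, ← hS, ← hZd] at h
  have : 0 ≤ Z * (Z * Sm t γ (fun U => w U * f U ^ 2) - S ^ 2) := by nlinarith
  have := (mul_nonneg_iff_of_pos_left hZ).1 this
  linarith

omit [Fintype V] in
theorem WS_shift (t : List (V × V × ℕ)) (γ δ : V → ℕ) (F : (V → ℕ) → ℝ) :
    WS F t (γ + δ) = WS (fun U => F (U + δ)) t γ := by
  induction t generalizing γ with
  | nil => simp [WS]
  | cons B t ih =>
    simp only [WS]
    congr 1
    · congr 1
      refine sum_congr rfl fun i _ => ?_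
      rw [← Sm_shift, add_right_comm]
    · refine sum_congr rfl fun i _ => ?_
      rw [← ih, add_right_comm]

omit [Fintype V] in
theorem WS_add (t : List (V × V × ℕ)) (γ : V → ℕ) (F G : (V → ℕ) → ℝ) :
    WS (fun U => F U + G U) t γ = WS F t γ + WS G t γ := by
  induction t generalizing γ with
  | nil => simp [WS]
  | cons B t ih =>
    simp only [WS, ih, Sm_add, mul_add, sum_add_distrib, add_div]
    ring

omit [Fintype V] in
theorem WS_mul (t : List (V × V × ℕ)) (γ : V → ℕ) (c : ℝ) (F : (V → ℕ) → ℝ) :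
    WS (fun U => c * F U) t γ = c * WS F t γ := by
  induction t generalizing γ with
  | nil => simp [WS]
  | cons B t ih =>
    simp only [WS, ih, Sm_mul, mul_add, ← mul_sum]
    congr 1
    rw [← mul_div_assoc, mul_sum]
    congr 1
    refine sum_congr rfl fun i _ => ?_
    ring

omit [Fintype V] in
theorem WS_nonneg (t : List (V × V × ℕ)) (γ : V → ℕ) {F : (V → ℕ) → ℝ} (h : ∀ U, 0 ≤ F U) :
    0 ≤ WS F t γ := by
  induction t generalizing γ with
  | nil => simp [WS]
  | cons B t ih =>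
    simp only [WS]
    refine add_nonneg (div_nonneg (sum_nonneg fun i hi => ?_) (by positivity))
      (sum_nonneg fun i _ => ih _)
    have : (i : ℝ) ≤ B.2.2 := by exact_mod_cast (mem_range.1 hi).le
    exact mul_nonneg (mul_nonneg (by positivity) (by linarith)) (Sm_nonneg _ _ h)

omit [Fintype V] in
theorem pt_succ_left (a b : V) (i j : ℕ) : pt a b (i + 1) j = pt a b i j + ev a := by
  simp only [pt, ev, Pi.single_add]; abel

omit [Fintype V] in
theorem pt_succ_right (a b : V) (i j : ℕ) : pt a b i (j + 1) = pt a b i j + ev b := by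
  simp only [pt, ev, Pi.single_add]; abel

omit [Fintype V] in
theorem WS_le (t : List (V × V × ℕ)) {F : (V → ℕ) → ℝ} {Λ Γ : ℝ} (hF : ∀ U, 0 < F U)
    (hΛ : 1 ≤ Λ) (ht : ∀ B ∈ t, BlockOK F Λ Γ B) (γ : V → ℕ) :
    WS F t γ ≤ t.length / 2 * Λ * Sm t γ F := by
  induction t generalizing γ with
  | nil => simp [WS]
  | cons B t ih =>
    obtain ⟨a, b, s⟩ := B
    have ih' := ih (fun B hB => ht B (List.mem_cons_of_mem _ hB))
    obtain ⟨⟨c, hc, hcF⟩, -⟩ := ht _ List.mem_cons_self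
    simp only [WS, Sm, List.length_cons, Nat.cast_add, Nat.cast_one] at hc ⊢
    have h1 : ∑ i ∈ range s, Sm t (γ + pt a b i (s - 1 - i)) F ≤
        Λ * ∑ i ∈ range (s + 1), Sm t (γ + pt a b i (s - i)) F := by
      have h0 : ∀ δ, Sm t δ F ≤ Λ * Sm t (δ + ev c) F := fun δ => by
        rw [Sm_shift, ← Sm_mul]; exact Sm_mono _ _ hcF
      refine (sum_le_sum fun i _ => h0 _).trans ?_
      rw [← mul_sum]
      refine mul_le_mul_of_nonneg_left ?_ (by linarith)
      rcases hc with rfl | rfl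
      · rw [sum_range_succ']
        refine le_add_of_le_of_nonneg (le_of_eq (sum_congr rfl fun i hi => ?_))
          (Sm_pos _ _ hF).le
        rw [add_assoc, ← pt_succ_left]
        congr 3; omega
      · rw [sum_range_succ]
        refine le_add_of_le_of_nonneg (le_of_eq (sum_congr rfl fun i hi => ?_))
          (Sm_pos _ _ hF).le
        rw [add_assoc, ← pt_succ_right]
        have := mem_range.1 hi
        congr 3; omega
    have h2 : (∑ i ∈ range s, ((i : ℝ) + 1) * ((s : ℝ) - i) * Sm t (γ + pt a b i (s - 1 - i)) F) /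
        (2 * ((s : ℝ) + 1) ^ 2) ≤ (∑ i ∈ range s, Sm t (γ + pt a b i (s - 1 - i)) F) / 2 := by
      rw [div_le_div_iff₀ (by positivity) (by norm_num), sum_mul, sum_mul]
      refine sum_le_sum fun i hi => ?_
      have hi' : (i : ℝ) + 1 ≤ s := by exact_mod_cast mem_range.1 hi
      have hi0 : (0 : ℝ) ≤ i := by positivity
      have hp := (Sm_pos t (γ + pt a b i (s - 1 - i)) hF).le
      have : ((i : ℝ) + 1) * ((s : ℝ) - i) ≤ ((s : ℝ) + 1) ^ 2 := by nlinarith
      nlinarith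
    have h3 : ∑ i ∈ range (s + 1), WS F t (γ + pt a b i (s - i)) ≤
        t.length / 2 * Λ * ∑ i ∈ range (s + 1), Sm t (γ + pt a b i (s - i)) F := by
      rw [mul_sum]; exact sum_le_sum fun i _ => ih' _
    nlinarith

omit [Fintype V] in
theorem Dir_shift (t : List (V × V × ℕ)) (c : V → V → (V → ℕ) → ℝ) (γ δ : V → ℕ)
    (g : (V → ℕ) → ℝ) :
    Dir c t (γ + δ) g = Dir (fun a b U => c a b (U + δ)) t γ (fun U => g (U + δ)) := by
  induction t generalizing γ with
  | nil => simp [Dir]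
  | cons B t ih =>
    simp only [Dir]
    congr 1
    · congr 1
      refine sum_congr rfl fun i _ => ?_
      rw [add_right_comm, Sm_shift]
      congr 1
      funext U
      rw [add_right_comm U δ, add_right_comm U δ]
    · refine sum_congr rfl fun i _ => ?_
      rw [← ih, add_right_comm]

omit [Fintype V] in
theorem Dir_mono (t : List (V × V × ℕ)) {c c' : V → V → (V → ℕ) → ℝ} {L : ℝ}
    (h : ∀ a b U, c a b U ≤ L * c' a b U) (γ : V → ℕ) (g : (V → ℕ) → ℝ) :
    Dir c t γ g ≤ L * Dir c' t γ g := by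
  induction t generalizing γ with
  | nil => simp [Dir]
  | cons B t ih =>
    simp only [Dir]
    rw [mul_add, mul_sum (s := range (B.2.2 + 1)), mul_left_comm, mul_sum (a := L)]
    refine add_le_add (mul_le_mul_of_nonneg_left (sum_le_sum fun i _ => ?_) (by positivity))
      (sum_le_sum fun i _ => ih _)
    rw [← Sm_mul]
    refine Sm_mono _ _ fun U => ?_
    rw [← mul_assoc]
    exact mul_le_mul_of_nonneg_right (h _ _ _) (sq_nonneg _)

omit [Fintype V] in
theorem Dir_nonneg (t : List (V × V × ℕ)) {c : V → V → (V → ℕ) → ℝ}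
    (h : ∀ a b U, 0 ≤ c a b U) (γ : V → ℕ) (g : (V → ℕ) → ℝ) : 0 ≤ Dir c t γ g := by
  induction t generalizing γ with
  | nil => simp [Dir]
  | cons B t ih =>
    simp only [Dir]
    exact add_nonneg (mul_nonneg (by positivity) (sum_nonneg fun i _ =>
      Sm_nonneg _ _ fun U => mul_nonneg (h _ _ _) (sq_nonneg _))) (sum_nonneg fun i _ => ih _)

theorem Dv_two (F : (V → ℕ) → ℝ) (γ : V → ℕ) (a b : V) (p q : ℝ) :
    Dv F γ (fun v => (if v = b then p else 0) - (if v = a then q else 0)) =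
      p * F (γ + ev b) - q * F (γ + ev a) := by
  simp [Dv, sub_mul, sum_sub_distrib, ite_mul]

theorem Qv_two (F : (V → ℕ) → ℝ) (γ : V → ℕ) (a b : V) (p q : ℝ) :
    Qv F γ (fun v => (if v = b then p else 0) - (if v = a then q else 0)) =
      p ^ 2 * F (γ + ev b + ev b) + q ^ 2 * F (γ + ev a + ev a) -
        2 * p * q * F (γ + ev a + ev b) := by
  have e : γ + ev b + ev a = γ + ev a + ev b := add_right_comm _ _ _
  simp [Qv, sub_mul, mul_sub, sum_sub_distrib, ite_mul, mul_ite, e]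
  ring

theorem amgm {A B C κ p q : ℝ} (hA : 0 ≤ A) (hB : 0 ≤ B) (hC : 0 ≤ C) (h0 : 0 ≤ κ) (h1 : κ ≤ 1)
    (hp : 0 ≤ p) (hq : 0 ≤ q) (h : (1 - κ) * C ^ 2 ≤ A * B) :
    0 ≤ p ^ 2 * B + q ^ 2 * A + (-(2 * (1 - κ) * p * q)) * C := by
  have hl : 0 ≤ p ^ 2 * B + q ^ 2 * A := by positivity
  have h1' : 0 ≤ 1 - κ := by linarith
  have hr : 0 ≤ 2 * (1 - κ) * p * q * C := by positivity
  have : (2 * (1 - κ) * p * q * C) ^ 2 ≤ (p ^ 2 * B + q ^ 2 * A) ^ 2 := by
    have e1 : (2 * (1 - κ) * p * q * C) ^ 2 = 4 * (p * q) ^ 2 * ((1 - κ) * ((1 - κ) * C ^ 2)) := by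
      ring
    have e2 : (1 - κ) * ((1 - κ) * C ^ 2) ≤ A * B := by
      have : 0 ≤ (1 - κ) * C ^ 2 := by positivity
      nlinarith
    have e3 : 4 * (p * q) ^ 2 * (A * B) ≤ (p ^ 2 * B + q ^ 2 * A) ^ 2 := by
      nlinarith [sq_nonneg (p ^ 2 * B - q ^ 2 * A)]
    rw [e1]
    exact (mul_le_mul_of_nonneg_left e2 (by positivity)).trans e3
  have := abs_le_of_sq_le_sq' this hl
  linarith [this.2]

theorem disc {Δ P D : ℝ} (_hP : 0 ≤ P) (h : ∀ τ : ℝ, 2 * (τ * Δ) ≤ τ ^ 2 * P + D) :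
    Δ ^ 2 ≤ P * D := by
  have := discrim_le_zero (a := P) (b := -(2 * Δ)) (c := D) (fun τ => by nlinarith [h τ])
  rw [discrim] at this
  nlinarith

/-- The case where the cheap variable is `a`. -/
theorem core (hKey : KeyStmt) (F : (V → ℕ) → ℝ) (Λ Γ κ : ℝ) (hL : IsL F) (hΛ : 1 ≤ Λ)
    (hup : ∀ α v, F (α + ev v) ≤ Λ * F α) (t : List (V × V × ℕ)) (ht : ∀ B ∈ t, BlockOK F Λ Γ B)
    (a b : V) (hc : ∀ α, F α ≤ Λ * F (α + ev a)) (h0 : 0 ≤ κ) (h1 : κ ≤ 1)
    (hκ : ∀ α, (1 - κ) * F (α + ev a + ev b) ^ 2 ≤ F (α + ev a + ev a) * F (α + ev b + ev b))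
    (β : V → ℕ) (g : (V → ℕ) → ℝ) :
    min (Sm t (β + ev a) F) (Sm t (β + ev b) F) *
          (Sm t (β + ev a) (fun U => F U * g U) / Sm t (β + ev a) F -
            Sm t (β + ev b) (fun U => F U * g U) / Sm t (β + ev b) F) ^ 2 ≤
        2 * Λ ^ 2 * Sm t β (fun U => cM F a b U * (g (U + ev a) - g (U + ev b)) ^ 2) +
          2 * κ * t.length * Λ ^ 4 * Dir (cM F) t (β + ev a) g := by
  have hF := hL.1
  have hZa := Sm_pos t (β + ev a) hF
  have hZb := Sm_pos t (β + ev b) hF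
  set Za := Sm t (β + ev a) F with hZa'
  set Zb := Sm t (β + ev b) F with hZb'
  set Sa := Sm t (β + ev a) (fun U => F U * g U) with hSa
  set Sb := Sm t (β + ev b) (fun U => F U * g U) with hSb
  set Sx := Sm t β (fun U => F (U + ev b) * g (U + ev a)) with hSx
  set D := Dir (cX F) t β (fun U => g (U + ev a)) with hD
  set E := Sm t β (fun U => cM F a b U * (g (U + ev a) - g (U + ev b)) ^ 2) with hE
  set DM := Dir (cM F) t (β + ev a) g with hDM
  have hlen : (0 : ℝ) ≤ t.length := by positivity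
  -- the bound on the quadratic form
  have hP : -Qv (WS F t) β (fun v => (if v = b then 1 / Zb else 0) - (if v = a then 1 / Za else 0))
      ≤ κ * t.length * Λ ^ 2 / Zb := by
    rw [Qv_two]
    have hw := WS_nonneg t β (F := fun U => (1 / Zb) ^ 2 * F (U + ev b + ev b) +
      (1 / Za) ^ 2 * F (U + ev a + ev a) + (-(2 * (1 - κ) * (1 / Zb) * (1 / Za))) *
        F (U + ev a + ev b)) (fun U => amgm (hF _).le (hF _).le (hF _).le h0 h1
          (by positivity) (by positivity) (hκ U))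
    rw [WS_add, WS_add, WS_mul, WS_mul, WS_mul] at hw
    have e : ∀ u v : V, WS (fun U => F (U + ev u + ev v)) t β = WS F t (β + ev u + ev v) := by
      intro u v
      rw [add_assoc, WS_shift]
      simp only [add_assoc]
    rw [e, e, e] at hw
    have h2 := WS_le t hF hΛ ht (β + ev a + ev b)
    have h3 : Sm t (β + ev a + ev b) F ≤ Λ * Za := by
      rw [Sm_shift, hZa', ← Sm_mul]; exact Sm_mono _ _ fun U => hup _ _
    have h4 : WS F t (β + ev a + ev b) ≤ t.length / 2 * Λ * (Λ * Za) :=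
      h2.trans (mul_le_mul_of_nonneg_left h3 (by positivity))
    have h5 : 2 * κ * (1 / Zb) * (1 / Za) * WS F t (β + ev a + ev b) ≤
        κ * t.length * Λ ^ 2 / Zb := by
      refine (mul_le_mul_of_nonneg_left h4 (by positivity)).trans (le_of_eq ?_)
      field_simp
    linarith
  have hkey : ∀ τ : ℝ, 2 * (τ * (Sx / Zb - Sa / Za)) ≤ τ ^ 2 * (κ * t.length * Λ ^ 2 / Zb) + D := by
    intro τ
    have hk := hKey V F hL t β
      (fun v => (if v = b then τ * (1 / Zb) else 0) - (if v = a then τ * (1 / Za) else 0))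
      (fun U => g (U + ev a)) (by
        simp only [Dv_two]
        rw [Sm_sub, Sm_mul, Sm_mul, ← Sm_shift, ← Sm_shift, ← hZa', ← hZb']
        field_simp
        ring)
    simp only [Dv_two] at hk
    have e1 : (fun U => g (U + ev a) * (τ * (1 / Zb) * F (U + ev b) - τ * (1 / Za) * F (U + ev a))) =
        fun U => τ * (1 / Zb) * (F (U + ev b) * g (U + ev a)) -
          τ * (1 / Za) * (F (U + ev a) * g (U + ev a)) := by
      funext U; ring
    have e2 : Sm t β (fun U => F (U + ev a) * g (U + ev a)) = Sa := by rw [hSa, Sm_shift]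
    rw [e1, Sm_sub, Sm_mul, Sm_mul, e2, ← hSx, ← hD, Qv_two] at hk
    rw [Qv_two] at hP
    have := mul_le_mul_of_nonneg_left hP (sq_nonneg τ)
    have e3 : τ * (Sx / Zb - Sa / Za) = τ * (1 / Zb) * Sx - τ * (1 / Za) * Sa := by ring
    rw [e3]
    nlinarith
  have hΔ := disc (by positivity) hkey
  have hDD : D ≤ Λ ^ 2 * DM := by
    rw [hD, hDM, Dir_shift]
    refine Dir_mono t (fun k l U => ?_) β _
    simp only [cX, cM]
    have a1 := hc (U + ev k + ev l)
    have a2 := hup (U + ev a + ev k) l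
    have a3 := hup (U + ev a + ev l) k
    have e1 : U + ev k + ev l + ev a = U + ev a + ev k + ev l := by abel
    have e2 : U + ev a + ev l + ev k = U + ev a + ev k + ev l := by abel
    rw [e1] at a1
    rw [e2] at a3
    rw [mul_min_of_nonneg _ _ (by positivity : (0 : ℝ) ≤ Λ ^ 2)]
    refine le_min ?_ ?_ <;> nlinarith
  have hD0 : 0 ≤ D := Dir_nonneg t (fun k l U => (hF _).le) β _
  -- second part
  have h2 : Zb * (Sx / Zb - Sb / Zb) ^ 2 ≤ Λ ^ 2 * E := by
    have cs := Sm_cs t β (w := fun U => F (U + ev b)) (fun U => hF _)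
      (fun U => g (U + ev a) - g (U + ev b))
    have e1 : Sm t β (fun U => F (U + ev b) * (g (U + ev a) - g (U + ev b))) = Sx - Sb := by
      rw [hSb, Sm_shift, hSx, ← Sm_sub]
      congr 1; funext U; ring
    have e2 : Sm t β (fun U => F (U + ev b) * (g (U + ev a) - g (U + ev b)) ^ 2) ≤ Λ ^ 2 * E := by
      rw [hE, ← Sm_mul]
      refine Sm_mono _ _ fun U => ?_
      rw [← mul_assoc]
      refine mul_le_mul_of_nonneg_right ?_ (sq_nonneg _)
      simp only [cM]
      rw [mul_min_of_nonneg _ _ (by positivity : (0 : ℝ) ≤ Λ ^ 2)]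
      have a1 := hup U b
      have a2 := hc U
      have a3 := hF (U + ev b)
      have a4 : 1 ≤ Λ ^ 2 := one_le_pow₀ hΛ
      refine le_min ?_ ?_ <;> nlinarith
    rw [e1, ← Sm_shift, ← hZb'] at cs
    have : Zb * (Sx / Zb - Sb / Zb) ^ 2 = (Sx - Sb) ^ 2 / Zb := by field_simp
    rw [this, div_le_iff₀ hZb]
    nlinarith
  have h3 : Zb * (Sx / Zb - Sa / Za) ^ 2 ≤ κ * t.length * Λ ^ 4 * DM := by
    have : Zb * (κ * t.length * Λ ^ 2 / Zb * D) = κ * t.length * Λ ^ 2 * D := by field_simp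
    calc Zb * (Sx / Zb - Sa / Za) ^ 2 ≤ Zb * (κ * t.length * Λ ^ 2 / Zb * D) :=
          mul_le_mul_of_nonneg_left hΔ hZb.le
      _ = κ * t.length * Λ ^ 2 * D := this
      _ ≤ κ * t.length * Λ ^ 2 * (Λ ^ 2 * DM) := mul_le_mul_of_nonneg_left hDD (by positivity)
      _ = _ := by ring
  have h4 : (Sa / Za - Sb / Zb) ^ 2 ≤
      2 * (Sx / Zb - Sa / Za) ^ 2 + 2 * (Sx / Zb - Sb / Zb) ^ 2 := by
    nlinarith [sq_nonneg (Sx / Zb - Sa / Za + (Sx / Zb - Sb / Zb))]
  calc min Za Zb * (Sa / Za - Sb / Zb) ^ 2 ≤ Zb * (Sa / Za - Sb / Zb) ^ 2 :=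
        mul_le_mul_of_nonneg_right (min_le_right _ _) (sq_nonneg _)
    _ ≤ Zb * (2 * (Sx / Zb - Sa / Za) ^ 2 + 2 * (Sx / Zb - Sb / Zb) ^ 2) :=
        mul_le_mul_of_nonneg_left h4 hZb.le
    _ ≤ _ := by nlinarith

end SLI

theorem SLI_proof (hKey : KeyStmt) : SliStmt := by
  intro V _ _ F Λ Γ κ hL hΛ hup t ht a b hc h0 h1 hκ β g
  have hF := hL.1
  have hDa : 0 ≤ Dir (cM F) t (β + ev a) g :=
    SLI.Dir_nonneg t (fun k l U => le_min (hF _).le (hF _).le) _ _
  have hDb : 0 ≤ Dir (cM F) t (β + ev b) g :=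
    SLI.Dir_nonneg t (fun k l U => le_min (hF _).le (hF _).le) _ _
  have hpos : 0 ≤ 2 * κ * t.length * Λ ^ 4 := by positivity
  obtain ⟨c, hc | hc, hcF⟩ := hc
  · subst hc
    have := SLI.core hKey F Λ Γ κ hL hΛ hup t ht c b hcF h0 h1 hκ β g
    nlinarith
  · subst hc
    have := SLI.core hKey F Λ Γ κ hL hΛ hup t ht c a hcF h0 h1
      (fun α => by rw [add_right_comm α (ev c) (ev a), mul_comm (F _) (F _)]; exact hκ α) β g
    have e : (fun U => cM F c a U * (g (U + ev c) - g (U + ev a)) ^ 2) =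
        fun U => cM F a c U * (g (U + ev a) - g (U + ev c)) ^ 2 := by
      funext U; simp only [cM]; rw [min_comm]; ring
    rw [e, min_comm, ← neg_sub, neg_sq] at this
    nlinarith

end Crest.Agent.R309
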