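import Crest.Agent.R309.DefsC

set_option autoImplicit false

namespace Crest.Agent.R309

open Finset

namespace HT

/-- positive rationals of height at most `2^H` -/
def Ht (q : ℚ) (H : ℕ) : Prop :=
  ∃ a b : ℕ, 0 < a ∧ 0 < b ∧ a ≤ 2 ^ H ∧ b ≤ 2 ^ H ∧ q = (a : ℚ) / b

theorem Ht.mono {q : ℚ} {H H' : ℕ} (h : Ht q H) (hH : H ≤ H') : Ht q H' := by
  obtain ⟨a, b, h1, h2, h3, h4, h5⟩ := h
  have := Nat.pow_le_pow_right (by norm_num : 0 < 2) hH
  exact ⟨a, b, h1, h2, h3.trans this, h4.trans this, h5⟩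

theorem Ht.one : Ht 1 0 := ⟨1, 1, by simp⟩

theorem Ht.mul {q q' : ℚ} {H H' : ℕ} (h : Ht q H) (h' : Ht q' H') : Ht (q * q') (H + H') := by
  obtain ⟨a, b, h1, h2, h3, h4, h5⟩ := h
  obtain ⟨a', b', h1', h2', h3', h4', h5'⟩ := h'
  refine ⟨a * a', b * b', Nat.mul_pos h1 h1', Nat.mul_pos h2 h2', ?_, ?_, ?_⟩
  · rw [pow_add]; exact Nat.mul_le_mul h3 h3'
  · rw [pow_add]; exact Nat.mul_le_mul h4 h4'
  · rw [h5, h5']; push_cast; rw [div_mul_div_comm]

theorem Ht.inv {q : ℚ} {H : ℕ} (h : Ht q H) : Ht q⁻¹ H := by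
  obtain ⟨a, b, h1, h2, h3, h4, h5⟩ := h
  exact ⟨b, a, h2, h1, h4, h3, by rw [h5, inv_div]⟩

theorem Ht.pow {q : ℚ} {H : ℕ} (h : Ht q H) (k : ℕ) : Ht (q ^ k) (k * H) := by
  induction k with
  | zero => simpa using Ht.one
  | succ k ih => rw [pow_succ, Nat.succ_mul]; exact ih.mul h

theorem Ht.zpow {q : ℚ} {H : ℕ} (h : Ht q H) (k : ℤ) (K : ℕ) (hk : |k| ≤ K) : Ht (q ^ k) (K * H) := by
  have hm : k.natAbs * H ≤ K * H := Nat.mul_le_mul_right _ (by rw [Int.abs_eq_natAbs] at hk; omega)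
  rcases Int.natAbs_eq k with e | e
  · rw [e, zpow_natCast]; exact (h.pow _).mono hm
  · rw [e, zpow_neg, zpow_natCast]; exact (h.pow _).inv.mono hm

theorem Ht.prod (f : ℕ → ℚ) (H m : ℕ) (h : ∀ v < m, Ht (f v) H) :
    Ht (∏ v ∈ range m, f v) (m * H) := by
  induction m with
  | zero => simpa using Ht.one
  | succ m ih =>
    rw [prod_range_succ, Nat.succ_mul]
    exact (ih fun v hv => h v (by omega)).mul (h m (by omega))

theorem Ht.fin {q : ℚ} {H : ℕ} (h : Ht q H) :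
    0 < q ∧ q.num.toNat < 2 ^ (H + 1) ∧ q.den < 2 ^ (H + 1) := by
  obtain ⟨a, b, h1, h2, h3, h4, h5⟩ := h
  have hp : 2 ^ H < 2 ^ (H + 1) := Nat.pow_lt_pow_right (by norm_num) (by omega)
  have e : q = ((a : ℤ) : ℚ) / ((b : ℤ) : ℚ) := by rw [h5]; push_cast; rfl
  have e' : q = Rat.divInt a b := by rw [e, Rat.divInt_eq_div]
  refine ⟨by rw [h5]; positivity, ?_, ?_⟩
  · have := Int.le_of_dvd (by omega) (Rat.num_dvd (a : ℤ) (b := (b : ℤ)) (by omega))
    rw [← e'] at this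
    omega
  · have := Int.le_of_dvd (by omega) (Rat.den_dvd (a : ℤ) (b : ℤ))
    rw [← e'] at this
    omega

theorem ht_succ (m : ℕ) (hm : 0 < m) : Ht (1 + 1 / (m : ℚ)) (m + 1) := by
  have h := (Nat.lt_two_pow_self (n := m + 1)).le
  refine ⟨m + 1, m, by omega, hm, h, by omega, ?_⟩
  have : (m : ℚ) ≠ 0 := by positivity
  push_cast
  field_simp

theorem abs_zcl (L : ℕ) (z : ℤ) : |zcl L z| ≤ L := by
  unfold zcl
  rw [abs_le]
  omega

end HT

open HT in
theorem HT_proof (hBij : BijStmt) : HtStmt := by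
  intro P hP s p hv x hx
  set n := nn P with hn
  have hn1 : 1 ≤ n := hP.pos
  have hJ : 0 < pJ n := by unfold pJ; positivity
  have hK0 : 0 < pK0 n := by unfold pK0; omega
  have hD : 0 < pD n := by unfold pD; positivity
  have hM : 0 < pM n := by unfold pM; omega
  have hJ' : 0 < pJ' n := by unfold pJ'; positivity
  have key : Ht (wq P s p (toL x)) (nV (gG P) *
      (pJ2 n * pD n * (pJ' n + 1) + pTt n * pD n * (pM n + 1) + pJ n * 2 * (n + 2 * n ^ 2 + 1))) := by
    unfold wq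
    refine Ht.prod _ _ _ fun v hv' => ?_
    split_ifs with hr
    · refine (((ht_succ _ hJ').zpow _ (pJ2 n * pD n) ?_).mul
        ((ht_succ _ hM).zpow _ (pTt n * pD n) ?_)).mono (by omega)
      · have h1 : s - pJ n ≤ pJ2 n := by have := hv.1; unfold pS at this; rw [← hn] at this; omega
        have h2 : ((s - pJ n : ℕ) : ℤ) ≤ pJ2 n := by exact_mod_cast h1
        rw [abs_neg, abs_mul, abs_abs, Nat.abs_cast]
        push_cast [-Nat.cast_sub]
        exact mul_le_mul h2 (abs_zcl _ _) (abs_nonneg _) (Nat.cast_nonneg _)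
      · rw [abs_mul]
        push_cast
        exact mul_le_mul (abs_zcl _ _) (abs_zcl _ _) (abs_nonneg _) (Nat.cast_nonneg _)
    · have hta : ta P v < nA (gG P) := by unfold isRoot at hr; omega
      have hw : pK0 n ≤ wd P (ta P v) := (hP.tree.own v hv' hta).1
      have hds := ((hBij P hP).1 x hx v hv').2 hr
      have hds0 : 0 ≤ ds P (toL x) v := le_max_left _ _
      obtain ⟨d, hd⟩ := Int.eq_ofNat_of_zero_le hds0
      rw [hd] at hds ⊢
      have hdn : d ≤ n * wd P (ta P v) := by exact_mod_cast hds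
      have hsz : (wd P (ta P v)).size ≤ n :=
        (single_le_sum (f := fun k => (wd P k).size) (fun _ _ => Nat.zero_le _)
          (mem_range.2 hta)).trans hP.hsz
      have hw2 : wd P (ta P v) ≤ 2 ^ n := (Nat.size_le.1 hsz).le
      have hL1 : d < Lv P v := by
        unfold Lv
        rw [← hn]
        have : n * wd P (ta P v) < 2 * n ^ 2 * wd P (ta P v) :=
          Nat.mul_lt_mul_of_pos_right (by nlinarith) (by omega)
        omega
      have hL2 : Lv P v ≤ 2 ^ (n + 2 * n ^ 2 + 1) := by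
        unfold Lv
        rw [← hn]
        calc 2 * n ^ 2 * wd P (ta P v) ≤ 2 ^ (2 * n ^ 2) * 2 ^ n :=
              Nat.mul_le_mul Nat.lt_two_pow_self.le hw2
          _ ≤ _ := by rw [← pow_add]; exact Nat.pow_le_pow_right (by norm_num) (by omega)
      have hL3 : Lv P v ^ 2 ≤ 2 ^ (2 * (n + 2 * n ^ 2 + 1)) := by
        rw [mul_comm, pow_mul]; exact Nat.pow_le_pow_left hL2 2
      have hL4 : d ^ 2 < Lv P v ^ 2 := Nat.pow_lt_pow_left hL1 (by norm_num)
      have hb : Ht (1 - ((d : ℤ) : ℚ) ^ 2 / (Lv P v : ℚ) ^ 2) (2 * (n + 2 * n ^ 2 + 1)) := by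
        refine ⟨Lv P v ^ 2 - d ^ 2, Lv P v ^ 2, by omega, by omega, by omega, hL3, ?_⟩
        have : (Lv P v : ℚ) ≠ 0 := by
          have : 0 < Lv P v := by omega
          positivity
        rw [Nat.cast_sub hL4.le]
        push_cast
        field_simp
      refine (hb.pow _).mono ?_
      have := Nat.mul_le_mul_right (2 * (n + 2 * n ^ 2 + 1)) (min_le_right s (pJ n))
      rw [← mul_assoc (pJ n)] at this
      exact this.trans (Nat.le_add_left _ _)
  exact (key.mono (Nat.mul_le_mul_right _ hP.hV)).fin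

end Crest.Agent.R309
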