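import Crest.Agent.R309.DefsC

/-! Row 309, task PT1, part 0: accessors and parameters are polynomial-time. -/

set_option autoImplicit false

namespace Crest.Agent.R309

open Finset Crest.Agent.PT Crest.Agent.QC Crest.Agent.R317 Crest.Agent.R300U

variable {α : Type} [Enc α]

@[fun_prop] theorem bt_gv {l : α → List Bin} {k : α → ℕ} (hl : PT l) (hk : PT k) :
    BT (fun a => gv (l a) (k a)) := by
  unfold gv; fun_prop

@[fun_prop] theorem pt_nV {G : α → Net} (hG : PT G) : PT (fun a => nV (G a)) := by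
  unfold nV; fun_prop

@[fun_prop] theorem pt_nA {G : α → Net} (hG : PT G) : PT (fun a => nA (G a)) := by
  unfold nA; fun_prop

@[fun_prop] theorem pt_tl {G : α → Net} {k : α → ℕ} (hG : PT G) (hk : PT k) :
    PT (fun a => tl (G a) (k a)) := by
  unfold tl; fun_prop

@[fun_prop] theorem pt_hd {G : α → Net} {k : α → ℕ} (hG : PT G) (hk : PT k) :
    PT (fun a => hd (G a) (k a)) := by
  unfold hd; fun_prop

@[fun_prop] theorem bt_cap {G : α → Net} {k : α → ℕ} (hG : PT G) (hk : PT k) :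
    BT (fun a => cap (G a) (k a)) := by
  unfold cap; fun_prop

@[fun_prop] theorem pt_dem {G : α → Net} {k : α → ℕ} (hG : PT G) (hk : PT k) :
    PT (fun a => dem (G a) (k a)) := by
  unfold dem; fun_prop

@[fun_prop] theorem pt_netv {G : α → Net} {l : α → List Bin} {v : α → ℕ} (hG : PT G) (hl : PT l)
    (hv : PT v) : PT (fun a => netv (G a) (l a) (v a)) := by
  unfold netv; fun_prop

@[fun_prop] theorem dt_FeasL {G : α → Net} {l : α → List Bin} (hG : PT G) (hl : PT l) :
    DT (fun a => FeasL (G a) (l a)) := by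
  unfold FeasL; fun_prop

@[fun_prop] theorem pt_gb {S : α → List (List Bool)} {v u : α → ℕ} (hS : PT S) (hv : PT v)
    (hu : PT u) : PT (fun a => gb (S a) (v a) (u a)) := by
  unfold gb; fun_prop

@[fun_prop] theorem pt_pJ {n : α → ℕ} (hn : PT n) : PT (fun a => pJ (n a)) := by
  unfold pJ; fun_prop

@[fun_prop] theorem pt_pK2 {n : α → ℕ} (hn : PT n) : PT (fun a => pK2 (n a)) := by
  unfold pK2; fun_prop

@[fun_prop] theorem pt_pK0 {n : α → ℕ} (hn : PT n) : PT (fun a => pK0 (n a)) := by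
  unfold pK0; fun_prop

@[fun_prop] theorem pt_pD {n : α → ℕ} (hn : PT n) : PT (fun a => pD (n a)) := by
  unfold pD; fun_prop

@[fun_prop] theorem pt_pM {n : α → ℕ} (hn : PT n) : PT (fun a => pM (n a)) := by
  unfold pM; fun_prop

@[fun_prop] theorem pt_pJ' {n : α → ℕ} (hn : PT n) : PT (fun a => pJ' (n a)) := by
  unfold pJ'; fun_prop

@[fun_prop] theorem pt_pJ2 {n : α → ℕ} (hn : PT n) : PT (fun a => pJ2 (n a)) := by
  unfold pJ2; fun_prop

@[fun_prop] theorem pt_pS {n : α → ℕ} (hn : PT n) : PT (fun a => pS (n a)) := by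
  unfold pS; fun_prop

@[fun_prop] theorem pt_pTt {n : α → ℕ} (hn : PT n) : PT (fun a => pTt (n a)) := by
  unfold pTt; fun_prop

@[fun_prop] theorem pt_pΛ {n : α → ℕ} (hn : PT n) : PT (fun a => pΛ (n a)) := by
  unfold pΛ; fun_prop

@[fun_prop] theorem pt_pCP {n : α → ℕ} (hn : PT n) : PT (fun a => pCP (n a)) := by
  unfold pCP; fun_prop

@[fun_prop] theorem pt_pC {n : α → ℕ} (hn : PT n) : PT (fun a => pC (n a)) := by
  unfold pC; fun_prop

@[fun_prop] theorem pt_pB1 {n : α → ℕ} (hn : PT n) : PT (fun a => pB1 (n a)) := by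
  unfold pB1; fun_prop

@[fun_prop] theorem pt_pT {n A : α → ℕ} (hn : PT n) (hA : PT A) : PT (fun a => pT (n a) (A a)) := by
  unfold pT; fun_prop

@[fun_prop] theorem pt_pH {n : α → ℕ} (hn : PT n) : PT (fun a => pH (n a)) := by
  unfold pH; fun_prop

@[fun_prop] theorem pt_pXi {n A : α → ℕ} (hn : PT n) (hA : PT A) :
    PT (fun a => pXi (n a) (A a)) := by
  unfold pXi; fun_prop

@[fun_prop] theorem pt_pN {n A : α → ℕ} (hn : PT n) (hA : PT A) : PT (fun a => pN (n a) (A a)) := by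
  unfold pN; fun_prop

@[fun_prop] theorem pt_gG {P : α → Pre} (hP : PT P) : PT (fun a => gG (P a)) := by
  unfold gG; fun_prop

@[fun_prop] theorem bt_lo {P : α → Pre} {k : α → ℕ} (hP : PT P) (hk : PT k) :
    BT (fun a => lo (P a) (k a)) := by
  unfold lo; fun_prop

@[fun_prop] theorem bt_wd {P : α → Pre} {k : α → ℕ} (hP : PT P) (hk : PT k) :
    BT (fun a => wd (P a) (k a)) := by
  unfold wd; fun_prop

@[fun_prop] theorem pt_inS {P : α → Pre} {v u : α → ℕ} (hP : PT P) (hv : PT v) (hu : PT u) :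
    PT (fun a => inS (P a) (v a) (u a)) := by
  unfold inS; fun_prop

@[fun_prop] theorem pt_ta {P : α → Pre} {v : α → ℕ} (hP : PT P) (hv : PT v) :
    PT (fun a => ta (P a) (v a)) := by
  unfold ta; fun_prop

@[fun_prop] theorem pt_nn {P : α → Pre} (hP : PT P) : PT (fun a => nn (P a)) := by
  unfold nn; fun_prop

@[fun_prop] theorem dt_isRoot {P : α → Pre} {v : α → ℕ} (hP : PT P) (hv : PT v) :
    DT (fun a => isRoot (P a) (v a)) := by
  unfold isRoot; fun_prop

@[fun_prop] theorem dt_isTree {P : α → Pre} {k : α → ℕ} (hP : PT P) (hk : PT k) :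
    DT (fun a => isTree (P a) (k a)) := by
  unfold isTree; fun_prop

@[fun_prop] theorem bt_uB {P : α → Pre} {k : α → ℕ} (hP : PT P) (hk : PT k) :
    BT (fun a => uB (P a) (k a)) := by
  unfold uB; fun_prop

@[fun_prop] theorem pt_sg {P : α → Pre} {v k : α → ℕ} (hP : PT P) (hv : PT v) (hk : PT k) :
    PT (fun a => sg (P a) (v a) (k a)) := by
  unfold sg; fun_prop

@[fun_prop] theorem bt_x0 {P : α → Pre} {l : α → List Bin} {k : α → ℕ} (hP : PT P) (hl : PT l)
    (hk : PT k) : BT (fun a => x0 (P a) (l a) (k a)) := by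
  unfold x0; fun_prop

@[fun_prop] theorem pt_Ev {P : α → Pre} {l : α → List Bin} {v : α → ℕ} (hP : PT P) (hl : PT l)
    (hv : PT v) : PT (fun a => Ev (P a) (l a) (v a)) := by
  unfold Ev; fun_prop

@[fun_prop] theorem pt_Tv {P : α → Pre} {l : α → List Bin} {v : α → ℕ} (hP : PT P) (hl : PT l)
    (hv : PT v) : PT (fun a => Tv (P a) (l a) (v a)) := by
  unfold Tv; fun_prop

@[fun_prop] theorem pt_dst {x y z : α → ℤ} (hx : PT x) (hy : PT y) (hz : PT z) :
    PT (fun a => dst (x a) (y a) (z a)) := by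
  unfold dst; fun_prop

@[fun_prop] theorem pt_ds {P : α → Pre} {l : α → List Bin} {v : α → ℕ} (hP : PT P) (hl : PT l)
    (hv : PT v) : PT (fun a => ds (P a) (l a) (v a)) := by
  unfold ds; fun_prop

@[fun_prop] theorem bt_Lv {P : α → Pre} {v : α → ℕ} (hP : PT P) (hv : PT v) :
    BT (fun a => Lv (P a) (v a)) := by
  unfold Lv; fun_prop

@[fun_prop] theorem zt_zcl {L : α → ℕ} {z : α → ℤ} (hL : PT L) (hz : PT z) :
    ZT (fun a => zcl (L a) (z a)) := by
  refine ZT.ofBound (L := L) (by unfold zcl; fun_prop) hL (fun a => ?_)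
  unfold zcl
  rw [abs_le]
  omega

@[fun_prop] theorem pt_bump {n v : α → ℕ} {p : α → List ℤ} {δ : α → ℤ} (hn : PT n) (hp : PT p)
    (hv : PT v) (hδ : PT δ) : PT (fun a => bump (n a) (p a) (v a) (δ a)) := by
  unfold bump; fun_prop

@[fun_prop] theorem pt_he {P : α → Pre} {k : α → ℕ} (hP : PT P) (hk : PT k) :
    PT (fun a => he (P a) (k a)) := by
  unfold he; fun_prop

@[fun_prop] theorem pt_aB {P : α → Pre} (hP : PT P) : PT (fun a => aB (P a)) := by
  unfold aB; fun_prop

@[fun_prop] theorem pt_b0 {P : α → Pre} (hP : PT P) : PT (fun a => b0 (P a)) := by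
  unfold b0; fun_prop

@[fun_prop] theorem pt_b1 {P : α → Pre} (hP : PT P) : PT (fun a => b1 (P a)) := by
  unfold b1; fun_prop

@[fun_prop] theorem pt_setL {N k v : α → ℕ} {l : α → List Bin} (hN : PT N) (hl : PT l) (hk : PT k)
    (hv : BT v) : PT (fun a => setL (N a) (l a) (k a) (v a)) := by
  unfold setL; fun_prop

@[fun_prop] theorem pt_zer {P : α → Pre} (hP : PT P) : PT (fun a => zer (P a)) := by
  unfold zer; fun_prop

@[fun_prop] theorem pt_bS {P : α → Pre} {A : α → ℕ} (hP : PT P) (hA : PT A) :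
    PT (fun a => bS (P a) (A a)) := by
  unfold bS; fun_prop

@[fun_prop] theorem pt_bC {P : α → Pre} {A : α → ℕ} (hP : PT P) (hA : PT A) :
    PT (fun a => bC (P a) (A a)) := by
  unfold bC; fun_prop

@[fun_prop] theorem pt_bE {P : α → Pre} {A : α → ℕ} (hP : PT P) (hA : PT A) :
    PT (fun a => bE (P a) (A a)) := by
  unfold bE; fun_prop

@[fun_prop] theorem pt_bP {P : α → Pre} {A : α → ℕ} (hP : PT P) (hA : PT A) :
    PT (fun a => bP (P a) (A a)) := by
  unfold bP; fun_prop

@[fun_prop] theorem pt_pPd {P : α → Pre} {A : α → ℕ} (hP : PT P) (hA : PT A) :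
    PT (fun a => pPd (P a) (A a)) := by
  unfold pPd; fun_prop

@[fun_prop] theorem pt_cand {P : α → Pre} {p : α → List ℤ} {q : α → ℕ} (hP : PT P) (hp : PT p)
    (hq : PT q) : PT (fun a => cand (P a) (p a) (q a)) := by
  unfold cand; fun_prop

@[fun_prop] theorem pt_tnet {r c b : α → List Bin} (hr : PT r) (hc : PT c) (hb : PT b) :
    PT (fun a => tnet (r a) (c a) (b a)) := by
  unfold tnet; fun_prop

end Crest.Agent.R309
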