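import Crest.Agent.R309.DefsC

/-! Row 309, task BIJ: states accepted by the soft model correspond to feasible flows. -/

set_option autoImplicit false

namespace Crest.Agent.R309

open Finset Crest.Agent.PT Crest.Agent.QC Crest.Agent.R317 Crest.Agent.R300U

namespace BIJ

theorem gv_toL {N : ℕ} (x : Fin N → ℕ) (k : Fin N) : gv (toL x) k = x k := by
  simp [gv, toL]

theorem gv_toL' {N : ℕ} (x : Fin N → ℕ) {k : ℕ} (hk : k < N) : gv (toL x) k = x ⟨k, hk⟩ :=
  gv_toL x ⟨k, hk⟩

theorem gv_mkL {N k : ℕ} (f : ℕ → Bin) (hk : k < N) : gv (mkL N f) k = (f k).val := by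
  unfold gv; rw [getD_mkL f _ hk]

theorem mkL_eq_toL {N : ℕ} (f : ℕ → Bin) (X : Fin N → ℕ) (h : ∀ k : Fin N, (f k).val = X k) :
    mkL N f = toL X := by
  unfold toL
  exact mkL_eq_ofFn f _ (fun k => by rw [← h k])

theorem toL_inj {N : ℕ} {x y : Fin N → ℕ} (h : toL x = toL y) : x = y := by
  funext k
  rw [← gv_toL x k, ← gv_toL y k, h]

theorem mem_box' {N : ℕ} {u x : Fin N → ℕ} : x ∈ box u ↔ ∀ k, x k ≤ u k := by
  unfold box
  rw [Fintype.mem_piFinset]
  simp

theorem mem_bx {P : Pre} {x : Fin (nA (gG P)) → ℕ} : x ∈ bx P ↔ ∀ k, x k ≤ uB P k := mem_box'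

theorem mem_flows {G : Net} {X : Fin (nA G) → ℕ} : X ∈ flows G ↔ FeasL G (toL X) := by
  classical
  unfold flows
  rw [mem_filter, mem_box']
  refine ⟨fun h => h.2, fun h => ⟨fun k => ?_, h⟩⟩
  have : gv (toL X) k ≤ cap G k := h.1 k k.2
  rwa [gv_toL] at this

/-- conservation defect of the set of `v` -/
def FL (P : Pre) (l : List Bin) (v : ℕ) : ℤ :=
  ∑ k ∈ range (nA (gG P)), sg P v k * bz (gv l k) -
    ∑ u ∈ range (nV (gG P)), (if inS P v u = true then dem (gG P) u else 0)

theorem FL_eq {P : Pre} (hw : WF (gG P)) (l : List Bin) (v : ℕ) :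
    FL P l v = ∑ u ∈ range (nV (gG P)),
      (if inS P v u = true then netv (gG P) l u - dem (gG P) u else 0) := by
  have h1 : ∑ u ∈ range (nV (gG P)), (if inS P v u = true then netv (gG P) l u else 0) =
      ∑ k ∈ range (nA (gG P)), sg P v k * bz (gv l k) := by
    have e : ∀ u ∈ range (nV (gG P)), (if inS P v u = true then netv (gG P) l u else 0) =
        ∑ k ∈ range (nA (gG P)),
          ((if tl (gG P) k = u then (if inS P v u = true then bz (gv l k) else 0) else 0) -
            (if hd (gG P) k = u then (if inS P v u = true then bz (gv l k) else 0) else 0)) := by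
      intro u _
      by_cases h : inS P v u = true
      · simp only [h, if_true, netv]
      · simp [h]
    rw [sum_congr rfl e, sum_comm]
    refine sum_congr rfl fun k hk => ?_
    have hk' := hw k (mem_range.1 hk)
    rw [sum_sub_distrib, sum_ite_eq, sum_ite_eq, if_pos (mem_range.2 hk'.1),
      if_pos (mem_range.2 hk'.2)]
    unfold sg
    split_ifs <;> simp
  unfold FL
  rw [← h1, ← sum_sub_distrib]
  refine sum_congr rfl fun u _ => ?_
  split_ifs <;> simp

theorem sg_ne {P : Pre} {v k : ℕ} :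
    sg P v k ≠ 0 ↔ inS P v (tl (gG P) k) ≠ inS P v (hd (gG P) k) := by
  unfold sg
  cases inS P v (tl (gG P) k) <;> cases inS P v (hd (gG P) k) <;> simp

theorem abs_sg_le (P : Pre) (v k : ℕ) : |sg P v k| ≤ 1 := by
  unfold sg
  cases inS P v (tl (gG P) k) <;> cases inS P v (hd (gG P) k) <;> simp

theorem sg_sq {P : Pre} (hP : Spec P) {v : ℕ} (hv : v < nV (gG P)) (hr : ¬ isRoot P v) :
    sg P v (ta P v) * sg P v (ta P v) = 1 := by
  have h := (hP.tree.own v hv (by unfold isRoot at hr; omega)).2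
  unfold sg
  revert h
  cases inS P v (tl (gG P) (ta P v)) <;> cases inS P v (hd (gG P) (ta P v)) <;> simp

theorem ta_inj {P : Pre} (hP : Spec P) {v v' : ℕ} (hv : v < nV (gG P)) (hv' : v' < nV (gG P))
    (hr : ta P v < nA (gG P)) (e : ta P v' = ta P v) : v = v' := by
  have h := (hP.tree.own v hv hr).2
  refine hP.tree.uniq v hv v' hv' (by rw [e]; exact hr) ?_
  rw [e]; exact h

theorem fnd_ta {P : Pre} (hP : Spec P) {v : ℕ} (hv : v < nV (gG P)) (hr : ta P v < nA (gG P)) :
    fnd (nV (gG P)) (fun v' => ta P v' = ta P v) = v := by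
  have h1 : fnd (nV (gG P)) (fun v' => ta P v' = ta P v) < nV (gG P) :=
    (fnd_lt_iff _ _).2 ⟨v, hv, rfl⟩
  have h2 := (fnd_spec (nV (gG P)) (fun v' => ta P v' = ta P v)).2.2 h1
  exact (ta_inj hP hv h1 hr h2).symm

/-- decomposition of the conservation defect -/
theorem FL_dec {P : Pre} (hP : Spec P) (l y : List Bin)
    (h : ∀ k < nA (gG P), ¬ isTree P k → gv l k = lo P k + gv y k) {v : ℕ} (hv : v < nV (gG P)) :
    FL P l v = Ev P y v +
      (if isRoot P v then 0 else sg P v (ta P v) * bz (gv l (ta P v))) := by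
  have key : ∑ k ∈ range (nA (gG P)), sg P v k * bz (gv l k) =
      ∑ k ∈ range (nA (gG P)), sg P v k * bz (x0 P y k) +
        ∑ k ∈ range (nA (gG P)), (if ta P v = k then sg P v k * bz (gv l k) else 0) := by
    rw [← sum_add_distrib]
    refine sum_congr rfl fun k hk => ?_
    have hk' := mem_range.1 hk
    by_cases ht : isTree P k
    · unfold x0
      rw [if_pos ht]
      by_cases e : ta P v = k
      · simp [e, bz]
      · have : sg P v k = 0 := by
          by_contra hs
          obtain ⟨v', hv', e'⟩ := ht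
          have := hP.tree.uniq v hv v' hv' (by rw [e']; exact hk') (by rw [e']; exact sg_ne.1 hs)
          exact e (by rw [this]; exact e')
        simp [this]
    · have e : ta P v ≠ k := fun e => ht ⟨v, hv, e⟩
      unfold x0
      rw [if_neg ht, if_neg e, h k hk' ht, add_zero]
  unfold FL Ev
  rw [key, sum_ite_eq]
  unfold isRoot
  by_cases hr : nA (gG P) ≤ ta P v
  · rw [if_neg (by simp only [mem_range]; omega), if_pos hr]; ring
  · rw [if_pos (by simp only [mem_range]; omega), if_neg hr]; ring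

theorem FL_zero {P : Pre} (hP : Spec P) {l : List Bin} (h : FeasL (gG P) l) (v : ℕ) :
    FL P l v = 0 := by
  rw [FL_eq hP.wf]
  refine sum_eq_zero fun u hu => ?_
  rw [h.2 u (mem_range.1 hu)]
  simp

theorem cons_of_FL {P : Pre} (hP : Spec P) {l : List Bin} (h : ∀ v < nV (gG P), FL P l v = 0) :
    All (nV (gG P)) (fun v => netv (gG P) l v = dem (gG P) v) := by
  intro u hu
  have := hP.tree.det (fun u => netv (gG P) l u - dem (gG P) u)
    (fun v hv => by rw [← FL_eq hP.wf]; exact h v hv) u hu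
  exact sub_eq_zero.1 this

/-- the state of a flow -/
def st (P : Pre) (X : Fin (nA (gG P)) → ℕ) : Fin (nA (gG P)) → ℕ :=
  fun k => if isTree P k then 0 else X k - lo P k

theorem st_mem {P : Pre} (hP : Spec P) {X : Fin (nA (gG P)) → ℕ} (hX : X ∈ flows (gG P)) :
    st P X ∈ bx P := by
  rw [mem_bx]
  intro k
  have := hP.rng.1 X hX k
  unfold st uB
  split_ifs <;> omega

theorem st_rel {P : Pre} (hP : Spec P) {X : Fin (nA (gG P)) → ℕ} (hX : X ∈ flows (gG P)) :
    ∀ k < nA (gG P), ¬ isTree P k → gv (toL X) k = lo P k + gv (toL (st P X)) k := by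
  intro k hk ht
  rw [gv_toL' _ hk, gv_toL' _ hk]
  have := hP.rng.1 X hX ⟨k, hk⟩
  unfold st
  simp only [if_neg ht] at this ⊢
  omega

theorem st_root {P : Pre} (hP : Spec P) {X : Fin (nA (gG P)) → ℕ} (hX : X ∈ flows (gG P))
    {v : ℕ} (hv : v < nV (gG P)) (hr : isRoot P v) : Ev P (toL (st P X)) v = 0 := by
  have h := FL_dec hP _ _ (st_rel hP hX) hv
  rw [FL_zero hP (mem_flows.1 hX), if_pos hr] at h
  linarith

theorem st_Tv {P : Pre} (hP : Spec P) {X : Fin (nA (gG P)) → ℕ} (hX : X ∈ flows (gG P))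
    {v : ℕ} (hv : v < nV (gG P)) (h : ta P v < nA (gG P)) :
    Tv P (toL (st P X)) v = X ⟨ta P v, h⟩ := by
  have hr : ¬ isRoot P v := by unfold isRoot; omega
  have h1 := FL_dec hP _ _ (st_rel hP hX) hv
  rw [FL_zero hP (mem_flows.1 hX), if_neg hr, gv_toL' _ h] at h1
  have h2 := sg_sq hP hv hr
  unfold Tv
  unfold bz at h1
  have : Ev P (toL (st P X)) v = -(sg P v (ta P v) * X ⟨ta P v, h⟩) := by linarith
  rw [this]
  linear_combination (X ⟨ta P v, h⟩ : ℤ) * h2

theorem dst_eq_zero {a b t : ℤ} : dst a b t = 0 ↔ a ≤ t ∧ t ≤ b := by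
  unfold dst
  constructor
  · intro h
    have h1 := le_max_right 0 (max (a - t) (t - b))
    have h2 := le_max_left (a - t) (t - b)
    have h3 := le_max_right (a - t) (t - b)
    constructor <;> omega
  · intro h
    omega

theorem st_acc {P : Pre} (hP : Spec P) {X : Fin (nA (gG P)) → ℕ} (hX : X ∈ flows (gG P)) :
    acc P (toL (st P X)) := by
  intro v hv
  by_cases hr : isRoot P v
  · simp only [if_pos hr]; exact st_root hP hX hv hr
  · simp only [if_neg hr]
    have h : ta P v < nA (gG P) := by unfold isRoot at hr; omega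
    unfold ds
    rw [dst_eq_zero, st_Tv hP hX hv h]
    have := hP.rng.1 X hX ⟨ta P v, h⟩
    unfold bz
    constructor
    · exact_mod_cast this.1
    · exact_mod_cast this.2

theorem st_comp {P : Pre} (hP : Spec P) {X : Fin (nA (gG P)) → ℕ} (hX : X ∈ flows (gG P)) :
    comp P (toL (st P X)) = toL X := by
  unfold comp
  refine mkL_eq_toL _ _ fun k => ?_
  by_cases ht : isTree P k
  · rw [if_pos ht]
    obtain ⟨v, hv, e⟩ := ht
    have h : ta P v < nA (gG P) := by rw [e]; exact k.2
    have e1 : fnd (nV (gG P)) (fun v' => ta P v' = k) = v := by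
      rw [← e]; exact fnd_ta hP hv h
    rw [e1, st_Tv hP hX hv h]
    simp only [Int.toNat_natCast]
    congr 1
    exact Fin.ext e
  · rw [if_neg ht]
    have := st_rel hP hX k k.2 ht
    rw [gv_toL] at this
    exact this.symm

theorem gv_comp_nt (P : Pre) (l : List Bin) {k : ℕ} (hk : k < nA (gG P)) (ht : ¬ isTree P k) :
    gv (comp P l) k = lo P k + gv l k := by
  unfold comp
  rw [gv_mkL _ hk, if_neg ht]

theorem gv_comp_t {P : Pre} (hP : Spec P) (l : List Bin) {v : ℕ} (hv : v < nV (gG P))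
    (h : ta P v < nA (gG P)) : gv (comp P l) (ta P v) = (Tv P l v).toNat := by
  unfold comp
  rw [gv_mkL _ h, if_pos ⟨v, hv, rfl⟩, fnd_ta hP hv h]

theorem st_uniq {P : Pre} {X y : Fin (nA (gG P)) → ℕ} (hy : y ∈ bx P)
    (e : comp P (toL y) = toL X) : y = st P X := by
  funext k
  unfold st
  by_cases ht : isTree P k
  · have := mem_bx.1 hy k
    unfold uB at this
    rw [if_pos ht] at this ⊢
    omega
  · rw [if_neg ht]
    have := gv_comp_nt P (toL y) k.2 ht
    rw [e, gv_toL, gv_toL] at this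
    omega

theorem hi_le_cap {P : Pre} (hP : Spec P) {k : ℕ} (hk : k < nA (gG P)) :
    lo P k + wd P k ≤ cap (gG P) k := by
  obtain ⟨X, hX, e⟩ := (hP.rng.2 ⟨k, hk⟩).2
  have : gv (toL X) k ≤ cap (gG P) k := (mem_flows.1 hX).1 k hk
  rw [gv_toL' _ hk] at this
  simp only at e
  omega

theorem comp_eq_toL (P : Pre) (l : List Bin) :
    comp P l = toL (fun k : Fin (nA (gG P)) => gv (comp P l) k) := by
  conv_lhs => unfold comp
  refine mkL_eq_toL _ _ fun k => ?_
  unfold comp
  rw [gv_mkL _ k.2]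

theorem comp_feas {P : Pre} (hP : Spec P) {x : Fin (nA (gG P)) → ℕ} (hx : x ∈ bx P)
    (ha : acc P (toL x)) : FeasL (gG P) (comp P (toL x)) := by
  have hT : ∀ v < nV (gG P), ¬ isRoot P v → (lo P (ta P v) : ℤ) ≤ Tv P (toL x) v ∧
      Tv P (toL x) v ≤ ((lo P (ta P v) + wd P (ta P v) : ℕ) : ℤ) := by
    intro v hv hr
    have := ha v hv
    simp only [if_neg hr] at this
    unfold ds at this
    exact dst_eq_zero.1 this
  refine ⟨fun k hk => ?_, cons_of_FL hP fun v hv => ?_⟩
  · have hc := hi_le_cap hP hk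
    by_cases ht : isTree P k
    · obtain ⟨v, hv, e⟩ := ht
      have h : ta P v < nA (gG P) := by rw [e]; exact hk
      have h1 := hT v hv (by unfold isRoot; omega)
      have h2 := gv_comp_t hP (toL x) hv h
      rw [e] at h1 h2
      show gv (comp P (toL x)) k ≤ cap (gG P) k
      omega
    · show gv (comp P (toL x)) k ≤ cap (gG P) k
      rw [gv_comp_nt P _ hk ht, gv_toL' _ hk]
      have := mem_bx.1 hx ⟨k, hk⟩
      unfold uB at this
      simp only [if_neg ht] at this
      omega
  · rw [FL_dec hP _ (toL x) (fun k hk ht => gv_comp_nt P _ hk ht) hv]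
    by_cases hr : isRoot P v
    · have := ha v hv
      simp only [if_pos hr] at this ⊢
      rw [this]; rfl
    · rw [if_neg hr, gv_comp_t hP _ hv (by unfold isRoot at hr; omega)]
      have h1 := (hT v hv hr).1
      have h2 : bz (Tv P (toL x) v).toNat = Tv P (toL x) v := by
        unfold bz; omega
      rw [h2]
      have h3 := sg_sq hP hv hr
      unfold Tv
      linear_combination (-Ev P (toL x) v) * h3

/-- difference of imbalances of two states -/
theorem Ev_diff {P : Pre} (hP : Spec P) {x y : Fin (nA (gG P)) → ℕ} (hx : x ∈ bx P) (hy : y ∈ bx P)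
    (v W : ℕ) (hW : ∀ k < nA (gG P), sg P v k ≠ 0 → wd P k ≤ W) :
    |Ev P (toL x) v - Ev P (toL y) v| ≤ (nn P : ℤ) * W := by
  have e : Ev P (toL x) v - Ev P (toL y) v = ∑ k ∈ range (nA (gG P)),
      sg P v k * (bz (x0 P (toL x) k) - bz (x0 P (toL y) k)) := by
    unfold Ev
    simp only [mul_sub, sum_sub_distrib]
    ring
  rw [e]
  refine (abs_sum_le_sum_abs _ _).trans ?_
  have h1 : ∀ k ∈ range (nA (gG P)),
      |sg P v k * (bz (x0 P (toL x) k) - bz (x0 P (toL y) k))| ≤ (W : ℤ) := by
    intro k hk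
    have hk' := mem_range.1 hk
    by_cases hs : sg P v k = 0
    · simp [hs]
    · have h2 := hW k hk' hs
      have h3 : |bz (x0 P (toL x) k) - bz (x0 P (toL y) k)| ≤ (W : ℤ) := by
        unfold x0 bz
        by_cases ht : isTree P k
        · simp [ht]
        · simp only [if_neg ht]
          rw [gv_toL' _ hk', gv_toL' _ hk']
          have a1 := mem_bx.1 hx ⟨k, hk'⟩
          have a2 := mem_bx.1 hy ⟨k, hk'⟩
          unfold uB at a1 a2
          simp only [if_neg ht] at a1 a2
          rw [abs_le]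
          constructor <;> omega
      rw [abs_mul]
      have h4 := abs_sg_le P v k
      have h5 := abs_nonneg (bz (x0 P (toL x) k) - bz (x0 P (toL y) k))
      nlinarith [abs_nonneg (sg P v k)]
  refine (sum_le_sum h1).trans ?_
  rw [sum_const, card_range, nsmul_eq_mul]
  have : (nA (gG P) : ℤ) ≤ nn P := by exact_mod_cast hP.hA
  exact mul_le_mul_of_nonneg_right this (by positivity)

theorem bounds {P : Pre} (hP : Spec P) {x : Fin (nA (gG P)) → ℕ} (hx : x ∈ bx P) {v : ℕ}
    (hv : v < nV (gG P)) : (isRoot P v → |Ev P (toL x) v| ≤ pD (nn P)) ∧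
      (¬ isRoot P v → ds P (toL x) v ≤ nn P * wd P (ta P v)) := by
  obtain ⟨X, hX⟩ := hP.ne
  have hy := st_mem hP hX
  constructor
  · intro hr
    have h := Ev_diff hP hx hy v (pK0 (nn P)) (fun k hk hs =>
      ((hP.tree.wide v hv k hk (sg_ne.1 hs)).2 hr).le)
    rw [st_root hP hX hv hr, sub_zero] at h
    unfold pD
    exact_mod_cast h
  · intro hr
    have ht : ta P v < nA (gG P) := by unfold isRoot at hr; omega
    have h := Ev_diff hP hx hy v (wd P (ta P v)) (fun k hk hs =>
      (hP.tree.wide v hv k hk (sg_ne.1 hs)).1 ht)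
    have h1 := st_Tv hP hX hv ht
    have h2 := hP.rng.1 X hX ⟨ta P v, ht⟩
    have h3 : |Tv P (toL x) v - Tv P (toL (st P X)) v| ≤ (nn P : ℤ) * wd P (ta P v) := by
      have : Tv P (toL x) v - Tv P (toL (st P X)) v =
          -sg P v (ta P v) * (Ev P (toL x) v - Ev P (toL (st P X)) v) := by
        unfold Tv; ring
      rw [this, abs_mul, abs_neg]
      have h4 := abs_sg_le P v (ta P v)
      have h5 := abs_nonneg (Ev P (toL x) v - Ev P (toL (st P X)) v)
      nlinarith [abs_nonneg (sg P v (ta P v))]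
    rw [h1, abs_le] at h3
    unfold ds dst bz
    simp only at h2
    have h6 : (0 : ℤ) ≤ (nn P : ℤ) * wd P (ta P v) := by positivity
    refine max_le h6 (max_le ?_ ?_) <;> omega

theorem wq_acc {P : Pre} (s : ℕ) (p : List ℤ) {l : List Bin} (ha : acc P l) : wq P s p l = 1 := by
  unfold wq
  refine prod_eq_one fun v hv => ?_
  have := ha v (mem_range.1 hv)
  by_cases hr : isRoot P v
  · simp only [if_pos hr] at this ⊢
    have e : zcl (pD (nn P)) (Ev P l v) = 0 := by
      rw [this]; unfold zcl; omega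
    rw [e]; simp
  · simp only [if_neg hr] at this ⊢
    rw [this]; simp

end BIJ

open BIJ in
theorem BIJ_proof : BijStmt := by
  intro P hP
  refine ⟨fun x hx v hv => bounds hP hx hv, fun x hx ha => ?_, fun X hX => ?_,
    fun s p x _ ha => ?_, ?_⟩
  · refine ⟨fun k => gv (comp P (toL x)) k, ?_, comp_eq_toL P _⟩
    rw [mem_flows, ← comp_eq_toL]
    exact comp_feas hP hx ha
  · exact ⟨st P X, st_mem hP hX, st_acc hP hX, st_comp hP hX, fun y hy e => st_uniq hy e,
      fun v hv h => st_Tv hP hX hv h⟩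
  · unfold πq
    rw [wq_acc s p ha]; simp
  · symm
    refine card_nbij' (st P) (fun x k => gv (comp P (toL x)) k) ?_ ?_ ?_ ?_
    · intro X hX
      simp only [coe_filter, Set.mem_ofPred_eq]
      exact ⟨st_mem hP hX, st_acc hP hX⟩
    · intro x hx
      simp only [coe_filter, Set.mem_ofPred_eq] at hx
      simp only [mem_coe]
      rw [mem_flows, ← comp_eq_toL]
      exact comp_feas hP hx.1 hx.2
    · intro X hX
      funext k
      simp only
      rw [st_comp hP hX, gv_toL]
    · intro x hx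
      simp only [coe_filter, Set.mem_ofPred_eq] at hx
      exact (st_uniq hx.1 (comp_eq_toL P _)).symm

end Crest.Agent.R309
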