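import Crest.Agent.R309.EST

/-!
Row 309: the counter.
-/

set_option autoImplicit false

namespace Crest.Agent.R309

open Finset Crest.Agent.PT Crest.Agent.QC Crest.Agent.R317 Crest.Agent.R300U

namespace CNT

theorem pi_pos (hRat : RatStmt) {P : Pre} (hP : Spec P) {s : ℕ} {p : List ℤ} (hv : Valid P s p)
    {x : Fin (nA (gG P)) → ℕ} (hx : x ∈ bx P) : 0 < πq P s p x := by
  have h := (((hRat P hP).2.2 x hx).2 s p hv).1.1
  by_contra hc
  rw [not_lt] at hc
  have : (2 : ℝ) ^ (pS (nn P) + nn P * pTt (nn P)) * πq P s p x ≤ 0 :=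
    mul_nonpos_of_nonneg_of_nonpos (by positivity) hc
  linarith

theorem Z_pos (hRat : RatStmt) (hBij : BijStmt) {P : Pre} (hP : Spec P) {s : ℕ} {p : List ℤ}
    (hv : Valid P s p) : 0 < Zq P s p := by
  obtain ⟨X, hX⟩ := hP.ne
  obtain ⟨x, hx, -⟩ := (hBij P hP).2.2.1 X hX
  exact sum_pos (fun y hy => pi_pos hRat hP hv hy) ⟨x, hx⟩

theorem arith {a N Z Zh e X : ℝ} (ha : 1 ≤ a) (hN : 0 ≤ N) (hZ : 0 < Z) (hZN : Z ≤ 2 * N)
    (h1 : |Zh - Z| ≤ Z / (8 * a)) (h2 : |e - N / Z| ≤ 3 / X) (hX : 512 * a ≤ X) :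
    (1 - 1 / a) * N ≤ Zh * e ∧ Zh * e ≤ (1 + 1 / a) * N := by
  have ha0 : 0 < a := by linarith
  set t := 1 / a with ht
  have ht0 : 0 < t := by positivity
  have ht1 : t ≤ 1 := by rw [ht, div_le_one ha0]; exact ha
  obtain ⟨η, hη, rfl⟩ : ∃ η : ℝ, |η| ≤ t / 8 ∧ Zh = Z * (1 + η) := by
    refine ⟨(Zh - Z) / Z, ?_, by field_simp; ring⟩
    rw [abs_div, abs_of_pos hZ, div_le_iff₀ hZ]
    calc |Zh - Z| ≤ Z / (8 * a) := h1
      _ = t / 8 * Z := by rw [ht]; field_simp
  have h3 : |Z * e - N| ≤ N * (t / 64) := by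
    have e1 : Z * e - N = Z * (e - N / Z) := by field_simp
    have e2 : 3 / X ≤ t / 128 := by
      calc 3 / X ≤ 3 / (512 * a) := div_le_div_of_nonneg_left (by norm_num) (by positivity) hX
        _ = 3 * t / 512 := by rw [ht]; field_simp
        _ ≤ t / 128 := by linarith
    rw [e1, abs_mul, abs_of_pos hZ]
    calc Z * |e - N / Z| ≤ (2 * N) * (t / 128) := by
          gcongr
          exact h2.trans e2
      _ = N * (t / 64) := by ring
  obtain ⟨a1, a2⟩ := abs_le.1 hη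
  obtain ⟨b1, b2⟩ := abs_le.1 h3
  have e3 : Z * (1 + η) * e = (1 + η) * (Z * e) := by ring
  rw [e3]
  have hNt : 0 ≤ N * t := by positivity
  have hNt1 : N * t ≤ N := mul_le_of_le_one_right hN ht1
  have hNtt : N * t * t ≤ N * t := mul_le_of_le_one_right hNt ht1
  have hNtt0 : 0 ≤ N * t * t := by positivity
  constructor
  · have : (1 - t / 8) * (N - N * (t / 64)) ≤ (1 + η) * (Z * e) :=
      mul_le_mul (by linarith) (by linarith) (by linarith) (by linarith)
    nlinarith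
  · have : (1 + η) * (Z * e) ≤ (1 + t / 8) * (N + N * (t / 64)) :=
      mul_le_mul (by linarith) (by linarith) (by linarith) (by linarith)
    nlinarith

end CNT

theorem CNT_proof (_hAv : AvStmt) (hEst : EstStmt) (hAnn : AnnStmt) (hBij : BijStmt)
    (hRat : RatStmt) : CntStmt := by
  intro P hP a ha
  obtain ⟨hs, hp⟩ := hAnn P hP a ha
  refine ⟨fun u => ?_, ?_⟩
  · unfold cntq estA
    have := (hs (fld u 0 (bP P a))).2.2.2
    positivity
  · let B1 : ℕ → Prop := fun u =>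
      ¬ (Zq P (pS (nn P)) (prep P a u).2.1 ≤ 2 * (flows (gG P)).card ∧
        |((prep P a u).2.2.1 : ℝ) - Zq P (pS (nn P)) (prep P a u).2.1| ≤
          Zq P (pS (nn P)) (prep P a u).2.1 / (8 * a))
    let B2 : ℕ → ℕ → Prop := fun w v => 3 / (pXi (nn P) a : ℝ) <
      |(estA P a (pS (nn P)) (prep P a w).2.1 v : ℝ) -
        (flows (gG P)).card / Zq P (pS (nn P)) (prep P a w).2.1|
    have h1 : Pb (bP P a + bE P a) (fun u => B1 (fld u 0 (bP P a))) ≤ (2 : ℝ)⁻¹ ^ (a + 1) := by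
      rw [Pb_fld (by omega) B1]
      exact hp _ le_rfl
    have h2 : Pb (bP P a + bE P a) (fun u => B2 (fld u 0 (bP P a)) (fld u (bP P a) (bE P a))) ≤
        (2 : ℝ)⁻¹ ^ (a + 1) := by
      rw [Pb_fld_fld (by omega) le_rfl B2]
      exact Av_le_const fun w _ => (hEst P hP a ha _ _ (hs w).2.1).2
    have h3 := Pb_le_add (c := bP P a + bE P a)
      (E := fun u => ¬ ((1 - 1 / (a : ℝ)) * (flows (gG P)).card ≤ cntq P a u ∧
        (cntq P a u : ℝ) ≤ (1 + 1 / (a : ℝ)) * (flows (gG P)).card))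
      (E₁ := fun u => B1 (fld u 0 (bP P a)))
      (E₂ := fun u => B2 (fld u 0 (bP P a)) (fld u (bP P a) (bE P a))) (fun u _ hu => by
        by_contra hc
        rw [not_or] at hc
        obtain ⟨c1, c2⟩ := hc
        simp only [B1, not_not] at c1
        simp only [B2, not_lt] at c2
        apply hu
        have hX : 512 * (a : ℝ) ≤ pXi (nn P) a := by exact_mod_cast EST.pXi_ge hP.pos a
        have := CNT.arith (by exact_mod_cast ha) (Nat.cast_nonneg _)
          (CNT.Z_pos hRat hBij hP (hs (fld u 0 (bP P a))).2.1) c1.1 c1.2 c2 hX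
        unfold cntq
        push_cast
        exact this)
    rw [Pb_not] at h3
    rw [pow_succ] at h1 h2
    linarith

end Crest.Agent.R309
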