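import Crest.Agent.R309.DefsC

/-!
Row 309, task FEAS: a feasible integer flow in polynomial time (capacity scaling with augmenting
paths).
-/

set_option autoImplicit false

namespace Crest.Agent.R309

open Finset Crest.Agent.PT Crest.Agent.QC Crest.Agent.R317 Crest.Agent.R300U

namespace FEAS

/-! ### The algorithm -/

def need (G : Net) (l : List Bin) (v : ℕ) : ℤ := dem G v - netv G l v

def clampL (G : Net) (f : ℕ → ℕ) : List Bin := mkL (nA G) (fun k => ⟨min (f k) (cap G k)⟩)

abbrev RS : Type := List (Bool × List Bin)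

def rb (R : RS) (v : ℕ) : Bool := (R.getD v (false, [])).1
def ry (R : RS) (v : ℕ) : List Bin := (R.getD v (false, [])).2

def fwd (G : Net) (D : ℕ) (l : List Bin) (R : RS) (k : ℕ) : Prop :=
  rb R (tl G k) = true ∧ rb R (hd G k) = false ∧ gv l k + D ≤ cap G k

def bwd (G : Net) (D : ℕ) (l : List Bin) (R : RS) (k : ℕ) : Prop :=
  rb R (hd G k) = true ∧ rb R (tl G k) = false ∧ D ≤ gv l k

instance (G : Net) (D : ℕ) (l : List Bin) (R : RS) (k : ℕ) : Decidable (fwd G D l R k) := by
  unfold fwd; infer_instance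

def setR (G : Net) (R : RS) (v : ℕ) (Y : List Bin) : RS :=
  mkL (nV G) (fun u => if u = v then (true, Y) else R.getD u (false, []))

def addL (G : Net) (Y : List Bin) (k D : ℕ) : List Bin :=
  clampL G (fun j => gv Y j + if j = k then D else 0)

def subL (G : Net) (Y : List Bin) (k D : ℕ) : List Bin :=
  clampL G (fun j => gv Y j - if j = k then D else 0)

def growAt (G : Net) (D : ℕ) (l : List Bin) (R : RS) (k : ℕ) : RS :=
  if k < nA G then
    (if fwd G D l R k then setR G R (hd G k) (addL G (ry R (tl G k)) k D)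
    else setR G R (tl G k) (subL G (ry R (hd G k)) k D))
  else R

noncomputable def grow (G : Net) (D : ℕ) (l : List Bin) (R : RS) : RS :=
  growAt G D l R (fnd (nA G) (fun k => fwd G D l R k ∨ bwd G D l R k))

def ini (G : Net) (D : ℕ) (l : List Bin) : RS :=
  mkL (nV G) (fun v => (decide (bz D ≤ need G l v), l))

noncomputable def clo (G : Net) (D : ℕ) (l : List Bin) (i : ℕ) : RS :=
  Nat.rec (ini G D l) (fun _ R => grow G D l R) i

noncomputable def sink (G : Net) (D : ℕ) (l : List Bin) (R : RS) : ℕ :=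
  fnd (nV G) (fun v => rb R v = true ∧ need G l v ≤ -bz D)

noncomputable def augR (G : Net) (D : ℕ) (l : List Bin) (R : RS) : List Bin :=
  clampL G (fun k => gv (if sink G D l R < nV G then ry R (sink G D l R) else l) k)

noncomputable def aug (G : Net) (D : ℕ) (l : List Bin) : List Bin := augR G D l (clo G D l (nV G))

noncomputable def phase (G : Net) (D : ℕ) (l : List Bin) (i : ℕ) : List Bin :=
  Nat.rec l (fun _ l => aug G D l) i

def top (G : Net) : ℕ := (∑ v ∈ range (nV G), (dem G v).toNat).size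

noncomputable def run (G : Net) (i : ℕ) : List Bin :=
  Nat.rec (clampL G (fun _ => 0)) (fun i l => phase G (2 ^ (top G - 1 - i)) l (nA G + nV G)) i

noncomputable def fe (G : Net) : List Bin := clampL G (fun k => gv (run G (top G)) k)

/-! ### Correctness -/

theorem gv_clampL (G : Net) (f : ℕ → ℕ) {k : ℕ} (hk : k < nA G) :
    gv (clampL G f) k = min (f k) (cap G k) := by
  unfold gv clampL; rw [getD_mkL _ _ hk]

def Cap (G : Net) (l : List Bin) : Prop := ∀ k < nA G, gv l k ≤ cap G k

theorem cap_clampL (G : Net) (f : ℕ → ℕ) : Cap G (clampL G f) := fun k hk => by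
  rw [gv_clampL G f hk]; exact min_le_right _ _

def nf (G : Net) (x : ℕ → ℤ) (v : ℕ) : ℤ :=
  ∑ k ∈ range (nA G), ((if tl G k = v then x k else 0) - (if hd G k = v then x k else 0))

theorem netv_eq (G : Net) (l : List Bin) (v : ℕ) : netv G l v = nf G (fun k => gv l k) v := rfl

theorem netv_congr (G : Net) {l l' : List Bin} (h : ∀ k < nA G, gv l k = gv l' k) (v : ℕ) :
    netv G l v = netv G l' v := by
  unfold netv
  exact sum_congr rfl fun k hk => by rw [h k (mem_range.1 hk)]

theorem netv_single (G : Net) {l l' : List Bin} {k : ℕ} (hk : k < nA G) (c : ℤ)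
    (h : ∀ j < nA G, (gv l' j : ℤ) = gv l j + if j = k then c else 0) (v : ℕ) :
    netv G l' v = netv G l v + ((if tl G k = v then c else 0) - (if hd G k = v then c else 0)) := by
  unfold netv bz
  have e : ((if tl G k = v then c else 0) - (if hd G k = v then c else 0)) =
      ∑ j ∈ range (nA G), if j = k then
        ((if tl G j = v then c else 0) - (if hd G j = v then c else 0)) else 0 := by
    rw [sum_ite_eq' (range (nA G)) k, if_pos (mem_range.2 hk)]
  rw [e, ← sum_add_distrib]
  refine sum_congr rfl fun j hj => ?_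
  rw [h j (mem_range.1 hj)]
  split_ifs <;> ring

theorem cut (G : Net) (hG : WF G) (S : ℕ → Bool) (x : ℕ → ℤ) :
    ∑ v ∈ range (nV G), (if S v = true then nf G x v else 0) =
      ∑ k ∈ range (nA G), ((if S (tl G k) = true then x k else 0) -
        (if S (hd G k) = true then x k else 0)) := by
  have e : ∀ v ∈ range (nV G), (if S v = true then nf G x v else 0) =
      ∑ k ∈ range (nA G), ((if tl G k = v then (if S v = true then x k else 0) else 0) -
        (if hd G k = v then (if S v = true then x k else 0) else 0)) := by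
    intro v _
    unfold nf
    split_ifs <;> simp
  rw [sum_congr rfl e, sum_comm]
  refine sum_congr rfl fun k hk => ?_
  obtain ⟨h1, h2⟩ := hG k (mem_range.1 hk)
  rw [sum_sub_distrib, sum_ite_eq, sum_ite_eq, if_pos (mem_range.2 h1), if_pos (mem_range.2 h2)]

theorem getD_setR (G : Net) (R : RS) (v : ℕ) (Y : List Bin) {u : ℕ} (hu : u < nV G) :
    (setR G R v Y).getD u (false, []) = if u = v then (true, Y) else R.getD u (false, []) := by
  unfold setR; rw [getD_mkL _ _ hu]

theorem rb_setR (G : Net) (R : RS) (v : ℕ) (Y : List Bin) {u : ℕ} (hu : u < nV G) :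
    rb (setR G R v Y) u = if u = v then true else rb R u := by
  unfold rb; rw [getD_setR G R v Y hu]; split_ifs <;> rfl

theorem ry_setR (G : Net) (R : RS) (v : ℕ) (Y : List Bin) {u : ℕ} (hu : u < nV G) :
    ry (setR G R v Y) u = if u = v then Y else ry R u := by
  unfold ry; rw [getD_setR G R v Y hu]; split_ifs <;> rfl

/-- what a reached node carries -/
def Carry (G : Net) (D : ℕ) (l : List Bin) (R : RS) (v : ℕ) (Y : List Bin) : Prop :=
  Cap G Y ∧ (∀ k < nA G, gv Y k ≠ gv l k → rb R (tl G k) = true ∧ rb R (hd G k) = true) ∧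
    ∃ s < nV G, (D : ℤ) ≤ need G l s ∧
      ∀ u, netv G Y u = netv G l u + ((if s = u then (D : ℤ) else 0) - (if v = u then (D : ℤ) else 0))

def Inv (G : Net) (D : ℕ) (l : List Bin) (R : RS) : Prop :=
  (∀ v < nV G, rb R v = true → Carry G D l R v (ry R v)) ∧
    ∀ v < nV G, (D : ℤ) ≤ need G l v → rb R v = true

theorem inv_ini (G : Net) (D : ℕ) (l : List Bin) (hl : Cap G l) : Inv G D l (ini G D l) := by
  have e : ∀ v < nV G, (ini G D l).getD v (false, []) = (decide (bz D ≤ need G l v), l) :=
    fun v hv => by unfold ini; rw [getD_mkL _ _ hv]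
  constructor
  · intro v hv h
    have e1 : ry (ini G D l) v = l := by unfold ry; rw [e v hv]
    have e2 : (D : ℤ) ≤ need G l v := by
      unfold rb at h; rw [e v hv] at h; exact of_decide_eq_true h
    rw [e1]
    exact ⟨hl, fun k _ h => absurd rfl h, v, hv, e2, fun u => by simp⟩
  · intro v hv h
    unfold rb; rw [e v hv]; exact decide_eq_true h

theorem inv_setR (G : Net) (hG : WF G) (D : ℕ) (l : List Bin) (R : RS) (h : Inv G D l R) (v : ℕ)
    (Y : List Bin) (hY : Carry G D l (setR G R v Y) v Y) : Inv G D l (setR G R v Y) := by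
  have mono : ∀ u < nV G, rb R u = true → rb (setR G R v Y) u = true := fun u hu h => by
    rw [rb_setR G R v Y hu]; split_ifs <;> simp [h]
  constructor
  · intro u hu hb
    rw [ry_setR G R v Y hu]
    rw [rb_setR G R v Y hu] at hb
    split_ifs at hb ⊢ with e
    · rw [e]; exact hY
    · obtain ⟨h1, h2, h3⟩ := h.1 u hu hb
      exact ⟨h1, fun k hk hne => ⟨mono _ (hG k hk).1 (h2 k hk hne).1,
        mono _ (hG k hk).2 (h2 k hk hne).2⟩, h3⟩
  · exact fun u hu hn => mono u hu (h.2 u hu hn)

def cnt (G : Net) (R : RS) : ℕ := ((range (nV G)).filter (fun v => rb R v = true)).card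

theorem cnt_setR (G : Net) (R : RS) (v : ℕ) (Y : List Bin) (hv : v < nV G) (hb : rb R v = false) :
    cnt G (setR G R v Y) = cnt G R + 1 := by
  unfold cnt
  have : (range (nV G)).filter (fun u => rb (setR G R v Y) u = true) =
      insert v ((range (nV G)).filter (fun u => rb R u = true)) := by
    ext u
    simp only [mem_filter, mem_range, mem_insert]
    constructor
    · rintro ⟨h1, h2⟩
      rw [rb_setR G R v Y h1] at h2
      split_ifs at h2 with e
      · exact Or.inl e
      · exact Or.inr ⟨h1, h2⟩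
    · rintro (e | ⟨h1, h2⟩)
      · subst e; exact ⟨hv, by rw [rb_setR G R u Y hv, if_pos rfl]⟩
      · exact ⟨h1, by rw [rb_setR G R v Y h1]; split_ifs <;> simp [h2]⟩
  rw [this, card_insert_of_notMem (by simp [hb])]

def Closed (G : Net) (D : ℕ) (l : List Bin) (R : RS) : Prop :=
  ∀ k < nA G, ¬ (fwd G D l R k ∨ bwd G D l R k)

theorem grow_spec (G : Net) (hG : WF G) (D : ℕ) (l : List Bin) (R : RS) (h : Inv G D l R) :
    Inv G D l (grow G D l R) ∧
      ((Closed G D l R ∧ grow G D l R = R) ∨ cnt G (grow G D l R) = cnt G R + 1) := by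
  unfold grow
  obtain ⟨k, hk⟩ : ∃ k, k = fnd (nA G) (fun k => fwd G D l R k ∨ bwd G D l R k) := ⟨_, rfl⟩
  rw [← hk]
  unfold growAt
  by_cases hlt : k < nA G
  · have hp : fwd G D l R k ∨ bwd G D l R k := by
      have := (fnd_spec (nA G) (fun k => fwd G D l R k ∨ bwd G D l R k)).2.2 (hk ▸ hlt)
      rwa [← hk] at this
    obtain ⟨ht, hh⟩ := hG k hlt
    rw [if_pos hlt]
    by_cases hf : fwd G D l R k
    · rw [if_pos hf]
      obtain ⟨f1, f2, f3⟩ := hf
      refine ⟨inv_setR G hG D l R h _ _ ?_, Or.inr (cnt_setR G R _ _ hh f2)⟩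
      obtain ⟨c1, c2, s, hs, c3, c4⟩ := h.1 _ ht f1
      have e0 : gv (ry R (tl G k)) k = gv l k := by
        by_contra hne
        have := (c2 k hlt hne).2
        rw [f2] at this; exact absurd this (by simp)
      have e1 : ∀ j < nA G, gv (addL G (ry R (tl G k)) k D) j =
          gv (ry R (tl G k)) j + if j = k then D else 0 := by
        intro j hj
        unfold addL
        rw [gv_clampL G _ hj]
        apply min_eq_left
        split_ifs with e
        · rw [e, e0]; exact f3
        · exact c1 j hj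
      have mono : ∀ u < nV G, rb R u = true →
          rb (setR G R (hd G k) (addL G (ry R (tl G k)) k D)) u = true := fun u hu h => by
        rw [rb_setR G R _ _ hu]; split_ifs <;> simp [h]
      refine ⟨cap_clampL G _, fun j hj hne => ?_, s, hs, c3, fun u => ?_⟩
      · by_cases e : j = k
        · subst e
          exact ⟨mono _ ht f1, by rw [rb_setR G R _ _ hh, if_pos rfl]⟩
        · rw [e1 j hj, if_neg e, add_zero] at hne
          exact ⟨mono _ (hG j hj).1 (c2 j hj hne).1, mono _ (hG j hj).2 (c2 j hj hne).2⟩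
      · rw [netv_single G hlt (D : ℤ) (l := ry R (tl G k)) (fun j hj => by
          rw [e1 j hj]; split_ifs <;> simp), c4]
        ring
    · rw [if_neg hf]
      obtain ⟨f1, f2, f3⟩ := hp.resolve_left hf
      refine ⟨inv_setR G hG D l R h _ _ ?_, Or.inr (cnt_setR G R _ _ ht f2)⟩
      obtain ⟨c1, c2, s, hs, c3, c4⟩ := h.1 _ hh f1
      have e0 : gv (ry R (hd G k)) k = gv l k := by
        by_contra hne
        have := (c2 k hlt hne).1
        rw [f2] at this; exact absurd this (by simp)
      have e1 : ∀ j < nA G, gv (subL G (ry R (hd G k)) k D) j =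
          gv (ry R (hd G k)) j - if j = k then D else 0 := by
        intro j hj
        unfold subL
        rw [gv_clampL G _ hj]
        exact min_eq_left ((Nat.sub_le _ _).trans (c1 j hj))
      have mono : ∀ u < nV G, rb R u = true →
          rb (setR G R (tl G k) (subL G (ry R (hd G k)) k D)) u = true := fun u hu h => by
        rw [rb_setR G R _ _ hu]; split_ifs <;> simp [h]
      refine ⟨cap_clampL G _, fun j hj hne => ?_, s, hs, c3, fun u => ?_⟩
      · by_cases e : j = k
        · subst e
          exact ⟨by rw [rb_setR G R _ _ ht, if_pos rfl], mono _ hh f1⟩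
        · rw [e1 j hj, if_neg e, Nat.sub_zero] at hne
          exact ⟨mono _ (hG j hj).1 (c2 j hj hne).1, mono _ (hG j hj).2 (c2 j hj hne).2⟩
      · rw [netv_single G hlt (-(D : ℤ)) (l := ry R (hd G k)) (fun j hj => by
          rw [e1 j hj]
          split_ifs with e
          · subst e; rw [e0]; omega
          · simp), c4]
        split_ifs <;> ring
  · rw [if_neg hlt]
    refine ⟨h, Or.inl ⟨fun j hj hp => hlt ?_, rfl⟩⟩
    rw [hk]; exact (fnd_lt_iff _ _).2 ⟨j, hj, hp⟩

theorem clo_succ (G : Net) (D : ℕ) (l : List Bin) (i : ℕ) :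
    clo G D l (i + 1) = grow G D l (clo G D l i) := rfl

theorem clo_spec (G : Net) (hG : WF G) (D : ℕ) (l : List Bin) (hl : Cap G l) (i : ℕ) :
    Inv G D l (clo G D l i) ∧ (Closed G D l (clo G D l i) ∨ i ≤ cnt G (clo G D l i)) := by
  induction i with
  | zero => exact ⟨inv_ini G D l hl, Or.inr (Nat.zero_le _)⟩
  | succ i ih =>
    rw [clo_succ]
    obtain ⟨h1, h2⟩ := grow_spec G hG D l _ ih.1
    refine ⟨h1, ?_⟩
    rcases h2 with ⟨h2, h3⟩ | h2
    · left; rw [h3]; exact h2
    · rcases ih.2 with h3 | h3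
      · left
        have : grow G D l (clo G D l i) = clo G D l i := by
          unfold grow growAt
          rw [if_neg]
          rw [fnd_lt_iff]
          rintro ⟨j, hj, hp⟩
          exact h3 j hj hp
        rw [this]; exact h3
      · right; omega

theorem clo_closed (G : Net) (hG : WF G) (D : ℕ) (l : List Bin) (hl : Cap G l) :
    Closed G D l (clo G D l (nV G)) := by
  rcases (clo_spec G hG D l hl (nV G)).2 with h | h
  · exact h
  · have hall : (range (nV G)).filter (fun v => rb (clo G D l (nV G)) v = true) = range (nV G) :=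
      eq_of_subset_of_card_le (filter_subset _ _) (by rw [card_range]; exact h)
    have hb : ∀ v < nV G, rb (clo G D l (nV G)) v = true := fun v hv => by
      have : v ∈ (range (nV G)).filter (fun v => rb (clo G D l (nV G)) v = true) := by
        rw [hall]; exact mem_range.2 hv
      exact (mem_filter.1 this).2
    rintro k hk (⟨-, h2, -⟩ | ⟨-, h2, -⟩)
    · rw [hb _ (hG k hk).2] at h2; exact absurd h2 (by simp)
    · rw [hb _ (hG k hk).1] at h2; exact absurd h2 (by simp)

def Np (G : Net) (l : List Bin) : ℤ := ∑ v ∈ range (nV G), max (need G l v) 0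

theorem Np_congr (G : Net) {l l' : List Bin} (h : ∀ k < nA G, gv l k = gv l' k) :
    Np G l = Np G l' := by
  unfold Np need
  exact sum_congr rfl fun v _ => by rw [netv_congr G h]

theorem cut_need (G : Net) (hG : WF G) (X : List Bin) (hX : FeasL G X) (l : List Bin)
    (S : ℕ → Bool) : ∑ v ∈ range (nV G), (if S v = true then need G l v else 0) =
      ∑ k ∈ range (nA G), ((if S (tl G k) = true then ((gv X k : ℤ) - gv l k) else 0) -
        (if S (hd G k) = true then ((gv X k : ℤ) - gv l k) else 0)) := by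
  rw [← cut G hG S (fun k => (gv X k : ℤ) - gv l k)]
  refine sum_congr rfl fun v hv => ?_
  congr 1
  unfold need
  rw [← hX.2 v (mem_range.1 hv)]
  unfold netv nf bz
  rw [← sum_sub_distrib]
  refine sum_congr rfl fun k _ => ?_
  split_ifs <;> ring

theorem aug_spec (G : Net) (hG : WF G) (X : List Bin) (hX : FeasL G X) (D : ℕ) (hD : 1 ≤ D)
    (l : List Bin) (hl : Cap G l) :
    Np G (aug G D l) ≤ max (Np G l - D) ((nA G + nV G : ℕ) * ((D : ℤ) - 1)) := by
  unfold aug augR
  obtain ⟨R, hR⟩ : ∃ R, R = clo G D l (nV G) := ⟨_, rfl⟩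
  have hI : Inv G D l R := hR ▸ (clo_spec G hG D l hl _).1
  have hC : Closed G D l R := hR ▸ clo_closed G hG D l hl
  rw [← hR]
  obtain ⟨v, hv⟩ : ∃ v, v = sink G D l R := ⟨_, rfl⟩
  rw [← hv]
  by_cases hlt : v < nV G
  · rw [if_pos hlt]
    have hp : rb R v = true ∧ need G l v ≤ -bz D := by
      have := (fnd_spec (nV G) (fun v => rb R v = true ∧ need G l v ≤ -bz D)).2.2
        (by unfold sink at hv; exact hv ▸ hlt)
      unfold sink at hv
      rwa [← hv] at this
    obtain ⟨c1, -, s, hs, c3, c4⟩ := hI.1 v hlt hp.1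
    have h2 := hp.2
    unfold bz at h2
    refine le_trans ?_ (le_max_left _ _)
    rw [Np_congr G (l' := ry R v) (fun k hk => by
      rw [gv_clampL G _ hk]; exact min_eq_left (c1 k hk))]
    have e : (D : ℤ) = ∑ u ∈ range (nV G), if s = u then (D : ℤ) else 0 := by
      rw [sum_ite_eq, if_pos (mem_range.2 hs)]
    unfold Np
    rw [e, ← sum_sub_distrib]
    refine sum_le_sum fun u _ => ?_
    have e2 : need G (ry R v) u = need G l u -
        ((if s = u then (D : ℤ) else 0) - (if v = u then (D : ℤ) else 0)) := by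
      unfold need; rw [c4]; ring
    rw [e2]
    split_ifs with a b b
    · subst a; subst b; omega
    · subst a; omega
    · subst b; omega
    · omega
  · rw [if_neg hlt]
    refine le_trans ?_ (le_max_right _ _)
    rw [Np_congr G (l' := l) (fun k hk => by
      rw [gv_clampL G _ hk]; exact min_eq_left (hl k hk))]
    have hns : ∀ u < nV G, rb R u = true → -(D : ℤ) < need G l u := by
      intro u hu hb
      by_contra h
      apply hlt
      rw [hv]; unfold sink
      exact (fnd_lt_iff _ _).2 ⟨u, hu, hb, by unfold bz; omega⟩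
    have h1 : Np G l ≤ ∑ u ∈ range (nV G), ((if rb R u = true then need G l u else 0) +
        ((D : ℤ) - 1)) := by
      refine sum_le_sum fun u hu => ?_
      have hu' := mem_range.1 hu
      split_ifs with hb
      · have := hns u hu' hb; omega
      · have : ¬ (D : ℤ) ≤ need G l u := fun h => hb (hI.2 u hu' h)
        omega
    rw [sum_add_distrib, cut_need G hG X hX l (rb R), sum_const, card_range] at h1
    have h2 : ∑ k ∈ range (nA G), ((if rb R (tl G k) = true then ((gv X k : ℤ) - gv l k) else 0) -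
        (if rb R (hd G k) = true then ((gv X k : ℤ) - gv l k) else 0)) ≤
        ∑ _k ∈ range (nA G), ((D : ℤ) - 1) := by
      refine sum_le_sum fun k hk => ?_
      have hk' := mem_range.1 hk
      have h3 := hC k hk'
      have h4 := hX.1 k hk'
      unfold fwd bwd at h3
      split_ifs with a b b
      · omega
      · have : ¬ gv l k + D ≤ cap G k := fun h => h3 (Or.inl ⟨a, by simpa using b, h⟩)
        simp only at h4
        omega
      · have : ¬ D ≤ gv l k := fun h => h3 (Or.inr ⟨b, by simpa using a, h⟩)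
        omega
      · omega
    rw [sum_const, card_range] at h2
    simp only [nsmul_eq_mul] at h1 h2
    push_cast
    nlinarith

theorem cap_aug (G : Net) (D : ℕ) (l : List Bin) : Cap G (aug G D l) := cap_clampL G _

theorem phase_succ (G : Net) (D : ℕ) (l : List Bin) (i : ℕ) :
    phase G D l (i + 1) = aug G D (phase G D l i) := rfl

theorem phase_spec (G : Net) (hG : WF G) (X : List Bin) (hX : FeasL G X) (D : ℕ) (hD : 1 ≤ D)
    (l : List Bin) (hl : Cap G l) (i : ℕ) : Cap G (phase G D l i) ∧
      Np G (phase G D l i) ≤ max (Np G l - i * D) ((nA G + nV G : ℕ) * ((D : ℤ) - 1)) := by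
  induction i with
  | zero => exact ⟨hl, by simp [phase]⟩
  | succ i ih =>
    rw [phase_succ]
    refine ⟨cap_aug G D _, (aug_spec G hG X hX D hD _ ih.1).trans ?_⟩
    have h := ih.2
    have e : Np G l - ((i + 1 : ℕ) : ℤ) * D = Np G l - i * D - D := by push_cast; ring
    rw [e]
    omega

theorem run_succ (G : Net) (i : ℕ) :
    run G (i + 1) = phase G (2 ^ (top G - 1 - i)) (run G i) (nA G + nV G) := rfl

theorem run_spec (G : Net) (hG : WF G) (X : List Bin) (hX : FeasL G X) (i : ℕ) (hi : i ≤ top G) :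
    Cap G (run G i) ∧ Np G (run G i) ≤ (nA G + nV G : ℕ) * ((2 : ℤ) ^ (top G - i) - 1) := by
  induction i with
  | zero =>
    refine ⟨cap_clampL G _, ?_⟩
    have e : Np G (run G 0) = ((∑ v ∈ range (nV G), (dem G v).toNat : ℕ) : ℤ) := by
      unfold Np need
      push_cast
      refine sum_congr rfl fun v _ => ?_
      have : netv G (run G 0) v = 0 := by
        unfold netv
        refine sum_eq_zero fun k hk => ?_
        have : gv (run G 0) k = 0 := by
          show gv (clampL G (fun _ => 0)) k = 0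
          rw [gv_clampL G _ (mem_range.1 hk)]; simp
        rw [this]; simp [bz]
      rw [this]; omega
    rw [e, Nat.sub_zero]
    have h1 : ∑ v ∈ range (nV G), (dem G v).toNat < 2 ^ top G := Nat.lt_size_self _
    have h2 : ((∑ v ∈ range (nV G), (dem G v).toNat : ℕ) : ℤ) ≤ 2 ^ top G - 1 := by
      have : ((∑ v ∈ range (nV G), (dem G v).toNat : ℕ) : ℤ) < ((2 ^ top G : ℕ) : ℤ) := by
        exact_mod_cast h1
      push_cast at this ⊢
      omega
    have h3 : (0 : ℤ) ≤ 2 ^ top G - 1 := by
      have : (1 : ℤ) ≤ 2 ^ top G := one_le_pow₀ (by norm_num)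
      omega
    rcases Nat.eq_zero_or_pos (nV G) with h | h
    · rw [h]; simp only [range_zero, sum_empty, Nat.cast_zero]; positivity
    · have : (1 : ℤ) ≤ (nA G + nV G : ℕ) := by exact_mod_cast (by omega : 1 ≤ nA G + nV G)
      nlinarith
  | succ i ih =>
    obtain ⟨h1, h2⟩ := ih (by omega)
    rw [run_succ]
    obtain ⟨h3, h4⟩ := phase_spec G hG X hX (2 ^ (top G - 1 - i)) Nat.one_le_two_pow _ h1
      (nA G + nV G)
    refine ⟨h3, h4.trans ?_⟩
    have e1 : top G - i = top G - 1 - i + 1 := by omega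
    have e2 : top G - (i + 1) = top G - 1 - i := by omega
    rw [e1, pow_succ] at h2
    rw [e2]
    push_cast at h2 ⊢
    apply max_le
    · nlinarith
    · exact le_rfl

theorem gv_toL {N : ℕ} (x : Fin N → ℕ) (k : Fin N) : gv (toL x) k = x k := by
  unfold gv toL; rw [getD_ofFn]

theorem fe_spec (G : Net) (hG : WF G) (hne : (flows G).Nonempty) : ∃ X ∈ flows G, fe G = toL X := by
  classical
  obtain ⟨X₀, hX₀⟩ := hne
  have hX : FeasL G (toL X₀) := by
    unfold flows at hX₀; exact (mem_filter.1 hX₀).2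
  obtain ⟨h1, h2⟩ := run_spec G hG _ hX (top G) le_rfl
  rw [Nat.sub_self, pow_zero, sub_self, mul_zero] at h2
  set l := run G (top G) with hl
  have h3 : ∀ v ∈ range (nV G), need G l v ≤ 0 := by
    intro v hv
    have := single_le_sum (f := fun v => max (need G l v) 0) (fun v _ => le_max_right _ _) hv
    unfold Np at h2
    omega
  have h4 := cut_need G hG _ hX l (fun _ => true)
  simp only [if_true, sub_self, sum_const_zero] at h4
  have h5 := (sum_eq_zero_iff_of_nonpos h3).1 h4
  refine ⟨fun k => min (gv l k) (cap G k), ?_, ?_⟩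
  · have e : ∀ k < nA G, gv (toL (fun k : Fin (nA G) => min (gv l k) (cap G k))) k = gv l k :=
      fun k hk => by
        have := gv_toL (fun k : Fin (nA G) => min (gv l k) (cap G k)) ⟨k, hk⟩
        simp only at this
        rw [this]; exact min_eq_left (h1 k hk)
    unfold flows
    refine mem_filter.2 ⟨?_, fun k hk => ?_, fun v hv => ?_⟩
    · unfold box
      exact Fintype.mem_piFinset.2 fun k => mem_range.2 (Nat.lt_succ_of_le (min_le_right _ _))
    · show gv _ k ≤ cap G k
      rw [e k hk]; exact h1 k hk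
    · show netv G _ v = dem G v
      rw [netv_congr G e]
      have := h5 v (mem_range.2 hv)
      unfold need at this
      omega
  · unfold fe clampL toL
    exact mkL_eq_ofFn _ _ (fun _ => rfl)

/-! ### Polynomial time -/

section PTs

variable {α : Type} [Enc α]

@[fun_prop] theorem pt_nV {G : α → Net} (hG : PT G) : PT (fun a => nV (G a)) := by
  unfold nV; fun_prop

@[fun_prop] theorem pt_nA {G : α → Net} (hG : PT G) : PT (fun a => nA (G a)) := by
  unfold nA; fun_prop

@[fun_prop] theorem pt_tl {G : α → Net} {k : α → ℕ} (hG : PT G) (hk : PT k) :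
    PT (fun a => tl (G a) (k a)) := by
  unfold tl; fun_prop

@[fun_prop] theorem pt_hd {G : α → Net} {k : α → ℕ} (hG : PT G) (hk : PT k) :
    PT (fun a => hd (G a) (k a)) := by
  unfold hd; fun_prop

@[fun_prop] theorem bt_cap {G : α → Net} {k : α → ℕ} (hG : PT G) (hk : PT k) :
    BT (fun a => cap (G a) (k a)) := by
  unfold cap; fun_prop

@[fun_prop] theorem pt_dem {G : α → Net} {k : α → ℕ} (hG : PT G) (hk : PT k) :
    PT (fun a => dem (G a) (k a)) := by
  unfold dem; fun_prop

@[fun_prop] theorem bt_gv {l : α → List Bin} {k : α → ℕ} (hl : PT l) (hk : PT k) :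
    BT (fun a => gv (l a) (k a)) := by
  unfold gv; fun_prop

@[fun_prop] theorem pt_netv {G : α → Net} {l : α → List Bin} {v : α → ℕ} (hG : PT G) (hl : PT l)
    (hv : PT v) : PT (fun a => netv (G a) (l a) (v a)) := by
  unfold netv; fun_prop

@[fun_prop] theorem pt_need {G : α → Net} {l : α → List Bin} {v : α → ℕ} (hG : PT G) (hl : PT l)
    (hv : PT v) : PT (fun a => need (G a) (l a) (v a)) := by
  unfold need; fun_prop

@[fun_prop] theorem pt_clampL {G : α → Net} {f : α → ℕ → ℕ} (hG : PT G)
    (hf : BT (fun p : α × ℕ => f p.1 p.2)) : PT (fun a => clampL (G a) (f a)) := by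
  unfold clampL
  exact pt_mkL (f := fun a k => (⟨min (f a k) (cap (G a) k)⟩ : Bin)) (pt_nA hG)
    (BT.mk (BT.min hf (by fun_prop)))

@[fun_prop] theorem pt_rb {R : α → RS} {v : α → ℕ} (hR : PT R) (hv : PT v) :
    PT (fun a => rb (R a) (v a)) := by
  unfold rb; fun_prop

@[fun_prop] theorem pt_ry {R : α → RS} {v : α → ℕ} (hR : PT R) (hv : PT v) :
    PT (fun a => ry (R a) (v a)) := by
  unfold ry; fun_prop

@[fun_prop] theorem dt_fwd {G : α → Net} {D : α → ℕ} {l : α → List Bin} {R : α → RS} {k : α → ℕ}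
    (hG : PT G) (hD : BT D) (hl : PT l) (hR : PT R) (hk : PT k) :
    DT (fun a => fwd (G a) (D a) (l a) (R a) (k a)) := by
  unfold fwd; fun_prop

@[fun_prop] theorem dt_bwd {G : α → Net} {D : α → ℕ} {l : α → List Bin} {R : α → RS} {k : α → ℕ}
    (hG : PT G) (hD : BT D) (hl : PT l) (hR : PT R) (hk : PT k) :
    DT (fun a => bwd (G a) (D a) (l a) (R a) (k a)) := by
  unfold bwd; fun_prop

@[fun_prop] theorem pt_setR {G : α → Net} {R : α → RS} {v : α → ℕ} {Y : α → List Bin}
    (hG : PT G) (hR : PT R) (hv : PT v) (hY : PT Y) :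
    PT (fun a => setR (G a) (R a) (v a) (Y a)) := by
  unfold setR; fun_prop

@[fun_prop] theorem pt_addL {G : α → Net} {Y : α → List Bin} {k D : α → ℕ}
    (hG : PT G) (hY : PT Y) (hk : PT k) (hD : BT D) :
    PT (fun a => addL (G a) (Y a) (k a) (D a)) := by
  have hD' : BT (fun p : α × ℕ => D p.1) := hD.comp (by fun_prop)
  unfold addL
  exact pt_clampL (f := fun a j => gv (Y a) j + if j = k a then D a else 0) hG
    (BT.add (by fun_prop) (BT.ite (by fun_prop) hD' (BT.const 0)))

@[fun_prop] theorem pt_subL {G : α → Net} {Y : α → List Bin} {k D : α → ℕ}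
    (hG : PT G) (hY : PT Y) (hk : PT k) (hD : BT D) :
    PT (fun a => subL (G a) (Y a) (k a) (D a)) := by
  have hD' : BT (fun p : α × ℕ => D p.1) := hD.comp (by fun_prop)
  unfold subL
  exact pt_clampL (f := fun a j => gv (Y a) j - if j = k a then D a else 0) hG
    (BT.sub (by fun_prop) (BT.ite (by fun_prop) hD' (BT.const 0)))

theorem pt_growAt {G : α → Net} {D : α → ℕ} {l : α → List Bin} {R : α → RS} {k : α → ℕ}
    (hG : PT G) (hD : BT D) (hl : PT l) (hR : PT R) (hk : PT k) :
    PT (fun a => growAt (G a) (D a) (l a) (R a) (k a)) := by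
  unfold growAt
  exact PT.iteD (by fun_prop) (PT.iteD (dt_fwd hG hD hl hR hk)
    (pt_setR hG hR (by fun_prop) (pt_addL hG (by fun_prop) hk hD))
    (pt_setR hG hR (by fun_prop) (pt_subL hG (by fun_prop) hk hD))) hR

theorem pt_grow {G : α → Net} {D : α → ℕ} {l : α → List Bin} {R : α → RS}
    (hG : PT G) (hD : BT D) (hl : PT l) (hR : PT R) :
    PT (fun a => grow (G a) (D a) (l a) (R a)) := by
  have hD' : BT (fun p : α × ℕ => D p.1) := hD.comp (by fun_prop)
  unfold grow
  refine pt_growAt hG hD hl hR (pt_fnd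
    (p := fun a k => fwd (G a) (D a) (l a) (R a) k ∨ bwd (G a) (D a) (l a) (R a) k) (pt_nA hG) ?_)
  exact DT.or (dt_fwd (by fun_prop) hD' (by fun_prop) (by fun_prop) (by fun_prop))
    (dt_bwd (by fun_prop) hD' (by fun_prop) (by fun_prop) (by fun_prop))

theorem pt_ini {G : α → Net} {D : α → ℕ} {l : α → List Bin}
    (hG : PT G) (hD : BT D) (hl : PT l) : PT (fun a => ini (G a) (D a) (l a)) := by
  have hD' : BT (fun p : α × ℕ => D p.1) := hD.comp (by fun_prop)
  unfold ini
  exact pt_mkL (f := fun a v => (decide (bz (D a) ≤ need (G a) (l a) v), l a)) (pt_nV hG)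
    (PT.pair (pt_decide (dt_ile (pt_bz hD') (by fun_prop))) (by fun_prop))

theorem sz_mem_le {β : Type} [Enc β] {l : List β} {x : β} (h : x ∈ l) : sz x ≤ sz l := by
  induction l with
  | nil => simp at h
  | cons y l ih =>
    rw [sz_cons]
    rcases List.mem_cons.1 h with h | h
    · rw [h]; omega
    · have := ih h; omega

theorem getD_cases {β : Type} (l : List β) (i : ℕ) (d : β) : l.getD i d ∈ l ∨ l.getD i d = d := by
  rw [List.getD_eq_getElem?_getD]
  cases h : l[i]? with
  | none => exact Or.inr rfl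
  | some x => exact Or.inl (List.mem_of_getElem? h)

theorem size_cap (G : Net) (k : ℕ) : (cap G k).size ≤ sz G := by
  obtain ⟨n, A, d⟩ := G
  unfold cap
  rcases getD_cases A k (0, 0, ⟨0⟩) with h | h
  · have h1 := sz_mem_le h
    generalize A.getD k (0, 0, ⟨0⟩) = x at h1 ⊢
    obtain ⟨a, b, c⟩ := x
    simp only [sz_pair, sz_bin] at h1 ⊢
    omega
  · simp only [h]; simp

theorem nA_le (G : Net) : nA G ≤ sz G := by
  obtain ⟨n, A, d⟩ := G
  have := length_le_sz A
  simp only [nA, sz_pair]
  omega

theorem nV_le (G : Net) : nV G ≤ sz G := by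
  obtain ⟨n, A, d⟩ := G
  simp only [nV, sz_pair, sz_nat]
  omega

theorem sz_mkL_le {β : Type} [Enc β] (n : ℕ) (f : ℕ → β) (B : ℕ) (h : ∀ i, sz (f i) ≤ B) :
    sz (mkL n f) ≤ n * (2 * B + 1) := by
  have := sz_list_le (mkL n f) B (fun x hx => by
    unfold mkL at hx
    obtain ⟨i, -, rfl⟩ := List.mem_map.1 hx
    exact h i)
  rwa [length_mkL] at this

/-- size of a clamped flow -/
def bB (G : Net) : ℕ := sz G * (2 * sz G + 1)

theorem sz_clampL (G : Net) (f : ℕ → ℕ) : sz (clampL G f) ≤ bB G := by
  refine (sz_mkL_le _ _ (sz G) fun i => ?_).trans (Nat.mul_le_mul_right _ (nA_le G))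
  rw [sz_bin]
  exact (Nat.size_le_size (min_le_right _ _)).trans (size_cap G i)

theorem pb_bB {G : α → Net} (hG : PT G) : PB (fun a => bB (G a)) :=
  hG.pb.mul (((PB.const 2).mul hG.pb).add (PB.const 1))

def SzR (G : Net) (l : List Bin) (R : RS) : Prop :=
  R.length = nV G ∧ ∀ x ∈ R, sz x ≤ sz l + bB G + 3

theorem szR_setR (G : Net) (l : List Bin) (R : RS) (h : SzR G l R) (v : ℕ) (f : ℕ → ℕ) :
    SzR G l (setR G R v (clampL G f)) := by
  refine ⟨length_mkL _ _, fun x hx => ?_⟩
  unfold setR mkL at hx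
  obtain ⟨u, -, rfl⟩ := List.mem_map.1 hx
  split_ifs
  · have := sz_clampL G f
    simp only [sz_pair, sz_bool]; omega
  · rcases getD_cases R u (false, []) with e | e
    · exact h.2 _ e
    · rw [e]; simp only [sz_pair, sz_bool, sz_nil]; omega

theorem szR_clo (G : Net) (D : ℕ) (l : List Bin) (i : ℕ) : SzR G l (clo G D l i) := by
  induction i with
  | zero =>
    refine ⟨length_mkL _ _, fun x hx => ?_⟩
    change x ∈ ini G D l at hx
    unfold ini mkL at hx
    obtain ⟨u, -, rfl⟩ := List.mem_map.1 hx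
    simp only [sz_pair, sz_bool]; omega
  | succ i ih =>
    rw [clo_succ]
    unfold grow growAt
    split_ifs
    · exact szR_setR G l _ ih _ _
    · exact szR_setR G l _ ih _ _
    · exact ih

theorem pt_clo {G : α → Net} {D : α → ℕ} {l : α → List Bin} {i : α → ℕ}
    (hG : PT G) (hD : BT D) (hl : PT l) (hi : PT i) :
    PT (fun a => clo (G a) (D a) (l a) (i a)) := by
  unfold clo
  refine PT.natRec (s := fun a _ R => grow (G a) (D a) (l a) R) hi (pt_ini hG hD hl)
    (pt_grow (by fun_prop) (hD.comp (by fun_prop)) (by fun_prop) (by fun_prop))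
    (B := fun a => sz (G a) * (2 * (sz (l a) + bB (G a) + 3) + 1))
    (hG.pb.mul (((PB.const 2).mul ((hl.pb.add (pb_bB hG)).add (PB.const 3))).add (PB.const 1)))
    (fun a j _ => ?_)
  obtain ⟨h1, h2⟩ := szR_clo (G a) (D a) (l a) j
  have := sz_list_le _ _ h2
  rw [h1] at this
  exact this.trans (Nat.mul_le_mul_right _ (nV_le _))

theorem pt_sink {G : α → Net} {D : α → ℕ} {l : α → List Bin} {R : α → RS}
    (hG : PT G) (hD : BT D) (hl : PT l) (hR : PT R) :
    PT (fun a => sink (G a) (D a) (l a) (R a)) := by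
  have hD' : BT (fun p : α × ℕ => D p.1) := hD.comp (by fun_prop)
  unfold sink
  exact pt_fnd (p := fun a v => rb (R a) v = true ∧ need (G a) (l a) v ≤ -bz (D a)) (pt_nV hG)
    (DT.and (by fun_prop) (dt_ile (by fun_prop) (PT.intNegate (pt_bz hD'))))

theorem pt_augR {G : α → Net} {D : α → ℕ} {l : α → List Bin} {R : α → RS}
    (hG : PT G) (hD : BT D) (hl : PT l) (hR : PT R) :
    PT (fun a => augR (G a) (D a) (l a) (R a)) := by
  have hs := pt_sink hG hD hl hR
  have h1 : PT (fun a => if sink (G a) (D a) (l a) (R a) < nV (G a) then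
      ry (R a) (sink (G a) (D a) (l a) (R a)) else l a) :=
    PT.ite_lt hs (pt_nV hG) (pt_ry hR hs) hl
  unfold augR
  exact pt_clampL (f := fun a k => gv (if sink (G a) (D a) (l a) (R a) < nV (G a) then
      ry (R a) (sink (G a) (D a) (l a) (R a)) else l a) k) hG
    (bt_gv (h1.comp (f := fun p : α × ℕ => p.1) (by fun_prop)) (by fun_prop))

theorem pt_aug {G : α → Net} {D : α → ℕ} {l : α → List Bin}
    (hG : PT G) (hD : BT D) (hl : PT l) : PT (fun a => aug (G a) (D a) (l a)) :=
  pt_augR hG hD hl (pt_clo hG hD hl (pt_nV hG))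

theorem sz_phase (G : Net) (D : ℕ) (l : List Bin) (i : ℕ) :
    phase G D l i = l ∨ sz (phase G D l i) ≤ bB G := by
  cases i with
  | zero => exact Or.inl rfl
  | succ i => exact Or.inr (sz_clampL _ _)

theorem pt_phase {G : α → Net} {D : α → ℕ} {l : α → List Bin} {i : α → ℕ}
    (hG : PT G) (hD : BT D) (hl : PT l) (hi : PT i) :
    PT (fun a => phase (G a) (D a) (l a) (i a)) := by
  unfold phase
  refine PT.natRec (s := fun a _ l => aug (G a) (D a) l) hi hl
    (pt_aug (by fun_prop) (hD.comp (by fun_prop)) (by fun_prop))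
    (B := fun a => sz (l a) + bB (G a)) (hl.pb.add (pb_bB hG)) (fun a j _ => ?_)
  change sz (phase (G a) (D a) (l a) j) ≤ _
  rcases sz_phase (G a) (D a) (l a) j with h | h
  · rw [h]; omega
  · omega

theorem pt_top {G : α → Net} (hG : PT G) : PT (fun a => top (G a)) := by
  unfold top
  exact BT.size (BT.sum (f := fun a v => (dem (G a) v).toNat) (pt_nV hG) (by fun_prop))

theorem sz_run (G : Net) (i : ℕ) : sz (run G i) ≤ bB G := by
  induction i with
  | zero => exact sz_clampL _ _
  | succ i ih =>
    rw [run_succ]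
    rcases sz_phase G (2 ^ (top G - 1 - i)) (run G i) (nA G + nV G) with h | h
    · rw [h]; exact ih
    · exact h

theorem pt_fe : PT fe := by
  have ht : PT top := pt_top PT.id'
  have h1 : PT (fun G => run G (top G)) := by
    unfold run
    refine PT.natRec (s := fun G i l => phase G (2 ^ (top G - 1 - i)) l (nA G + nV G)) ht
      (pt_clampL (f := fun _ _ => 0) PT.id' (BT.const 0))
      (pt_phase (by fun_prop) (BT.pow (BT.const 2) ?_) (by fun_prop) (by fun_prop))
      (B := bB) (pb_bB PT.id') (fun G j _ => sz_run G j)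
    exact PT.sub (PT.sub (ht.comp (by fun_prop)) (PT.const 1)) (by fun_prop)
  unfold fe
  exact pt_clampL (f := fun G k => gv (run G (top G)) k) PT.id'
    (bt_gv (h1.comp (f := fun p : Net × ℕ => p.1) (by fun_prop)) (by fun_prop))

end PTs

end FEAS

theorem FEAS_proof : FeasStmt := ⟨FEAS.fe, FEAS.pt_fe, FEAS.fe_spec⟩

end Crest.Agent.R309
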