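import Crest.Agent.R309.DefsC
import Crest.Agent.R309X.CntDefs

/-! Row 309: the counter for tables. -/

set_option autoImplicit false

namespace Crest.Agent.R309

open Finset Crest.Agent.PT Crest.Agent.QC Crest.Agent.R317 Crest.Agent.R300U

namespace GC

theorem ne_of_feas {G : Net} {l : List Bin} (hf : FeasL G l) : (flows G).Nonempty := by
  classical
  refine ⟨fun k => gv l k, ?_⟩
  unfold flows
  have hgv : ∀ k < nA G, gv (toL (fun k : Fin (nA G) => gv l k)) k = gv l k := by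
    intro k hk
    simp [gv, toL, List.getD_eq_getElem?_getD, hk]
  refine mem_filter.2 ⟨?_, ?_, ?_⟩
  · simp only [box, Fintype.mem_piFinset, mem_range]
    intro k
    exact Nat.lt_succ_of_le (hf.1 k k.2)
  · intro k hk
    rw [hgv k hk]; exact hf.1 k hk
  · intro v hv
    rw [← hf.2 v hv]
    unfold netv
    refine sum_congr rfl (fun k hk => ?_)
    rw [hgv k (mem_range.1 hk)]

open Classical in
theorem net (fe : Net → List Bin) (c : Net → ℕ → ℕ) (f : Net → ℕ → ℕ → ℚ)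
    (hfs : ∀ G, WF G → (flows G).Nonempty → ∃ X ∈ flows G, fe G = toL X)
    (hC : ∀ G, WF G → (flows G).Nonempty → ∀ a, 1 ≤ a → (∀ u, 0 ≤ f G a u) ∧
      1 - (2 : ℝ)⁻¹ ^ a ≤ Pb (c G a) (fun u => (1 - 1 / (a : ℝ)) * (flows G).card ≤ f G a u ∧
        (f G a u : ℝ) ≤ (1 + 1 / (a : ℝ)) * (flows G).card))
    (G : Net) (hw : WF G) (a : ℕ) (ha : 1 ≤ a) (N : ℕ) (hN : (flows G).card = N) :
    (∀ u, 0 ≤ (if FeasL G (fe G) then f G a u else 0)) ∧
    (N = 0 → ∀ u, (if FeasL G (fe G) then f G a u else 0) = 0) ∧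
    1 - (2 : ℝ)⁻¹ ^ a ≤ Pb (c G a) (fun u =>
      (1 - 1 / (a : ℝ)) * N ≤ ((if FeasL G (fe G) then f G a u else 0 : ℚ) : ℝ) ∧
        ((if FeasL G (fe G) then f G a u else 0 : ℚ) : ℝ) ≤ (1 + 1 / (a : ℝ)) * N) := by
  subst hN
  by_cases hne : (flows G).Nonempty
  · obtain ⟨h0, hpr⟩ := hC G hw hne a ha
    obtain ⟨X, hX, hXe⟩ := hfs G hw hne
    have hfeas : FeasL G (fe G) := by
      rw [hXe]; unfold flows at hX; exact (mem_filter.1 hX).2
    simp only [if_pos hfeas]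
    refine ⟨h0, fun hz => ?_, hpr⟩
    exact absurd (card_pos.2 hne) (by omega)
  · have hz : (flows G).card = 0 := by
      rw [card_eq_zero]; exact not_nonempty_iff_eq_empty.1 hne
    have hnf : ¬ FeasL G (fe G) := fun hf => hne (ne_of_feas hf)
    simp only [if_neg hnf, hz]
    refine ⟨fun _ => le_rfl, fun _ _ => trivial, ?_⟩
    have h1 : Pb (c G a) (fun _ => (1 - 1 / (a : ℝ)) * ((0 : ℕ) : ℝ) ≤ ((0 : ℚ) : ℝ) ∧
        ((0 : ℚ) : ℝ) ≤ (1 + 1 / (a : ℝ)) * ((0 : ℕ) : ℝ)) = 1 := by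
      simp [Pb, Av]
    rw [h1]
    have : (0 : ℝ) ≤ (2 : ℝ)⁻¹ ^ a := by positivity
    linarith

open Classical in
theorem glue (fe : Net → List Bin) (c : Net → ℕ → ℕ) (f : Net → ℕ → ℕ → ℚ) (hfe : PT fe)
    (hc : PT (fun q : Net × ℕ => c q.1 q.2))
    (hf : PT (fun q : Net × ℕ × Bin => f q.1 q.2.1 q.2.2.val))
    (hfl : DT (fun q : Net × List Bin => FeasL q.1 q.2))
    (hfs : ∀ G, WF G → (flows G).Nonempty → ∃ X ∈ flows G, fe G = toL X)
    (hC : ∀ G, WF G → (flows G).Nonempty → ∀ a, 1 ≤ a → (∀ u, 0 ≤ f G a u) ∧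
      1 - (2 : ℝ)⁻¹ ^ a ≤ Pb (c G a) (fun u => (1 - 1 / (a : ℝ)) * (flows G).card ≤ f G a u ∧
        (f G a u : ℝ) ≤ (1 + 1 / (a : ℝ)) * (flows G).card))
    (hT : TabStmt) : ∃ (c : R309X.In79 → ℕ) (f : R309X.In79 × Bin → ℚ), PT c ∧ PT f ∧
      R309X.GoodCounter c f := by
  obtain ⟨htn, htab⟩ := hT
  obtain ⟨N, hN, hNe⟩ : ∃ N : R309X.In79 → Net, PT N ∧ ∀ x, N x = tnet x.1.1 x.1.2 x.2.1 :=
    ⟨fun x => tnet x.1.1 x.1.2 x.2.1,
      htn.comp (f := fun x : R309X.In79 => (x.1.1, x.1.2, x.2.1)) (by fun_prop), fun _ => rfl⟩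
  have hN1 : PT (fun q : R309X.In79 × Bin => N q.1) := hN.comp (PT.fst PT.id')
  refine ⟨fun x => c (N x) x.2.2,
    fun q => if FeasL (N q.1) (fe (N q.1)) then f (N q.1) q.1.2.2 q.2.val else 0,
    hc.comp (f := fun x : R309X.In79 => (N x, x.2.2)) (PT.pair hN (by fun_prop)), ?_, ?_⟩
  · refine PT.iteD (hfl.comp (f := fun q : R309X.In79 × Bin => (N q.1, fe (N q.1)))
      (PT.pair hN1 (hfe.comp hN1))) ?_ (PT.const _)
    exact hf.comp (f := fun q : R309X.In79 × Bin => (N q.1, q.1.2.2, q.2))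
      (PT.pair hN1 (by fun_prop))
  · intro m n rs cs b a ha
    obtain ⟨hw, hcard, -, -⟩ := htab m n rs cs b
    have e : N (R309X.margins rs cs, R309X.flat b, a) = tnet (toL rs) (toL cs) (R309X.flat b) :=
      hNe _
    rw [← e] at hw hcard
    obtain ⟨k1, k2, k3⟩ := net fe c f hfs hC _ hw a ha _ hcard
    exact ⟨fun u _ => k1 u, fun h u _ => k2 h u, k3⟩

end GC

attribute [local irreducible] bP bE cntq in
theorem GC_proof (hF : FeasStmt) (hP : PreStmt) (h1 : Pt1Stmt) (h2 : Pt2Stmt) (hC : CntStmt)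
    (hT : TabStmt) : ∃ (c : R309X.In79 → ℕ) (f : R309X.In79 × Bin → ℚ), PT c ∧ PT f ∧
      R309X.GoodCounter c f := by
  obtain ⟨fe, hfe, hfs⟩ := hF
  obtain ⟨pre, hpre, hps⟩ := hP
  obtain ⟨-, -, -, -, hfl⟩ := h1
  obtain ⟨-, hcnt, -, hbP, hbE, -, -⟩ := h2
  have hQ : PT (fun x : Net × ℕ => (pre x.1, x.2)) :=
    PT.pair (hpre.comp (PT.fst PT.id')) (PT.snd PT.id')
  have hQ2 : PT (fun x : Net × ℕ × Bin => (pre x.1, x.2)) :=
    PT.pair (hpre.comp (PT.fst PT.id')) (PT.snd PT.id')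
  have k1 := hbP.comp hQ
  have k2 := hbE.comp hQ
  have k3 := hcnt.comp hQ2
  have k4 : PT (fun q : Net × ℕ => bP (pre q.1) q.2 + bE (pre q.1) q.2) := PT.add k1 k2
  have k5 : PT (fun q : Net × ℕ × Bin => cntq (pre q.1) q.2.1 q.2.2.val) := k3
  refine GC.glue fe (fun G a => bP (pre G) a + bE (pre G) a) (fun G a u => cntq (pre G) a u) hfe
    k4 k5 hfl hfs ?_ hT
  intro G hw hne a ha
  obtain ⟨hg, -, hsp⟩ := hps G
  have := hC (pre G) (hsp hw hne) a ha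
  rw [hg] at this
  exact this

end Crest.Agent.R309
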