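import Crest.Agent.R309.TAB

/-! Row 309, task GS: the streaming sampler for contingency tables. -/

set_option autoImplicit false

namespace Crest.Agent.R309

open Finset Crest.Agent.PT Crest.Agent.QC Crest.Agent.R317 Crest.Agent.R300U Crest.Tables

namespace GS

/-- A table exists when the totals agree. -/
theorem exists_table {m n : ℕ} (N : ℕ) : ∀ (rs : Fin m → ℕ) (cs : Fin n → ℕ),
    ∑ i, rs i = N → ∑ j, cs j = N → ∃ X : Fin m → Fin n → ℕ, IsTable rs cs X := by
  induction N with
  | zero =>
    intro rs cs h1 h2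
    rw [Finset.sum_eq_zero_iff] at h1 h2
    exact ⟨fun _ _ => 0, fun i => by simp [h1 i (mem_univ _)], fun j => by simp [h2 j (mem_univ _)]⟩
  | succ N ih =>
    intro rs cs h1 h2
    obtain ⟨i, -, hi⟩ := Finset.exists_ne_zero_of_sum_ne_zero (s := univ) (f := rs) (by omega)
    obtain ⟨j, -, hj⟩ := Finset.exists_ne_zero_of_sum_ne_zero (s := univ) (f := cs) (by omega)
    have e1 : ∀ a, rs a = (rs a - if a = i then 1 else 0) + if a = i then 1 else 0 := by
      intro a; split_ifs with h
      · subst h; omega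
      · simp
    have e2 : ∀ a, cs a = (cs a - if a = j then 1 else 0) + if a = j then 1 else 0 := by
      intro a; split_ifs with h
      · subst h; omega
      · simp
    obtain ⟨X, hX1, hX2⟩ := ih (fun a => rs a - if a = i then 1 else 0)
      (fun a => cs a - if a = j then 1 else 0)
      (by
        rw [Finset.sum_congr rfl (fun a _ => e1 a), Finset.sum_add_distrib] at h1
        simp only [Finset.sum_ite_eq', mem_univ, if_true] at h1
        omega)
      (by
        rw [Finset.sum_congr rfl (fun a _ => e2 a), Finset.sum_add_distrib] at h2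
        simp only [Finset.sum_ite_eq', mem_univ, if_true] at h2
        omega)
    refine ⟨fun a b => X a b + if a = i ∧ b = j then 1 else 0, fun a => ?_, fun b => ?_⟩
    · rw [Finset.sum_add_distrib, hX1 a]
      conv_rhs => rw [e1 a]
      congr 1
      by_cases h : a = i <;> simp [h]
    · rw [Finset.sum_add_distrib, hX2 b]
      conv_rhs => rw [e2 b]
      congr 1
      by_cases h : b = j <;> simp [h]

theorem table_le {m n : ℕ} {rs : Fin m → ℕ} {cs : Fin n → ℕ} {X : Fin m → Fin n → ℕ}
    (h : IsTable rs cs X) (i : Fin m) (j : Fin n) : X i j ≤ ∑ i, rs i :=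
  calc X i j ≤ ∑ j, X i j := Finset.single_le_sum (f := X i) (fun _ _ => Nat.zero_le _) (mem_univ j)
    _ = rs i := h.1 i
    _ ≤ ∑ i, rs i := Finset.single_le_sum (f := rs) (fun _ _ => Nat.zero_le _) (mem_univ i)

/-- the total -/
def tot (r : List Bin) : ℕ := ∑ i ∈ range r.length, gv r i

/-- the network with all bounds equal to the total -/
def net (q : List Bin × List Bin) : Net :=
  tnet q.1 q.2 (List.replicate (q.1.length * q.2.length) ⟨tot q.1⟩)

theorem bt_tot : BT tot := by unfold tot; fun_prop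

theorem pt_net : PT net := by
  have := bt_tot
  unfold net; fun_prop

theorem tot_toL {m : ℕ} (rs : Fin m → ℕ) : tot (toL rs) = ∑ i, rs i := by
  unfold tot
  rw [TAB.length_toL, Finset.sum_range]
  exact Finset.sum_congr rfl fun i _ => TAB.gv_toL rs i

theorem net_margins {m n : ℕ} (rs : Fin m → ℕ) (cs : Fin n → ℕ) :
    net (R309X.margins rs cs) =
      tnet (toL rs) (toL cs) (R309X.flat (fun (_ : Fin m) (_ : Fin n) => ∑ i, rs i)) := by
  show tnet (toL rs) (toL cs) (List.replicate ((toL rs).length * (toL cs).length) ⟨tot (toL rs)⟩) = _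
  congr 1
  rw [TAB.length_toL, TAB.length_toL, tot_toL]
  refine TAB.ext_gv (by rw [TAB.length_flat, List.length_replicate]) fun k hk => ?_
  rw [List.length_replicate] at hk
  obtain ⟨i, j, rfl⟩ := TAB.exists_idx hk
  rw [TAB.gv_flat]
  simp [gv, List.getD_eq_getElem?_getD, hk]

theorem sz_toL_le {N : ℕ} (x : Fin N → ℕ) (B : ℕ) (h : ∀ k, (x k).size ≤ B) :
    sz (toL x) ≤ N * (2 * B + 1) := by
  have := sz_list_le (toL x) B (fun y hy => by
    unfold toL at hy
    rw [List.mem_ofFn] at hy
    obtain ⟨k, rfl⟩ := hy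
    rw [sz_bin]; exact h k)
  rwa [TAB.length_toL] at this

theorem sz_tilt_le (p : List ℤ) (B : ℕ) (h : ∀ v, |p.getD v 0| ≤ B) :
    sz p ≤ p.length * (2 * (3 * B + 1) + 1) := by
  refine sz_list_le p _ fun z hz => ?_
  obtain ⟨v, hv, rfl⟩ := List.getElem_of_mem hz
  have h1 := h v
  rw [List.getD_eq_getElem?_getD, List.getElem?_eq_getElem hv, Option.getD_some] at h1
  have h2 := sz_int_le p[v]
  have h3 : p[v].natAbs.size ≤ p[v].natAbs := Nat.size_le.2 Nat.lt_two_pow_self
  have h4 : p[v].natAbs ≤ B := by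
    have : (p[v].natAbs : ℤ) ≤ B := by rwa [Int.natCast_natAbs]
    exact_mod_cast this
  omega

/-- a bound on the size of the states -/
def bnd (n t : ℕ) : ℕ := 2 * (n * (2 * t + 1)) + 2 * (n * (2 * (3 * pTt n + 1) + 1)) + n * (2 * n + 1) + 5

end GS

open GS in
theorem GS_proof (hFeas : FeasStmt) (hPre : PreStmt) (hPt2 : Pt2Stmt) (hStr1 : Str1Stmt)
    (hStr2 : Str2Stmt) (hTab : TabStmt) : GsStmt := by
  classical
  obtain ⟨fe, hfe, hfeS⟩ := hFeas
  obtain ⟨pre, hpre, hpreS⟩ := hPre
  obtain ⟨-, -, hstep, hbP, -, hPd, hb1⟩ := hPt2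
  have hnet := pt_net
  have hP : PT (fun q : List Bin × List Bin => pre (net q)) := hpre.comp hnet
  have hc : PT (fun q : List Bin × List Bin => bP (pre (net q)) 1 + b1 (pre (net q))) :=
    PT.add (hbP.comp (f := fun q : List Bin × List Bin => (pre (net q), 1)) (by fun_prop))
      (hb1.comp hP)
  have hB : PT (fun q : List Bin × List Bin => bnd (nn (pre (net q))) (tot q.1).size) := by
    have := bt_tot
    unfold bnd; fun_prop
  let A : R309X.Stream R309X.In SS :=
    { init := fun a => (false, fe (net a.1), [], zer (pre (net a.1)))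
      step := fun a t s u => sstep (pre (net a.1)) a.2 t s u
      T := fun a => 3 * (a.2 + 1) * pPd (pre (net a.1)) a.2
      c := fun a => bP (pre (net a.1)) 1 + b1 (pre (net a.1))
      out := fun _ s => s.2.1
      pt_init := by unfold zer; fun_prop
      pt_step := hstep.comp (f := fun p : R309X.In × ℕ × SS × Bin =>
        (pre (net p.1.1), p.1.2, p.2.1, p.2.2.1, p.2.2.2)) (by fun_prop)
      pt_T := PT.mul (by fun_prop)
        (hPd.comp (f := fun a : R309X.In => (pre (net a.1), a.2)) (by fun_prop))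
      pt_c := hc.comp (f := fun a : R309X.In => a.1) (by fun_prop)
      pt_out := by fun_prop }
  obtain ⟨D1, hD1⟩ := hc.pbNat
  obtain ⟨D2, hD2⟩ := hB.pbNat
  refine ⟨A, D1 + D2, fun m n rs cs k hk hsum => ?_⟩
  have hpow : ∀ D ≤ D1 + D2, (sz (R309X.margins rs cs) + 2) ^ D ≤
      (sz (R309X.margins rs cs) + Nat.log 2 k + 2) ^ (D1 + D2) := fun D hD =>
    (Nat.pow_le_pow_left (by omega) _).trans (Nat.pow_le_pow_right (by omega) hD)
  obtain ⟨hwf, hcard, h3, h4⟩ := hTab.2 m n rs cs (fun _ _ => ∑ i, rs i)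
  rw [← net_margins] at hwf hcard h3 h4
  obtain ⟨hg, -, hS⟩ := hpreS (net (R309X.margins rs cs))
  have hne : (flows (net (R309X.margins rs cs))).Nonempty := by
    obtain ⟨X, hX⟩ := exists_table _ rs cs rfl hsum.symm
    obtain ⟨x, hx, -⟩ := h4 X hX (table_le hX)
    exact ⟨x, hx⟩
  have hSp := hS hwf hne
  obtain ⟨X₀, hX₀, hfe0⟩ := hfeS _ hwf hne
  have hD1' := hD1 (R309X.margins rs cs)
  have hD2' := hD2 (R309X.margins rs cs)
  have hreach : ∀ t s, A.Reach (R309X.margins rs cs, k) t s →
      sR (pre (net (R309X.margins rs cs))) k (false, toL X₀, [], zer (pre (net (R309X.margins rs cs)))) t s := by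
    intro t s hs
    induction hs with
    | init => rw [← hfe0]; exact sR.init
    | step _ _ ih => exact sR.step _ ih
  have hE : ∀ t F, A.E (R309X.margins rs cs, k) t F =
      sE (pre (net (R309X.margins rs cs))) k (A.c (R309X.margins rs cs, k))
        (false, toL X₀, [], zer (pre (net (R309X.margins rs cs)))) t F := by
    intro t
    induction t with
    | zero => intro F; rw [← hfe0]; rfl
    | succ t ih => intro F; rw [R309X.Stream.E, ih, sE]; rfl
  have hAc : A.c (R309X.margins rs cs, k) =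
      bP (pre (net (R309X.margins rs cs))) 1 + b1 (pre (net (R309X.margins rs cs))) := rfl
  have hAT : A.T (R309X.margins rs cs, k) = 3 * (k + 1) * pPd (pre (net (R309X.margins rs cs))) k := rfl
  have hAo : ∀ s, A.out (R309X.margins rs cs, k) s = s.2.1 := fun _ => rfl
  have htot : tot (R309X.margins rs cs).1 = ∑ i, rs i := tot_toL rs
  beta_reduce at hD1' hD2'
  rw [htot] at hD2'
  clear_value A
  clear hS hfe0
  generalize pre (net (R309X.margins rs cs)) = P at *
  generalize net (R309X.margins rs cs) = G at *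
  subst hg
  refine ⟨hAc ▸ hD1'.trans (hpow _ (by omega)), fun t s _ hs => ?_, fun s hs => ?_, fun X hX => ?_⟩
  · obtain ⟨⟨X, hX, e1⟩, h2, hV, y, hy, e2⟩ := hStr1 P hSp k X₀ hX₀ t s (hreach t s hs)
    refine le_trans ?_ (hD2'.trans (hpow _ (by omega)))
    obtain ⟨b, l, p, l'⟩ := s
    simp only at e1 h2 hV e2
    subst e1 e2
    have b1 : sz (toL X) ≤ nA (gG P) * (2 * (∑ i, rs i).size + 1) := by
      refine sz_toL_le X _ fun j => Nat.size_le_size ?_
      obtain ⟨Y, hY, hb, e⟩ := h3 X hX
      have hl : nA (gG P) = m * n := by rw [← TAB.length_toL X, e, TAB.length_flat]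
      obtain ⟨i', j', e'⟩ := TAB.exists_idx (m := m) (n := n) (k := j) (by rw [← hl]; exact j.2)
      rw [← TAB.gv_toL X j, e, e', TAB.gv_flat]
      exact hb i' j'
    have b2 := sz_tilt_le p _ hV.2
    have b3 : sz (toL y) ≤ nA (gG P) * (2 * nn P + 1) := by
      refine sz_toL_le y _ fun j => ?_
      have h1 : y j ≤ wd P j := by
        unfold bx box at hy
        have : y j < uB P j + 1 := Finset.mem_range.1 (Fintype.mem_piFinset.1 hy j)
        unfold uB at this
        split_ifs at this <;> omega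
      refine (Nat.size_le_size h1).trans (le_trans ?_ hSp.hsz)
      exact Finset.single_le_sum (f := fun k => (wd P k).size) (fun _ _ => Nat.zero_le _)
        (Finset.mem_range.2 j.2)
    have c1 := Nat.mul_le_mul_right (2 * (∑ i, rs i).size + 1) hSp.hA
    have c2 := Nat.mul_le_mul_right (2 * (3 * pTt (nn P) + 1) + 1) h2
    have c3 := Nat.mul_le_mul_right (2 * nn P + 1) hSp.hA
    simp only [sz_pair, sz_bool]
    unfold bnd
    omega
  · obtain ⟨⟨X, hX, e1⟩, -⟩ := hStr1 P hSp k X₀ hX₀ _ s (hreach _ s hs)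
    obtain ⟨Y, hY, -, e⟩ := h3 X hX
    exact ⟨Y, hY, by rw [hAo, e1, e]⟩
  · obtain ⟨x, hx, e⟩ := h4 X hX (table_le hX)
    have := hStr2 P hSp k (bP P 1 + b1 P) (by omega) (by omega) X₀ hX₀ x hx
    rw [hE, hAc, hAT, ← hcard, ← e]
    simp only [hAo]
    convert this

end Crest.Agent.R309
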