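import Crest.Agent.R309.DefsB

/-! Row 309, task KRA: the Metropolis-type kernel with a general acceptance function. -/

set_option autoImplicit false

namespace Crest.Agent.R309

open Finset

namespace KRA

variable {κ : Type} [Fintype κ] [DecidableEq κ]

omit [Fintype κ] in
theorem ne_add (x : κ → ℕ) (k : κ) (d : ℕ) (hd : 1 ≤ d) : x ≠ x + Pi.single k d := by
  intro h
  have := congrFun h k
  simp at this
  omega

omit [Fintype κ] in
theorem not_both (x y : κ → ℕ) (k : κ) (d : ℕ) (hd : 1 ≤ d) :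
    ¬ (y = x + Pi.single k d ∧ x = y + Pi.single k d) := by
  rintro ⟨h1, h2⟩
  have a := congrFun h1 k
  have b := congrFun h2 k
  simp at a b
  omega

theorem off_self (u h : κ → ℕ) (A : ℝ) (ac : (κ → ℕ) → (κ → ℕ) → ℝ) (x : κ → ℕ) :
    offA u h A ac x x = 0 := by
  unfold offA
  refine Finset.sum_eq_zero fun k _ => Finset.sum_eq_zero fun d hd => ?_
  rw [if_neg]
  rintro ⟨_, h1 | h1⟩ <;> exact ne_add x k d (Finset.mem_Icc.1 hd).1 h1

theorem off_nonneg (u h : κ → ℕ) (A : ℝ) (ac : (κ → ℕ) → (κ → ℕ) → ℝ) (hA : 0 < A)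
    (x y : κ → ℕ) (hac : 0 ≤ ac x y) : 0 ≤ offA u h A ac x y := by
  unfold offA
  refine Finset.sum_nonneg fun k _ => Finset.sum_nonneg fun d _ => ?_
  split_ifs
  · positivity
  · exact le_rfl

theorem sum_two (u : κ → ℕ) (x : κ → ℕ) (k : κ) (d : ℕ) (g : (κ → ℕ) → ℝ) (c : ℝ) (hc : 0 ≤ c)
    (hg : ∀ z ∈ box u, g z ≤ c) :
    (∑ z ∈ box u, if z ∈ box u ∧ (z = x + Pi.single k d ∨ x = z + Pi.single k d) then g z else 0)
      ≤ 2 * c := by
  rw [← Finset.sum_filter]
  have hsub : (box u).filter (fun z => z ∈ box u ∧ (z = x + Pi.single k d ∨ x = z + Pi.single k d))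
      ⊆ {x + Pi.single k d, x - Pi.single k d} := by
    intro z hz
    rcases (Finset.mem_filter.1 hz).2.2 with h1 | h1
    · simp [h1]
    · have : z = x - Pi.single k d := by
        funext j
        have := congrFun h1 j
        simp only [Pi.add_apply, Pi.sub_apply] at this ⊢
        omega
      simp [this]
  have hcard := (Finset.card_le_card hsub).trans (Finset.card_le_two)
  calc _ ≤ ∑ _z ∈ (box u).filter
        (fun z => z ∈ box u ∧ (z = x + Pi.single k d ∨ x = z + Pi.single k d)), c :=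
        Finset.sum_le_sum fun z hz => hg z (Finset.mem_filter.1 hz).1
    _ = _ * c := by rw [Finset.sum_const, nsmul_eq_mul]
    _ ≤ 2 * c := by
        refine mul_le_mul_of_nonneg_right ?_ hc
        exact_mod_cast hcard

theorem sum_off_le (u h : κ → ℕ) (A : ℝ) (ac : (κ → ℕ) → (κ → ℕ) → ℝ)
    (hc : (Fintype.card κ : ℝ) ≤ A) (hA : 0 < A) (hh : ∀ k, 1 ≤ h k) (x : κ → ℕ)
    (hac : ∀ y ∈ box u, ac x y ≤ 1) : ∑ z ∈ box u, offA u h A ac x z ≤ 1 / 2 := by
  unfold offA
  rw [Finset.sum_comm]
  have h1 : ∀ k : κ, (∑ z ∈ box u, ∑ d ∈ Icc 1 (h k),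
      if z ∈ box u ∧ (z = x + Pi.single k d ∨ x = z + Pi.single k d) then
        ac x z / (4 * A * h k) else 0) ≤ 1 / (2 * A) := by
    intro k
    have hk : (0 : ℝ) < h k := by exact_mod_cast hh k
    rw [Finset.sum_comm]
    calc _ ≤ ∑ _d ∈ Icc 1 (h k), 2 * (1 / (4 * A * h k)) := by
          refine Finset.sum_le_sum fun d _ => ?_
          refine sum_two u x k d (fun z => ac x z / (4 * A * h k)) _ (by positivity) ?_
          intro z hz
          exact div_le_div_of_nonneg_right (hac z hz) (by positivity)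
      _ = 1 / (2 * A) := by
          rw [Finset.sum_const, nsmul_eq_mul]
          simp only [Nat.card_Icc, Nat.add_sub_cancel]
          field_simp
          ring
  calc _ ≤ ∑ _k : κ, 1 / (2 * A) := Finset.sum_le_sum fun k _ => h1 k
    _ = Fintype.card κ * (1 / (2 * A)) := by
        rw [Finset.sum_const, nsmul_eq_mul, Finset.card_univ]
    _ ≤ A * (1 / (2 * A)) := mul_le_mul_of_nonneg_right hc (by positivity)
    _ = 1 / 2 := by field_simp

theorem off_rev (u h : κ → ℕ) (A : ℝ) (π : (κ → ℕ) → ℝ) (ac : (κ → ℕ) → (κ → ℕ) → ℝ)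
    (x y : κ → ℕ) (hx : x ∈ box u) (hy : y ∈ box u) (hr : π x * ac x y = π y * ac y x) :
    π x * offA u h A ac x y = π y * offA u h A ac y x := by
  unfold offA
  simp only [Finset.mul_sum]
  refine Finset.sum_congr rfl fun k _ => Finset.sum_congr rfl fun d _ => ?_
  by_cases hc : y = x + Pi.single k d ∨ x = y + Pi.single k d
  · rw [if_pos ⟨hy, hc⟩, if_pos ⟨hx, hc.symm⟩, ← mul_div_assoc, ← mul_div_assoc, hr]
  · rw [if_neg (fun h => hc h.2), if_neg (fun h => hc h.2.symm), mul_zero, mul_zero]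

theorem mem_box (u x : κ → ℕ) : x ∈ box u ↔ ∀ k, x k ≤ u k := by
  simp [box, Fintype.mem_piFinset]

theorem one_dir (u : κ → ℕ) (k : κ) (d : ℕ) (G : (κ → ℕ) → (κ → ℕ) → ℝ) :
    (∑ x ∈ box u, ∑ y ∈ box u, if y = x + Pi.single k d then G x y else 0) =
      ∑ x ∈ (box u).filter (fun x => x k + d ≤ u k), G x (x + Pi.single k d) := by
  rw [Finset.sum_filter]
  refine Finset.sum_congr rfl fun x hx => ?_
  rw [Finset.sum_ite_eq']
  have : x + Pi.single k d ∈ box u ↔ x k + d ≤ u k := by
    rw [mem_box] at hx ⊢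
    constructor
    · intro h1
      simpa using h1 k
    · intro h1 j
      by_cases hj : j = k
      · subst hj
        simpa using h1
      · simpa [Pi.single_eq_of_ne hj] using hx j
  simp only [this]

theorem dir_kd (u : κ → ℕ) (π : (κ → ℕ) → ℝ) (ac : (κ → ℕ) → (κ → ℕ) → ℝ)
    (hac : ∀ x ∈ box u, ∀ y ∈ box u, π x * ac x y = π y * ac y x ∧
      min (π x) (π y) ≤ 2 * (π x * ac x y)) (f : (κ → ℕ) → ℝ) (k : κ) (d : ℕ) (hd : 1 ≤ d) :
    Ed u π f k d ≤ ∑ x ∈ box u, ∑ y ∈ box u,
      if y ∈ box u ∧ (y = x + Pi.single k d ∨ x = y + Pi.single k d) then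
        π x * ac x y * (f x - f y) ^ 2 else 0 := by
  have e1 : (∑ x ∈ box u, ∑ y ∈ box u,
      if y ∈ box u ∧ (y = x + Pi.single k d ∨ x = y + Pi.single k d) then
        π x * ac x y * (f x - f y) ^ 2 else 0) =
      (∑ x ∈ box u, ∑ y ∈ box u, if y = x + Pi.single k d then
        π x * ac x y * (f x - f y) ^ 2 else 0) +
      ∑ x ∈ box u, ∑ y ∈ box u, if x = y + Pi.single k d then
        π y * ac y x * (f y - f x) ^ 2 else 0 := by
    rw [← Finset.sum_add_distrib]
    refine Finset.sum_congr rfl fun x hx => ?_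
    rw [← Finset.sum_add_distrib]
    refine Finset.sum_congr rfl fun y hy => ?_
    by_cases h1 : y = x + Pi.single k d
    · have h2 : ¬ x = y + Pi.single k d := fun h2 => not_both x y k d hd ⟨h1, h2⟩
      rw [if_pos ⟨hy, Or.inl h1⟩, if_pos h1, if_neg h2, add_zero]
    · by_cases h2 : x = y + Pi.single k d
      · rw [if_pos ⟨hy, Or.inr h2⟩, if_neg h1, if_pos h2, zero_add, (hac x hx y hy).1]
        ring
      · rw [if_neg (fun h => h.2.elim h1 h2), if_neg h1, if_neg h2, add_zero]
  have e2 : (∑ x ∈ box u, ∑ y ∈ box u, if x = y + Pi.single k d then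
        π y * ac y x * (f y - f x) ^ 2 else 0) =
      ∑ x ∈ box u, ∑ y ∈ box u, if y = x + Pi.single k d then
        π x * ac x y * (f x - f y) ^ 2 else 0 := Finset.sum_comm
  rw [e1, e2, one_dir u k d (fun x y => π x * ac x y * (f x - f y) ^ 2), ← two_mul,
    Finset.mul_sum]
  unfold Ed
  refine Finset.sum_le_sum fun x hx => ?_
  have hx1 := (Finset.mem_filter.1 hx).1
  have hx2 := (Finset.mem_filter.1 hx).2
  have hy : x + Pi.single k d ∈ box u := by
    rw [mem_box] at hx1 ⊢
    intro j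
    by_cases hj : j = k
    · subst hj
      simpa using hx2
    · simpa [Pi.single_eq_of_ne hj] using hx1 j
  have := (hac x hx1 _ hy).2
  have hsq : (f (x + Pi.single k d) - f x) ^ 2 = (f x - f (x + Pi.single k d)) ^ 2 := by ring
  rw [hsq, ← mul_assoc]
  exact mul_le_mul_of_nonneg_right this (sq_nonneg _)

end KRA

theorem KRA_proof : KraStmt := by
  intro κ _ _ u h A π ac hc hA hπ hh hac
  have hso : ∀ x ∈ box u, ∑ z ∈ box u, offA u h A ac x z ≤ 1 / 2 := fun x hx =>
    KRA.sum_off_le u h A ac hc hA hh x (fun y hy => (hac x hx y hy).2.1)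
  refine ⟨fun x hx y hy => ?_, fun x hx => ⟨?_, ?_⟩, fun f => ?_⟩
  · unfold kerA
    by_cases hxy : y = x
    · subst hxy
      refine ⟨?_, rfl⟩
      rw [if_pos rfl]
      linarith [hso y hy]
    · rw [if_neg hxy, if_neg (Ne.symm hxy)]
      exact ⟨KRA.off_nonneg u h A ac hA x y (hac x hx y hy).1,
        KRA.off_rev u h A π ac x y hx hy (hac x hx y hy).2.2.1⟩
  · have : ∀ y ∈ box u, kerA u h A ac x y = offA u h A ac x y +
        if y = x then 1 - ∑ z ∈ box u, offA u h A ac x z else 0 := by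
      intro y _
      unfold kerA
      by_cases hxy : y = x
      · subst hxy
        rw [if_pos rfl, if_pos rfl, KRA.off_self, zero_add]
      · rw [if_neg hxy, if_neg hxy, add_zero]
    rw [Finset.sum_congr rfl this, Finset.sum_add_distrib, Finset.sum_ite_eq', if_pos hx]
    ring
  · unfold kerA
    rw [if_pos rfl]
    linarith [hso x hx]
  · have e1 : ∑ x ∈ box u, ∑ y ∈ box u, π x * kerA u h A ac x y * (f x - f y) ^ 2 =
        ∑ k, (∑ d ∈ Icc 1 (h k), ∑ x ∈ box u, ∑ y ∈ box u,
          if y ∈ box u ∧ (y = x + Pi.single k d ∨ x = y + Pi.single k d) then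
            π x * ac x y * (f x - f y) ^ 2 else 0) / (4 * A * h k) := by
      have e2 : ∀ x ∈ box u, ∀ y ∈ box u, π x * kerA u h A ac x y * (f x - f y) ^ 2 =
          ∑ k, ∑ d ∈ Icc 1 (h k),
            (if y ∈ box u ∧ (y = x + Pi.single k d ∨ x = y + Pi.single k d) then
              π x * ac x y * (f x - f y) ^ 2 else 0) / (4 * A * h k) := by
        intro x _ y _
        have e3 : π x * kerA u h A ac x y * (f x - f y) ^ 2 =
            π x * offA u h A ac x y * (f x - f y) ^ 2 := by
          unfold kerA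
          by_cases hxy : y = x
          · subst hxy
            simp
          · rw [if_neg hxy]
        rw [e3]
        unfold offA
        rw [Finset.mul_sum, Finset.sum_mul]
        refine Finset.sum_congr rfl fun k _ => ?_
        rw [Finset.mul_sum, Finset.sum_mul]
        refine Finset.sum_congr rfl fun d _ => ?_
        split_ifs
        · ring
        · simp
      rw [Finset.sum_congr rfl fun x hx => Finset.sum_congr rfl fun y hy => e2 x hx y hy]
      simp only [Finset.sum_div]
      rw [Finset.sum_congr rfl fun x _ => Finset.sum_comm, Finset.sum_comm]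
      refine Finset.sum_congr rfl fun k _ => ?_
      rw [Finset.sum_congr rfl fun x _ => Finset.sum_comm, Finset.sum_comm]
    rw [e1, Finset.mul_sum]
    refine Finset.sum_le_sum fun k _ => ?_
    have hk : (0 : ℝ) < h k := by exact_mod_cast hh k
    have e4 : ∀ S : ℝ, 4 * A * (S / (4 * A * h k)) = S / h k := fun S => by field_simp
    rw [e4]
    refine div_le_div_of_nonneg_right ?_ hk.le
    exact Finset.sum_le_sum fun d hd =>
      KRA.dir_kd u π ac (fun x hx y hy => ⟨(hac x hx y hy).2.2.1, (hac x hx y hy).2.2.2⟩) f k d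
        (Finset.mem_Icc.1 hd).1

end Crest.Agent.R309
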