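import Crest.Agent.R309.LL

/-! Row 309, task LF: the unit-step Poincaré inequality for the soft model. -/

set_option autoImplicit false

namespace Crest.Agent.R309

open Finset Crest.Agent.PT Crest.Agent.QC Crest.Agent.R317 Crest.Agent.R300U

namespace LF

theorem prod_zpow {ι : Type} (S : Finset ι) {ρ : ℝ} (h : ρ ≠ 0) (f : ι → ℤ) :
    ∏ i ∈ S, ρ ^ f i = ρ ^ (∑ i ∈ S, f i) := by
  classical
  induction S using Finset.induction_on with
  | empty => simp
  | insert i S hi ih => rw [prod_insert hi, sum_insert hi, ih, zpow_add₀ h]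

theorem root_pow {n : ℕ} (hn : 1 ≤ n) {c : ℕ} (hc : c ≤ pJ2 n) :
    (1 + 1 / (pJ' n : ℝ)) ^ c ≤ (96 * n) ^ 2 := by
  have h0 : (1 : ℝ) ≤ 1 + 1 / (pJ' n : ℝ) := by
    have : (0 : ℝ) ≤ 1 / (pJ' n : ℝ) := by positivity
    linarith
  have h1 : (1 + 1 / (pJ' n : ℝ)) ^ pJ' n ≤ 4 := by
    rw [one_div]
    exact Real.one_add_inv_pow_le_exp.trans (by linarith [Real.exp_one_lt_d9])
  have h2 : 2 ^ (48 * n).size ≤ 96 * n := by
    have hs : 0 < (48 * n).size := Nat.size_pos.2 (by omega)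
    have : 2 ^ ((48 * n).size - 1) ≤ 48 * n := Nat.lt_size.1 (by omega)
    have e : 2 ^ (48 * n).size = 2 * 2 ^ ((48 * n).size - 1) := by
      rw [← pow_succ']; congr 1; omega
    omega
  have h3 : (2 : ℝ) ^ (48 * n).size ≤ 96 * n := by exact_mod_cast h2
  calc (1 + 1 / (pJ' n : ℝ)) ^ c ≤ (1 + 1 / (pJ' n : ℝ)) ^ pJ2 n := pow_le_pow_right₀ h0 hc
    _ = ((1 + 1 / (pJ' n : ℝ)) ^ pJ' n) ^ (48 * n).size := by rw [pJ2, mul_comm, pow_mul]
    _ ≤ 4 ^ (48 * n).size := pow_le_pow_left₀ (by positivity) h1 _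
    _ = (2 ^ (48 * n).size) ^ 2 := by
        rw [sq, ← mul_pow]; norm_num
    _ ≤ _ := pow_le_pow_left₀ (by positivity) h3 2

theorem root_step {P : Pre} (hn : 1 ≤ nn P) {s v : ℕ} (hs : s ≤ pS (nn P)) (hr : isRoot P v)
    {e e' : ℤ} (h : |e| ≤ |e'| + 1) : chi P s v e' ≤ (96 * nn P) ^ 2 * chi P s v e := by
  simp only [chi, if_pos hr]
  set c := s - pJ (nn P) with hc
  have hc' : c ≤ pJ2 (nn P) := by unfold pS at hs; omega
  set ρ := 1 + 1 / (pJ' (nn P) : ℝ) with hρ
  have h0 : (1 : ℝ) ≤ ρ := by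
    have : (0 : ℝ) ≤ 1 / (pJ' (nn P) : ℝ) := by positivity
    linarith
  calc ρ ^ (-((c : ℤ) * |e'|)) ≤ ρ ^ ((c : ℤ) + -((c : ℤ) * |e|)) :=
        zpow_le_zpow_right₀ h0 (by nlinarith [Int.natCast_nonneg c])
    _ = ρ ^ c * ρ ^ (-((c : ℤ) * |e|)) := by rw [zpow_add₀ (by linarith), zpow_natCast]
    _ ≤ _ := mul_le_mul_of_nonneg_right (root_pow hn hc') (by positivity)

/-- argument of the factor of `v` -/
def zz (P : Pre) (α : Fin (nA (gG P)) × Bool → ℕ) (v : ℕ) : ℤ := (∑ a ∈ Sc P v, (α a : ℤ)) - off P v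

theorem zz_add (P : Pre) (α : Fin (nA (gG P)) × Bool → ℕ) (a : Fin (nA (gG P)) × Bool) (v : ℕ) :
    zz P (α + ev a) v = zz P α v + if a ∈ Sc P v then 1 else 0 := by
  simp only [zz, Pi.add_apply, Nat.cast_add, sum_add_distrib, ev, Pi.single_apply, Nat.cast_ite,
    Nat.cast_one, Nat.cast_zero, sum_ite_eq']
  ring

theorem lamF_eq (P : Pre) (s : ℕ) (α : Fin (nA (gG P)) × Bool → ℕ) :
    lamF (range (nV (gG P))) (Sc P) (chi P s) (off P) α =
      ∏ v ∈ range (nV (gG P)), chi P s v (zz P α v) := rfl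

theorem one_root {P : Pre} (hP : Spec P) (a : Fin (nA (gG P)) × Bool) {R : ℝ} (hR : 1 ≤ R) :
    ∏ v ∈ range (nV (gG P)), (if isRoot P v ∧ a ∈ Sc P v then R else 1) ≤ R := by
  rw [prod_ite, prod_const_one, mul_one, prod_const]
  have : ((range (nV (gG P))).filter (fun v => isRoot P v ∧ a ∈ Sc P v)).card ≤ 1 := by
    refine card_le_one.2 fun v hv v' hv' => ?_
    rw [mem_filter, mem_range] at hv hv'
    by_contra hne
    refine hP.tree.roots v hv.1 v' hv'.1 hv.2.1 hv'.2.1 hne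
      (if a.2 = true then hd (gG P) a.1 else tl (gG P) a.1) ?_ ⟨?_, ?_⟩
    · split_ifs
      · exact (hP.wf _ a.1.2).2
      · exact (hP.wf _ a.1.2).1
    · simpa [Sc] using hv.2.2
    · simpa [Sc] using hv'.2.2
  simpa using pow_le_pow_right₀ hR this

theorem lam_step (hWf : WfStmt) {P : Pre} (hP : Spec P) {s : ℕ} (hs : s ≤ pS (nn P))
    (hpos : ∀ v < nV (gG P), ∀ e, 0 < chi P s v e) (a : Fin (nA (gG P)) × Bool) (z z' : ℕ → ℤ)
    (h : ∀ v, (a ∉ Sc P v → z' v = z v) ∧ (z' v = z v + 1 ∨ z v = z' v + 1 ∨ z' v = z v)) :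
    ∏ v ∈ range (nV (gG P)), chi P s v (z' v) ≤
      pΛ (nn P) * ∏ v ∈ range (nV (gG P)), chi P s v (z v) := by
  have hn := hP.pos
  have hn' : (1 : ℝ) ≤ nn P := by exact_mod_cast hn
  have hR : (1 : ℝ) ≤ (96 * nn P) ^ 2 := one_le_pow₀ (by linarith)
  have he : (1 : ℝ) ≤ Real.exp (1 / (2 * nn P ^ 2)) := Real.one_le_exp (by positivity)
  have key := LL.prod_le_exp hP.hV (c := 1 / (2 * nn P ^ 2)) (by positivity)
    (f := fun v => chi P s v (z' v))
    (g := fun v => (if isRoot P v ∧ a ∈ Sc P v then ((96 : ℝ) * nn P) ^ 2 else 1) * chi P s v (z v))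
    (fun v hv => (hpos v hv _).le)
    (fun v hv => mul_nonneg (by split_ifs <;> positivity) (hpos v hv _).le) (fun v hv => by
      have hp := hpos v hv (z v)
      by_cases ha : a ∈ Sc P v
      · by_cases hr : isRoot P v
        · rw [if_pos ⟨hr, ha⟩]
          refine (root_step hn hs hr (e := z v) (e' := z' v) ?_).trans
            (le_mul_of_one_le_left (by positivity) he)
          rcases (h v).2 with h1 | h1 | h1 <;> rw [abs_le] <;> constructor <;>
            linarith [le_abs_self (z' v), neg_abs_le (z' v)]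
        · rw [if_neg (fun h => hr h.1), one_mul]
          have hle : Real.exp (2 / Lv P v * pJ (nn P)) ≤ Real.exp (1 / (2 * nn P ^ 2)) := by
            refine Real.exp_le_exp.2 ?_
            have hL : (8 : ℝ) ≤ Lv P v := by exact_mod_cast LL.Lv_ge hP hv hr
            have h3 : 4 * (pJ (nn P) : ℝ) ≤ wd P (ta P v) := by exact_mod_cast LL.wd_ge hP hv hr
            rw [div_mul_eq_mul_div, div_le_div_iff₀ (by linarith) (by positivity)]
            simp only [Lv]
            push_cast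
            have : (0 : ℝ) ≤ nn P ^ 2 * pJ (nn P) := by positivity
            nlinarith [mul_le_mul_of_nonneg_left h3 (by positivity : (0 : ℝ) ≤ 2 * nn P ^ 2)]
          rcases (h v).2 with h1 | h1 | h1
          · rw [h1]
            exact (LL.chi_step hP hWf s hv hr _).2.1.trans (mul_le_mul_of_nonneg_right hle hp.le)
          · rw [h1] at hp ⊢
            exact (LL.chi_step hP hWf s hv hr _).2.2.1.trans (mul_le_mul_of_nonneg_right hle hp.le)
          · rw [h1]; exact le_mul_of_one_le_left hp.le he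
      · rw [if_neg (fun h => ha h.2), one_mul, (h v).1 ha]
        exact le_mul_of_one_le_left hp.le he)
  refine key.trans ?_
  rw [prod_mul_distrib, ← mul_assoc]
  refine mul_le_mul_of_nonneg_right ?_ (prod_nonneg fun v hv => (hpos v (mem_range.1 hv) _).le)
  have hex : Real.exp (1 / (2 * nn P ^ 2) * nn P) ≤ 2 := by
    refine le_trans (le_of_eq ?_) ((LL.exp_half_le hn).trans ?_)
    · congr 1; field_simp
    · have : (1 : ℝ) / nn P ≤ 1 := by rw [div_le_one (by linarith)]; exact hn'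
      linarith
  simp only [pΛ]
  push_cast
  exact mul_le_mul hex (one_root hP a hR)
    (prod_nonneg fun v _ => by split_ifs <;> positivity) (by norm_num)

theorem tprod {V : Type} [Fintype V] [DecidableEq V] (t : V → ℝ) (α : V → ℕ) (a : V) :
    ∏ c, t c ^ (α + ev a) c = (∏ c, t c ^ α c) * t a := by
  simp only [Pi.add_apply, pow_add, prod_mul_distrib, ev, Pi.single_apply, pow_ite, pow_one,
    pow_zero, prod_ite_eq', mem_univ, if_true]

/-- curvature of the laminar product along a large arc -/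
theorem lam_curv (hWf : WfStmt) {P : Pre} (hP : Spec P) (s : ℕ) (k : Fin (nA (gG P)))
    (hl : pK0 (nn P) ≤ uB P k) (α : Fin (nA (gG P)) × Bool → ℕ) :
    (1 - 5 * nn P * pJ (nn P) / (2 * (nn P : ℝ) ^ 2 * wd P k) ^ 2) *
        lamF (range (nV (gG P))) (Sc P) (chi P s) (off P) (α + ev (k, false) + ev (k, true)) ^ 2 ≤
      lamF (range (nV (gG P))) (Sc P) (chi P s) (off P) (α + ev (k, false) + ev (k, false)) *
        lamF (range (nV (gG P))) (Sc P) (chi P s) (off P) (α + ev (k, true) + ev (k, true)) := by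
  have hn := hP.pos
  have hn' : (1 : ℝ) ≤ nn P := by exact_mod_cast hn
  have hJ := LL.pJ_pos hn
  obtain ⟨-, hu, hcr⟩ := LL.large hP k.2 hl
  have hw : (8 : ℝ) ≤ wd P k := by
    have : 8 ≤ wd P k := by rw [← hu]; unfold pK0 at hl; omega
    exact_mod_cast this
  set W : ℝ := 2 * (nn P : ℝ) ^ 2 * wd P k with hW
  have hW8 : 8 ≤ W := by
    have : (1 : ℝ) ≤ nn P ^ 2 := one_le_pow₀ hn'
    nlinarith
  set q : ℝ := 1 - 5 / W ^ 2 with hq
  have hq5 : 5 / W ^ 2 ≤ 1 := by rw [div_le_one (by positivity)]; nlinarith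
  have hq5' : 0 ≤ 5 / W ^ 2 := by positivity
  have hq0 : 0 ≤ q := by linarith
  have hq1 : q ≤ 1 := by linarith
  simp only [lamF_eq, zz_add]
  rw [← prod_pow, ← prod_mul_distrib]
  have key : ∏ v ∈ range (nV (gG P)), (q ^ pJ (nn P) * chi P s v (zz P α v +
      (if (k, false) ∈ Sc P v then 1 else 0) + if (k, true) ∈ Sc P v then 1 else 0) ^ 2) ≤
      ∏ v ∈ range (nV (gG P)), chi P s v (zz P α v + (if (k, false) ∈ Sc P v then 1 else 0) +
        if (k, false) ∈ Sc P v then 1 else 0) * chi P s v (zz P α v +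
        (if (k, true) ∈ Sc P v then 1 else 0) + if (k, true) ∈ Sc P v then 1 else 0) := by
    refine prod_le_prod (fun v _ => by positivity) fun v hv => ?_
    rw [mem_range] at hv
    have hq2 : q ^ pJ (nn P) ≤ 1 := pow_le_one₀ hq0 hq1
    have m1 : (k, false) ∈ Sc P v ↔ inS P v (tl (gG P) k) = true := by simp [Sc]
    have m2 : (k, true) ∈ Sc P v ↔ inS P v (hd (gG P) k) = true := by simp [Sc]
    by_cases hc : inS P v (tl (gG P) k) = inS P v (hd (gG P) k)
    · have : (k, false) ∈ Sc P v ↔ (k, true) ∈ Sc P v := by rw [m1, m2, hc]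
      simp only [this]
      rw [← sq]
      exact mul_le_of_le_one_left (sq_nonneg _) hq2
    · obtain ⟨hr, hwd⟩ := hcr v hv hc
      have hc' := (LL.chi_step hP hWf s hv hr (zz P α v + 1)).2.2.2
      have hLW : W ≤ Lv P v := by
        simp only [Lv, hW]
        push_cast
        have : (wd P k : ℝ) ≤ wd P (ta P v) := by exact_mod_cast hwd
        exact mul_le_mul_of_nonneg_left this (by positivity)
      have hq3 : q ^ pJ (nn P) ≤ (1 - 5 / (Lv P v : ℝ) ^ 2) ^ pJ (nn P) := by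
        refine pow_le_pow_left₀ hq0 ?_ _
        have : 5 / (Lv P v : ℝ) ^ 2 ≤ 5 / W ^ 2 :=
          div_le_div_of_nonneg_left (by norm_num) (by positivity)
            (pow_le_pow_left₀ (by linarith) hLW 2)
        linarith
      have hc'' := (mul_le_mul_of_nonneg_right hq3 (sq_nonneg _)).trans hc'
      rw [add_sub_cancel_right] at hc''
      by_cases h1 : (k, false) ∈ Sc P v
      · have h2 : (k, true) ∉ Sc P v := fun h2 => hc ((m1.1 h1).trans (m2.1 h2).symm)
        simp only [if_pos h1, if_neg h2, add_zero]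
        rw [mul_comm (chi P s v (zz P α v + 1 + 1))]
        exact hc''
      · have h2 : (k, true) ∈ Sc P v := by
          by_contra h2
          rw [m1] at h1; rw [m2] at h2
          exact hc ((Bool.eq_false_iff.2 h1).trans (Bool.eq_false_iff.2 h2).symm)
        simp only [if_neg h1, if_pos h2, add_zero]
        exact hc''
  refine le_trans ?_ key
  rw [prod_mul_distrib, prod_const, card_range]
  refine mul_le_mul_of_nonneg_right ?_ (prod_nonneg fun v _ => sq_nonneg _)
  rw [← pow_mul]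
  refine le_trans ?_ (pow_le_pow_of_le_one hq0 hq1 (Nat.mul_le_mul_left _ hP.hV))
  have := one_add_mul_le_pow (a := -(5 / W ^ 2)) (by linarith) (pJ (nn P) * nn P)
  push_cast at this
  rw [hq, sub_eq_add_neg 1 (5 / W ^ 2)]
  refine le_trans (le_of_eq ?_) this
  ring

theorem Var_congr {X : Type} (Ω : Finset X) {π π' : X → ℝ} (h : ∀ x ∈ Ω, π x = π' x) (f : X → ℝ) :
    Var Ω π f = Var Ω π' f := by
  have e1 : ∑ x ∈ Ω, π x * f x ^ 2 = ∑ x ∈ Ω, π' x * f x ^ 2 :=
    sum_congr rfl fun x hx => by rw [h x hx]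
  have e2 : ∑ x ∈ Ω, π x * f x = ∑ x ∈ Ω, π' x * f x := sum_congr rfl fun x hx => by rw [h x hx]
  unfold Var
  rw [e1, e2, sum_congr rfl h]

theorem Ed_congr {κ : Type} [Fintype κ] [DecidableEq κ] (u : κ → ℕ) {π π' : (κ → ℕ) → ℝ}
    (h : ∀ x ∈ box u, π x = π' x) (f : (κ → ℕ) → ℝ) (k : κ) (d : ℕ) :
    Ed u π f k d = Ed u π' f k d := by
  unfold Ed
  refine sum_congr rfl fun x hx => ?_
  rw [mem_filter] at hx
  have hx' : x + Pi.single k d ∈ box u := by
    refine LL.mem_box.2 fun j => ?_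
    by_cases hj : j = k
    · subst hj; simpa using hx.2
    · simpa [hj] using LL.mem_box.1 hx.1 j
  rw [h x hx.1, h _ hx']

theorem Ed_nonneg {κ : Type} [Fintype κ] [DecidableEq κ] (u : κ → ℕ) {π : (κ → ℕ) → ℝ}
    (h : ∀ x, 0 ≤ π x) (f : (κ → ℕ) → ℝ) (k : κ) (d : ℕ) : 0 ≤ Ed u π f k d :=
  sum_nonneg fun _ _ => mul_nonneg (le_min (h _) (h _)) (sq_nonneg _)

end LF

theorem LF_proof (hWf : WfStmt) (hRep : RepStmt) (hLam : LamStmt) (hBup : BupStmt) : LfStmt := by
  intro P hP s p hV g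
  have hn := hP.pos
  have hn' : (1 : ℝ) ≤ nn P := by exact_mod_cast hn
  have hJ := LL.pJ_pos hn
  obtain ⟨hlam, hR⟩ := hRep P hP
  obtain ⟨hLC, hR⟩ := hR s p hV
  have hpos : ∀ v < nV (gG P), ∀ e, 0 < chi P s v e := fun v hv => (hLC v hv).1.1
  set ρ : ℝ := 1 + 1 / (pM (nn P) : ℝ) with hρ
  have hρ1 : 1 ≤ ρ := by
    have : (0 : ℝ) ≤ 1 / (pM (nn P) : ℝ) := by positivity
    linarith
  have hρ0 : 0 < ρ := by linarith
  set r : Fin (nA (gG P)) × Bool → ℤ := fun c =>
    ∑ v ∈ range (nV (gG P)), if isRoot P v ∧ c ∈ Sc P v then p.getD v 0 else 0 with hr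
  set m : Fin (nA (gG P)) → ℤ := fun k => max (r (k, false)) (r (k, true)) with hm
  set t : Fin (nA (gG P)) × Bool → ℝ := fun c => ρ ^ (r c - m c.1) with ht
  set c0 : ℝ := ρ ^ (∑ k, m k * uB P k -
    ∑ v ∈ range (nV (gG P)), if isRoot P v then p.getD v 0 * off P v else 0) with hc0
  have ht0 : ∀ c, 0 < t c := fun c => zpow_pos hρ0 _
  have ht1 : ∀ c, t c ≤ 1 := by
    rintro ⟨k, b⟩
    refine zpow_le_one_of_nonpos₀ hρ1 ?_
    cases b
    · exact sub_nonpos.2 (le_max_left _ _)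
    · exact sub_nonpos.2 (le_max_right _ _)
  have hc00 : 0 < c0 := zpow_pos hρ0 _
  set A := lamF (range (nV (gG P))) (Sc P) (chi P s) (off P) with hA
  have hA0 : ∀ α, 0 < A α := fun α => prod_pos fun v hv => hpos v (mem_range.1 hv) _
  have hT0 : ∀ α : Fin (nA (gG P)) × Bool → ℕ, 0 < ∏ a, t a ^ α a :=
    fun α => prod_pos fun a _ => pow_pos (ht0 a) _
  set F : (Fin (nA (gG P)) × Bool → ℕ) → ℝ := fun α => c0 * A α * ∏ a, t a ^ α a with hF
  have hL : IsL F := hLam ℕ _ _ _ _ _ c0 t hlam (fun v hv => (hLC v (mem_range.1 hv)).1) hc00 ht0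
  have hΛ : (1 : ℝ) ≤ pΛ (nn P) := by
    simp only [pΛ]; push_cast; nlinarith
  have up : ∀ α a, A (α + ev a) ≤ pΛ (nn P) * A α := fun α a => by
    rw [hA, LF.lamF_eq, LF.lamF_eq]
    refine LF.lam_step hWf hP hV.1 hpos a _ _ fun v => ?_
    rw [LF.zz_add]
    by_cases h : a ∈ Sc P v <;> simp [h]
  have dn : ∀ α a, A α ≤ pΛ (nn P) * A (α + ev a) := fun α a => by
    rw [hA, LF.lamF_eq, LF.lamF_eq]
    refine LF.lam_step hWf hP hV.1 hpos a _ _ fun v => ?_
    rw [LF.zz_add]
    by_cases h : a ∈ Sc P v <;> simp [h]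
  have hup : ∀ α a, F (α + ev a) ≤ pΛ (nn P) * F α := fun α a => by
    simp only [hF]
    rw [LF.tprod]
    calc c0 * A (α + ev a) * ((∏ c, t c ^ α c) * t a) ≤ c0 * (pΛ (nn P) * A α) * ∏ c, t c ^ α c :=
          mul_le_mul (mul_le_mul_of_nonneg_left (up α a) hc00.le)
            (mul_le_of_le_one_right (hT0 α).le (ht1 a)) (mul_pos (hT0 α) (ht0 a)).le
            (by have := hA0 α; positivity)
      _ = _ := by ring
  have hdn : ∀ a, t a = 1 → ∀ α, F α ≤ pΛ (nn P) * F (α + ev a) := fun a ha α => by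
    simp only [hF]
    rw [LF.tprod, ha, mul_one]
    calc c0 * A α * ∏ c, t c ^ α c ≤ c0 * (pΛ (nn P) * A (α + ev a)) * ∏ c, t c ^ α c :=
          mul_le_mul_of_nonneg_right (mul_le_mul_of_nonneg_left (dn α a) hc00.le) (hT0 α).le
      _ = _ := by ring
  have hB : ∀ k : Fin (nA (gG P)),
      BlockOK F (pΛ (nn P)) ((pK0 (nn P) : ℝ) ^ 2) ((k, false), (k, true), uB P k) := by
    intro k
    refine ⟨?_, ?_⟩
    · rcases le_total (r (k, false)) (r (k, true)) with h | h
      · refine ⟨(k, true), Or.inr rfl, hdn _ ?_⟩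
        simp only [ht, hm, max_eq_right h, sub_self, zpow_zero]
      · refine ⟨(k, false), Or.inl rfl, hdn _ ?_⟩
        simp only [ht, hm, max_eq_left h, sub_self, zpow_zero]
    · by_cases hl : uB P k < pK0 (nn P)
      · refine ⟨1, zero_le_one, le_rfl, ?_, fun α => ?_⟩
        · have : (uB P k : ℝ) + 1 ≤ pK0 (nn P) := by exact_mod_cast hl
          rw [mul_one]
          exact pow_le_pow_left₀ (by positivity) this 2
        · rw [sub_self, zero_mul]
          exact (mul_pos (hL.1 _) (hL.1 _)).le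
      · have hl' := not_lt.1 hl
        obtain ⟨-, hu, -⟩ := LL.large hP k.2 hl'
        have hJ' : (1 : ℝ) ≤ pJ (nn P) := by
          have : 1 ≤ pJ (nn P) := by omega
          exact_mod_cast this
        have hw : 4 * (pJ (nn P) : ℝ) ≤ wd P k := by
          rw [← hu]; exact_mod_cast hl'
        have hw0 : (1 : ℝ) ≤ wd P k := by linarith
        have hn3 : (1 : ℝ) ≤ nn P ^ 3 := one_le_pow₀ hn'
        refine ⟨5 * nn P * pJ (nn P) / (2 * (nn P : ℝ) ^ 2 * wd P k) ^ 2, by positivity, ?_, ?_,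
          fun α => ?_⟩
        · rw [div_le_one (by positivity)]
          have h1 : (4 * (pJ (nn P) : ℝ)) ^ 2 ≤ wd P k ^ 2 := pow_le_pow_left₀ (by positivity) hw 2
          have h2 : (pJ (nn P) : ℝ) ≤ wd P k ^ 2 / 16 := by nlinarith
          calc 5 * (nn P : ℝ) * pJ (nn P) ≤ 5 * nn P * (wd P k ^ 2 / 16) :=
                mul_le_mul_of_nonneg_left h2 (by positivity)
            _ ≤ 4 * (nn P * nn P ^ 3) * wd P k ^ 2 := by
                have : (0 : ℝ) ≤ nn P * wd P k ^ 2 := by positivity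
                nlinarith
            _ = _ := by ring
        · simp only [hu, pK0]
          push_cast
          rw [← mul_div_assoc, div_le_iff₀ (by positivity)]
          have h1 : ((wd P k : ℝ) + 1) ^ 2 ≤ 4 * wd P k ^ 2 := by nlinarith
          calc ((wd P k : ℝ) + 1) ^ 2 * (5 * nn P * pJ (nn P)) ≤
                4 * wd P k ^ 2 * (5 * nn P * pJ (nn P)) :=
                mul_le_mul_of_nonneg_right h1 (by positivity)
            _ = 20 * (nn P * pJ (nn P) * wd P k ^ 2) * 1 := by ring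
            _ ≤ 64 * (nn P * pJ (nn P) * wd P k ^ 2) * (pJ (nn P) * nn P ^ 3) :=
                mul_le_mul (by nlinarith [show (0 : ℝ) ≤ nn P * pJ (nn P) * wd P k ^ 2 by positivity])
                  (one_le_mul_of_one_le_of_one_le hJ' hn3) zero_le_one (by positivity)
            _ = _ := by ring
        · have hcv := LF.lam_curv hWf hP s k hl' α
          rw [← hA] at hcv
          simp only [hF, LF.tprod]
          have := mul_le_mul_of_nonneg_left hcv
            (sq_nonneg (c0 * ((∏ c, t c ^ α c) * t (k, false) * t (k, true))))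
          refine le_trans (le_of_eq ?_) (this.trans (le_of_eq ?_)) <;> ring
  have hFπ : ∀ x ∈ bx P, F (node (fun k : Fin (nA (gG P)) => uB P k) x) = πq P s p x := by
    intro x hx
    obtain ⟨h1, h2⟩ := hR x hx
    rw [h2]
    simp only [hF, hA, lamF, h1, chiT, prod_mul_distrib]
    rw [mul_right_comm, mul_comm]
    congr 1
    have e1 : ∀ v, (if isRoot P v then ρ ^ (p.getD v 0 * Ev P (toL x) v) else 1) =
        ρ ^ (if isRoot P v then p.getD v 0 * Ev P (toL x) v else 0) := by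
      intro v; split_ifs <;> simp
    simp only [← hρ, e1, ht, hc0, ← zpow_natCast, ← zpow_mul]
    rw [LF.prod_zpow _ hρ0.ne', LF.prod_zpow _ hρ0.ne', ← zpow_add₀ hρ0.ne']
    congr 1
    set y := node (fun k : Fin (nA (gG P)) => uB P k) x with hy
    have e2 : ∑ a, m a.1 * (y a : ℤ) = ∑ k, m k * uB P k := by
      rw [Fintype.sum_prod_type]
      refine sum_congr rfl fun k _ => ?_
      have := LL.mem_box.1 hx k
      simp only [hy, node, Fintype.sum_bool, if_true, Bool.false_eq_true, if_false]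
      rw [Nat.cast_sub this]
      ring
    have e3 : ∑ a, r a * (y a : ℤ) = ∑ v ∈ range (nV (gG P)),
        if isRoot P v then p.getD v 0 * ∑ a ∈ Sc P v, (y a : ℤ) else 0 := by
      simp only [hr, sum_mul]
      rw [sum_comm]
      refine sum_congr rfl fun v _ => ?_
      by_cases hv : isRoot P v
      · simp only [hv, true_and, if_true, ite_mul, zero_mul, mul_sum]
        rw [← sum_filter, filter_mem_eq_inter, univ_inter]
      · simp [hv]
    simp only [sub_mul, sum_sub_distrib, e2, e3, ← h1]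
    rw [sub_add_sub_cancel', ← sum_sub_distrib]
    refine sum_congr rfl fun v _ => ?_
    split_ifs <;> ring
  have main := hBup _ (fun k : Fin (nA (gG P)) => uB P k) F (pΛ (nn P)) ((pK0 (nn P) : ℝ) ^ 2) hL hΛ
    (by positivity) hup hB g
  rw [LF.Var_congr (box fun k : Fin (nA (gG P)) => uB P k) hFπ] at main
  have hS : 0 ≤ ∑ k : Fin (nA (gG P)), ((uB P k : ℝ) + 1) ^ 2 *
      Ed (fun k : Fin (nA (gG P)) => uB P k)
        (fun x => F (node (fun k : Fin (nA (gG P)) => uB P k) x)) g k 1 :=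
    sum_nonneg fun k _ => mul_nonneg (sq_nonneg _) (LF.Ed_nonneg _ (fun x => (hL.1 _).le) _ _ _)
  have hcard : (Fintype.card (Fin (nA (gG P))) : ℝ) ≤ nn P := by
    rw [Fintype.card_fin]; exact_mod_cast hP.hA
  have hC : (Fintype.card (Fin (nA (gG P))) : ℝ) * (2 * (pΛ (nn P) : ℝ) ^ 2 + 4 *
      (pK0 (nn P) : ℝ) ^ 2 * Fintype.card (Fin (nA (gG P))) * (pΛ (nn P) : ℝ) ^ 4) ≤ pCP (nn P) := by
    simp only [pCP]
    push_cast
    gcongr
  refine (main.trans (mul_le_mul_of_nonneg_right hC hS)).trans (le_of_eq ?_)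
  congr 1
  refine sum_congr rfl fun k _ => ?_
  rw [LF.Ed_congr _ hFπ]

end Crest.Agent.R309
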