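import Crest.Agent.R309.DefsC

/-! Row 309, task LL: local Lipschitz bounds for the soft weights. -/

set_option autoImplicit false

namespace Crest.Agent.R309

open Finset Crest.Agent.PT Crest.Agent.QC Crest.Agent.R317 Crest.Agent.R300U

namespace LL

theorem mem_box {κ : Type} [Fintype κ] [DecidableEq κ] {u x : κ → ℕ} :
    x ∈ box u ↔ ∀ k, x k ≤ u k := by
  simp [box, Fintype.mem_piFinset]

theorem gv_toL {N : ℕ} (x : Fin N → ℕ) (k : Fin N) : gv (toL x) k = x k := by
  simp [gv, toL, List.getD_eq_getElem?_getD]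

theorem pJ_pos {n : ℕ} (hn : 1 ≤ n) : 2 ^ 30 ≤ pJ n := by
  unfold pJ
  exact Nat.le_mul_of_pos_right _ (by positivity)

theorem pow_step {r x y : ℝ} {m J : ℕ} (hm : m ≤ J) (hr : 0 ≤ r) (hx : 0 ≤ x) (hy : 0 ≤ y)
    (h : x ≤ (1 + r) * y) : x ^ m ≤ Real.exp (r * J) * y ^ m := by
  have h1 : x ^ m ≤ (Real.exp r * y) ^ m := by
    refine pow_le_pow_left₀ hx (h.trans (mul_le_mul_of_nonneg_right ?_ hy)) m
    linarith [Real.add_one_le_exp r]
  refine h1.trans ?_
  rw [mul_pow, ← Real.exp_nat_mul]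
  refine mul_le_mul_of_nonneg_right (Real.exp_le_exp.2 ?_) (by positivity)
  have : (m : ℝ) ≤ J := by exact_mod_cast hm
  nlinarith

theorem sg_cases {P : Pre} {v k : ℕ}
    (h : inS P v (tl (gG P) k) ≠ inS P v (hd (gG P) k)) : sg P v k = 1 ∨ sg P v k = -1 := by
  unfold sg
  cases h1 : inS P v (tl (gG P) k) <;> cases h2 : inS P v (hd (gG P) k) <;> simp_all

theorem sg_zero {P : Pre} {v k : ℕ}
    (h : inS P v (tl (gG P) k) = inS P v (hd (gG P) k)) : sg P v k = 0 := by
  unfold sg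
  rw [h, sub_self]

section
variable {P : Pre} (hP : Spec P)
include hP

theorem wd_ge {v : ℕ} (hv : v < nV (gG P)) (hr : ¬ isRoot P v) : 4 * pJ (nn P) ≤ wd P (ta P v) :=
  (hP.tree.own v hv (not_le.1 hr)).1

theorem Lv_ge {v : ℕ} (hv : v < nV (gG P)) (hr : ¬ isRoot P v) : 8 ≤ Lv P v := by
  have h1 := wd_ge hP hv hr
  have h2 := pJ_pos hP.pos
  have h3 : 1 ≤ nn P ^ 2 := Nat.one_le_pow _ _ hP.pos
  unfold Lv
  nlinarith

/-- one step of a wall factor -/
theorem chi_step (hWf : WfStmt) (s : ℕ) {v : ℕ} (hv : v < nV (gG P)) (hr : ¬ isRoot P v) (e : ℤ) :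
    0 < chi P s v e ∧ chi P s v (e + 1) ≤ Real.exp (2 / Lv P v * pJ (nn P)) * chi P s v e ∧
      chi P s v e ≤ Real.exp (2 / Lv P v * pJ (nn P)) * chi P s v (e + 1) ∧
      (1 - 5 / (Lv P v : ℝ) ^ 2) ^ pJ (nn P) * chi P s v e ^ 2 ≤
        chi P s v (e - 1) * chi P s v (e + 1) := by
  have hL := Lv_ge hP hv hr
  have hw := wd_ge hP hv hr
  have hJ := pJ_pos hP.pos
  obtain ⟨⟨hpos, -⟩, -, hst, hcv, -⟩ := hWf (Lv P v) (lo P (ta P v))
    (lo P (ta P v) + wd P (ta P v)) hL (by omega)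
  have hσ := sg_cases (hP.tree.own v hv (not_le.1 hr)).2
  have hm : min s (pJ (nn P)) ≤ pJ (nn P) := min_le_right _ _
  have hr0 : (0 : ℝ) ≤ 2 / Lv P v := by positivity
  have hL' : (8 : ℝ) ≤ Lv P v := by exact_mod_cast hL
  have hq0 : (0 : ℝ) ≤ 1 - 5 / (Lv P v : ℝ) ^ 2 := by
    rw [sub_nonneg, div_le_one (by positivity)]; nlinarith
  have hq1 : 1 - 5 / (Lv P v : ℝ) ^ 2 ≤ 1 := by
    have : (0 : ℝ) ≤ 5 / (Lv P v : ℝ) ^ 2 := by positivity
    linarith
  have curv : ∀ x y z : ℝ, 0 ≤ x → (1 - 5 / (Lv P v : ℝ) ^ 2) * x ^ 2 ≤ y * z →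
      (1 - 5 / (Lv P v : ℝ) ^ 2) ^ pJ (nn P) * (x ^ min s (pJ (nn P))) ^ 2 ≤
        y ^ min s (pJ (nn P)) * z ^ min s (pJ (nn P)) := by
    intro x y z hx h
    rw [← mul_pow, ← pow_mul, mul_comm (min _ _) 2, pow_mul]
    refine le_trans ?_ (pow_le_pow_left₀ (by positivity) h _)
    rw [mul_pow]
    exact mul_le_mul_of_nonneg_right (pow_le_pow_of_le_one hq0 hq1 hm) (by positivity)
  simp only [chi, if_neg hr]
  rcases hσ with hσ | hσ
  · rw [hσ]
    have e1 : -1 * e = -1 * (e + 1) + 1 := by ring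
    have e2 : -1 * (e - 1) = -1 * e + 1 := by ring
    have e3 : -1 * (e + 1) = -1 * e - 1 := by ring
    refine ⟨pow_pos (hpos _) _, ?_, ?_, ?_⟩
    · refine pow_step hm hr0 (hpos _).le (hpos _).le ?_
      rw [e1]; exact (hst _).2
    · refine pow_step hm hr0 (hpos _).le (hpos _).le ?_
      rw [e1]; exact (hst _).1
    · refine curv _ _ _ (hpos _).le ?_
      rw [e2, e3, mul_comm (wall _ _) (wall _ _)]; exact hcv _
  · rw [hσ]
    simp only [neg_neg, one_mul]
    exact ⟨pow_pos (hpos _) _, pow_step hm hr0 (hpos _).le (hpos _).le (hst _).1,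
      pow_step hm hr0 (hpos _).le (hpos _).le (hst _).2, curv _ _ _ (hpos _).le (hcv _)⟩

theorem chi_steps (hWf : WfStmt) (s : ℕ) {v : ℕ} (hv : v < nV (gG P)) (hr : ¬ isRoot P v) (e : ℤ)
    (d : ℕ) : chi P s v (e + d) ≤ Real.exp (2 / Lv P v * pJ (nn P) * d) * chi P s v e ∧
      chi P s v e ≤ Real.exp (2 / Lv P v * pJ (nn P) * d) * chi P s v (e + d) := by
  induction d with
  | zero => simp
  | succ d ih =>
    obtain ⟨-, h1, h2, -⟩ := chi_step hP hWf s hv hr (e + d)
    push_cast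
    rw [← add_assoc, mul_add, mul_one, Real.exp_add]
    constructor
    · calc _ ≤ _ := h1
        _ ≤ Real.exp (2 / Lv P v * pJ (nn P)) * (Real.exp (2 / Lv P v * pJ (nn P) * d) *
            chi P s v e) := mul_le_mul_of_nonneg_left ih.1 (Real.exp_pos _).le
        _ = _ := by ring
    · calc _ ≤ _ := ih.2
        _ ≤ Real.exp (2 / Lv P v * pJ (nn P) * d) * (Real.exp (2 / Lv P v * pJ (nn P)) *
            chi P s v (e + d + 1)) := mul_le_mul_of_nonneg_left h2 (Real.exp_pos _).le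
        _ = _ := by ring

/-- a large arc is not a tree arc and crosses only wide non-root sets -/
theorem large {k : ℕ} (hk : k < nA (gG P)) (h : pK0 (nn P) ≤ uB P k) :
    ¬ isTree P k ∧ uB P k = wd P k ∧ ∀ v < nV (gG P),
      inS P v (tl (gG P) k) ≠ inS P v (hd (gG P) k) → ¬ isRoot P v ∧ wd P k ≤ wd P (ta P v) := by
  have hJ := pJ_pos hP.pos
  have ht : ¬ isTree P k := by
    intro ht
    simp only [uB, if_pos ht, pK0] at h
    omega
  have hu : uB P k = wd P k := by simp only [uB, if_neg ht]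
  refine ⟨ht, hu, fun v hv hc => ?_⟩
  obtain ⟨h1, h2⟩ := hP.tree.wide v hv k hk hc
  have hr : ¬ isRoot P v := fun hr => by
    have := h2 hr
    omega
  exact ⟨hr, h1 (not_le.1 hr)⟩

end

theorem Ev_add {P : Pre} (x : Fin (nA (gG P)) → ℕ) (k : Fin (nA (gG P))) (ht : ¬ isTree P k)
    (d v : ℕ) : Ev P (toL (x + Pi.single k d)) v = Ev P (toL x) v + sg P v k * d := by
  simp only [Ev]
  rw [← Fin.sum_univ_eq_sum_range (fun j => sg P v j * bz (x0 P (toL x) j)),
    ← Fin.sum_univ_eq_sum_range (n := nA (gG P))]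
  have : ∀ j : Fin (nA (gG P)), sg P v j * bz (x0 P (toL (x + Pi.single k d)) j) =
      sg P v j * bz (x0 P (toL x) j) + if j = k then sg P v k * d else 0 := by
    intro j
    simp only [x0, gv_toL, bz, Pi.add_apply]
    by_cases hj : j = k
    · subst hj
      simp only [if_neg ht, Pi.single_eq_same, if_true]
      push_cast; ring
    · simp [hj]
  simp only [this, sum_add_distrib, sum_ite_eq', mem_univ, if_true]
  ring

theorem exp_half_le {n : ℕ} (hn : 1 ≤ n) : Real.exp (1 / (2 * n)) ≤ 1 + 1 / n := by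
  have hn' : (1 : ℝ) ≤ n := by exact_mod_cast hn
  have h1 : (1 : ℝ) / (2 * n) ≤ 1 / 2 := by
    rw [div_le_div_iff₀ (by positivity) (by norm_num)]; linarith
  have h2 := Real.exp_bound_div_one_sub_of_interval' (x := 1 / (2 * n)) (by positivity)
    (by linarith)
  refine h2.le.trans ?_
  rw [div_le_iff₀ (by linarith)]
  have : (1 + 1 / (n : ℝ)) * (1 - 1 / (2 * n)) = 1 + (n - 1) / (2 * n ^ 2) := by
    field_simp; ring
  rw [this]
  have : (0 : ℝ) ≤ (n - 1) / (2 * n ^ 2) := div_nonneg (by linarith) (by positivity)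
  linarith

theorem prod_le_exp {m n : ℕ} (hm : m ≤ n) {f g : ℕ → ℝ} {c : ℝ} (hc : 0 ≤ c)
    (hf : ∀ v < m, 0 ≤ f v) (hg : ∀ v < m, 0 ≤ g v) (h : ∀ v < m, f v ≤ Real.exp c * g v) :
    ∏ v ∈ range m, f v ≤ Real.exp (c * n) * ∏ v ∈ range m, g v := by
  refine (prod_le_prod (fun v hv => hf v (mem_range.1 hv)) (fun v hv => h v (mem_range.1 hv))).trans ?_
  rw [prod_mul_distrib, prod_const, card_range, ← Real.exp_nat_mul]
  refine mul_le_mul_of_nonneg_right (Real.exp_le_exp.2 ?_)
    (prod_nonneg fun v hv => hg v (mem_range.1 hv))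
  have : (m : ℝ) ≤ n := by exact_mod_cast hm
  nlinarith

end LL

theorem LL_proof (hWf : WfStmt) (hRep : RepStmt) : LlStmt := by
  intro P hP s p hV k
  have hn := hP.pos
  have hJ := LL.pJ_pos hn
  have hK2 : 0 < pK2 (nn P) := by unfold pK2; omega
  have huw : uB P k ≤ wd P k := by unfold uB; split_ifs <;> omega
  refine ⟨?_, ?_, fun h3 => ?_⟩
  · unfold he
    split_ifs
    · omega
    · have h1 : (uB P k / pK2 (nn P)).size ≤ (wd P k).size :=
        Nat.size_le_size ((Nat.div_le_self _ _).trans huw)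
      have h2 : (wd P k).size ≤ ∑ j ∈ range (nA (gG P)), (wd P j).size :=
        single_le_sum (f := fun j => (wd P j).size) (fun _ _ => Nat.zero_le _) (mem_range.2 k.2)
      have := hP.hsz
      omega
  · have : uB P k + 1 ≤ 8 * pK2 (nn P) * 2 ^ he P k := by
      unfold he
      split_ifs with h
      · simp only [pK0, pK2] at h ⊢; omega
      · set q := uB P k / pK2 (nn P) with hq
        have h1 : q < 2 ^ q.size := Nat.lt_size_self q
        have h2 : 2 ^ q.size ≤ 2 * 2 ^ (q.size - 1) := by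
          rw [← pow_succ']; exact Nat.pow_le_pow_right (by norm_num) (by omega)
        have h4 : uB P k < pK2 (nn P) * (q + 1) := Nat.lt_mul_div_succ _ hK2
        have h5 : pK2 (nn P) * (q + 1) ≤ pK2 (nn P) * (2 * 2 ^ (q.size - 1)) :=
          Nat.mul_le_mul_left _ (by omega)
        nlinarith [Nat.zero_le (pK2 (nn P) * 2 ^ (q.size - 1))]
    exact_mod_cast this
  · have hl : pK0 (nn P) ≤ uB P k := by
      by_contra h
      simp only [he, if_pos (not_le.1 h)] at h3
      omega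
    have hhe : 2 ^ he P k ≤ uB P k / pK2 (nn P) := by
      have hq : 1 ≤ uB P k / pK2 (nn P) := by
        rw [Nat.le_div_iff_mul_le hK2]
        simp only [pK0, pK2] at hl ⊢; omega
      simp only [he, if_neg (not_lt.2 hl)]
      refine Nat.lt_size.1 ?_
      have := Nat.size_pos.2 hq
      omega
    obtain ⟨ht, hu, hcr⟩ := LL.large hP k.2 hl
    refine ⟨hhe.trans (Nat.div_le_self _ _), fun x hx d hd hxd => ?_⟩
    have hx' : x + Pi.single k d ∈ bx P := by
      refine LL.mem_box.2 fun j => ?_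
      by_cases hj : j = k
      · subst hj; simpa using hxd
      · simpa [hj] using LL.mem_box.1 hx j
    obtain ⟨-, hR⟩ := hRep P hP
    obtain ⟨hLC, hR⟩ := hR s p hV
    rw [(hR x hx).2, (hR _ hx').2]
    have hdK : d * pK2 (nn P) ≤ wd P k := by
      rw [← hu]; exact (Nat.le_div_iff_mul_le hK2).1 (hd.trans hhe)
    have hn' : (1 : ℝ) ≤ nn P := by exact_mod_cast hn
    have key : ∀ v < nV (gG P), ∀ e : ℤ,
        chiT P s p v (e + sg P v k * d) ≤ Real.exp (1 / (2 * nn P ^ 2)) * chiT P s p v e ∧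
        chiT P s p v e ≤ Real.exp (1 / (2 * nn P ^ 2)) * chiT P s p v (e + sg P v k * d) := by
      intro v hv e
      have h1 : (1 : ℝ) ≤ Real.exp (1 / (2 * nn P ^ 2)) := Real.one_le_exp (by positivity)
      by_cases hc : inS P v (tl (gG P) k) = inS P v (R309.hd (gG P) k)
      · rw [LL.sg_zero hc, zero_mul, add_zero]
        have := (hLC v hv).2.1 e
        constructor <;> nlinarith
      · obtain ⟨hr, hw⟩ := hcr v hv hc
        have hle : Real.exp (2 / Lv P v * pJ (nn P) * d) ≤ Real.exp (1 / (2 * nn P ^ 2)) := by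
          refine Real.exp_le_exp.2 ?_
          have hL : (8 : ℝ) ≤ Lv P v := by exact_mod_cast LL.Lv_ge hP hv hr
          have h2 : d * (2 * pJ (nn P)) ≤ wd P (ta P v) := hdK.trans hw
          have h3 : (d : ℝ) * (2 * pJ (nn P)) ≤ wd P (ta P v) := by exact_mod_cast h2
          rw [div_mul_eq_mul_div, div_mul_eq_mul_div, div_le_div_iff₀ (by linarith) (by positivity)]
          simp only [Lv]
          push_cast
          nlinarith [mul_le_mul_of_nonneg_left h3 (by positivity : (0 : ℝ) ≤ 2 * nn P ^ 2)]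
        simp only [chiT, if_neg hr, mul_one]
        have hp := fun e => (LL.chi_step hP hWf s hv hr e).1.le
        rcases LL.sg_cases hc with hσ | hσ
        · rw [hσ, one_mul]
          obtain ⟨a1, a2⟩ := LL.chi_steps hP hWf s hv hr e d
          exact ⟨a1.trans (mul_le_mul_of_nonneg_right hle (hp _)),
            a2.trans (mul_le_mul_of_nonneg_right hle (hp _))⟩
        · rw [hσ]
          obtain ⟨a1, a2⟩ := LL.chi_steps hP hWf s hv hr (e + -1 * d) d
          have e1 : e + -1 * (d : ℤ) + d = e := by ring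
          rw [e1] at a1 a2
          exact ⟨a2.trans (mul_le_mul_of_nonneg_right hle (hp _)),
            a1.trans (mul_le_mul_of_nonneg_right hle (hp _))⟩
    have hex : Real.exp (1 / (2 * nn P ^ 2) * nn P) ≤ 1 + 1 / nn P := by
      refine le_trans (le_of_eq ?_) (LL.exp_half_le hn)
      congr 1; field_simp
    have hp := fun v hv e => ((hLC v hv).2.1 e).le
    simp only [LL.Ev_add x k ht]
    constructor
    · refine (LL.prod_le_exp hP.hV (by positivity) (fun v hv => hp v hv _) (fun v hv => hp v hv _)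
        (fun v hv => (key v hv _).1)).trans ?_
      exact mul_le_mul_of_nonneg_right hex (prod_nonneg fun v hv => hp v (mem_range.1 hv) _)
    · refine (LL.prod_le_exp hP.hV (by positivity) (fun v hv => hp v hv _) (fun v hv => hp v hv _)
        (fun v hv => (key v hv _).2)).trans ?_
      exact mul_le_mul_of_nonneg_right hex (prod_nonneg fun v hv => hp v (mem_range.1 hv) _)

end Crest.Agent.R309
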