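import Crest.Agent.R309.DefsC

/-!
Row 309, PRE: the preprocessing.
-/

set_option autoImplicit false

namespace Crest.Agent.R309

open Finset Crest.Agent.PT Crest.Agent.QC Crest.Agent.R317 Crest.Agent.R300U

namespace PRE

theorem sum_size_le (l : List (ℕ × ℕ × Bin)) :
    ∑ k ∈ range l.length, (l.getD k (0, 0, ⟨0⟩)).2.2.val.size ≤ sz l := by
  induction l with
  | nil => simp
  | cons x l ih =>
    rw [List.length_cons, Finset.sum_range_succ']
    obtain ⟨a, b, c⟩ := x
    simp only [List.getD_cons_succ, List.getD_cons_zero, sz_cons, sz_pair, sz_bin]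
    omega

theorem nV_le (G : Net) : nV G ≤ sz G := by
  obtain ⟨n, A, D⟩ := G
  simp only [nV, sz_pair, sz_nat]; omega

theorem nA_le (G : Net) : nA G ≤ sz G := by
  obtain ⟨n, A, D⟩ := G
  have := length_le_sz A
  simp only [nA, sz_pair, sz_nat]; omega

theorem sum_cap_le (G : Net) : ∑ k ∈ range (nA G), (cap G k).size ≤ sz G := by
  obtain ⟨n, A, D⟩ := G
  have := sum_size_le A
  simp only [nA, cap, sz_pair, sz_nat]; omega

theorem le_cap {G : Net} {X : Fin (nA G) → ℕ} (hX : X ∈ flows G) (k : Fin (nA G)) :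
    X k ≤ cap G k := by
  classical
  unfold flows at hX
  have h := (Finset.mem_filter.1 hX).1
  unfold box at h
  have := Fintype.mem_piFinset.1 h k
  simpa [Nat.lt_succ_iff] using this

end PRE

theorem PRE_proof (hRng : RngStmt) (hPrim : PrimStmt) : PreStmt := by
  obtain ⟨rg, hrg, Hrg⟩ := hRng
  obtain ⟨pr, hpr, Hpr⟩ := hPrim
  have hn : PT (fun G : Net => sz G + 1) := PT.add (PT.len PT.id') (PT.const _)
  have hK : PT (fun G : Net => pK0 (sz G + 1)) := by
    unfold pK0 pJ
    exact PT.mul (PT.const _) (PT.mul (PT.const _) (PT.pow hn 8))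
  have hp : PT (fun G : Net => pr (G, (rg G).2, pK0 (sz G + 1))) :=
    hpr.comp (PT.pair PT.id' (PT.pair (PT.snd hrg) hK))
  refine ⟨fun G => (G, (rg G).1, (rg G).2, (pr (G, (rg G).2, pK0 (sz G + 1))).1,
    (pr (G, (rg G).2, pK0 (sz G + 1))).2, sz G + 1), ?_, fun G => ⟨rfl, rfl, fun hW hne => ?_⟩⟩
  · exact PT.pair PT.id' (PT.pair (PT.fst hrg) (PT.pair (PT.snd hrg)
      (PT.pair (PT.fst hp) (PT.pair (PT.snd hp) hn))))
  · have hR := Hrg G hW hne
    refine ⟨hW, Nat.le_add_left _ _, (PRE.nV_le G).trans (Nat.le_succ _),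
      (PRE.nA_le G).trans (Nat.le_succ _), ?_, hne, hR, ?_⟩
    · refine le_trans ?_ ((PRE.sum_cap_le G).trans (Nat.le_succ _))
      refine Finset.sum_le_sum (fun k hk => Nat.size_le_size ?_)
      obtain ⟨X, hX, hk'⟩ := (hR.2 ⟨k, Finset.mem_range.1 hk⟩).2
      have := PRE.le_cap hX ⟨k, Finset.mem_range.1 hk⟩
      show gv (rg G).2 k ≤ cap G k
      simp only at hk' this
      omega
    · refine Hpr G (rg G).2 (pK0 (sz G + 1)) hW ?_
      unfold pK0 pJ
      exact Nat.succ_le_of_lt (by positivity)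

end Crest.Agent.R309
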