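import Mathlib

/-! Row 309, PRIM: the invariants of Prim's algorithm (abstract part). -/

set_option autoImplicit false

namespace Crest.Agent.R309.PRIM

open Finset

/-- arc `k` joins `a` and `c` -/
def End (t h : ℕ → ℕ) (k a c : ℕ) : Prop := (t k = a ∧ h k = c) ∨ (t k = c ∧ h k = a)

/-- `x` is below the threshold of `v` -/
def ok (m K : ℕ) (w ta : ℕ → ℕ) (v x : ℕ) : Prop := (ta v < m → x ≤ w (ta v)) ∧ (m ≤ ta v → x < K)

theorem anchor : True := by
  have := @End.eq_1; have := @ok.eq_1
  trivial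

/-- invariants -/
structure Inv (n m K : ℕ) (t h w : ℕ → ℕ) (S : ℕ → ℕ → Bool) (ta : ℕ → ℕ) : Prop where
  vis : ∀ v < n, ∀ u < n, S v u = true → S v v = true ∧ S u u = true
  lam : ∀ v < n, ∀ v' < n, (∀ u < n, S v u = true → S v' u = true) ∨
    (∀ u < n, S v' u = true → S v u = true) ∨ ∀ u < n, ¬ (S v u = true ∧ S v' u = true)
  own : ∀ v < n, S v v = true → ta v < m → K ≤ w (ta v) ∧ S v (t (ta v)) ≠ S v (h (ta v)) ∧
    S (t (ta v)) (t (ta v)) = true ∧ S (h (ta v)) (h (ta v)) = true
  uniq : ∀ v < n, ∀ v' < n, S v' v' = true → ta v' < m → S v (t (ta v')) ≠ S v (h (ta v')) → v = v'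
  i1 : ∀ v < n, ∀ k < m, ∀ a c, End t h k a c → S v a = true → S c c = true → S v c = false →
    ok m K w ta v (w k)
  i2 : ∀ v < n, ∀ k < m, ∀ k' < m, ∀ a c a' c', End t h k a c → End t h k' a' c' → S v a = true →
    S c c = false → S a' a' = true → S v a' = false → S c' c' = false →
    ok m K w ta v (w k) ∨ ok m K w ta v (w k')
  det : ∀ D : ℕ → ℤ, (∀ v < n, ∑ u ∈ range n, (if S v u = true then D u else 0) = 0) →
    ∀ u < n, S u u = true → D u = 0
  roots : ∀ v < n, ∀ v' < n, m ≤ ta v → m ≤ ta v' → v ≠ v' →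
    ∀ u < n, ¬ (S v u = true ∧ S v' u = true)

theorem End.lt {n m : ℕ} {t h : ℕ → ℕ} (hw : ∀ k < m, t k < n ∧ h k < n) {k a c : ℕ} (hk : k < m)
    (e : End t h k a c) : a < n ∧ c < n := by
  obtain ⟨h1, h2⟩ := hw k hk
  rcases e with ⟨rfl, rfl⟩ | ⟨rfl, rfl⟩
  · exact ⟨h1, h2⟩
  · exact ⟨h2, h1⟩

theorem End.symm {t h : ℕ → ℕ} {k a c : ℕ} (e : End t h k a c) : End t h k c a := Or.symm e

theorem inv_init (n m K : ℕ) (t h w : ℕ → ℕ) (hw : ∀ k < m, t k < n ∧ h k < n)
    (S : ℕ → ℕ → Bool) (ta : ℕ → ℕ)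
    (hS : ∀ v < n, ∀ u < n, S v u = false) : Inv n m K t h w S ta where
  vis v hv u hu h1 := by rw [hS v hv u hu] at h1; exact absurd h1 (by simp)
  lam v hv v' hv' := Or.inl fun u hu h1 => by rw [hS v hv u hu] at h1; exact absurd h1 (by simp)
  own v hv h1 := by rw [hS v hv v hv] at h1; exact absurd h1 (by simp)
  uniq v hv v' hv' h1 := by rw [hS v' hv' v' hv'] at h1; exact absurd h1 (by simp)
  i1 v hv k hk a c e h1 := by rw [hS v hv a (e.lt hw hk).1] at h1; exact absurd h1 (by simp)
  i2 v hv k hk k' hk' a c a' c' e e' h1 := by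
    rw [hS v hv a (e.lt hw hk).1] at h1; exact absurd h1 (by simp)
  det D _ u hu h1 := by rw [hS u hu u hu] at h1; exact absurd h1 (by simp)
  roots v hv v' hv' _ _ _ u hu h1 := by rw [hS v hv u hu] at h1; exact absurd h1.1 (by simp)

theorem inv_step {n m K : ℕ} {t h w : ℕ → ℕ} (hw : ∀ k < m, t k < n ∧ h k < n)
    {S S' : ℕ → ℕ → Bool} {ta ta' : ℕ → ℕ} (I : Inv n m K t h w S ta) {b p ks : ℕ} (hb : b < n)
    (hbb : S b b = false)
    (hA : ks < m → End t h ks p b ∧ S p p = true ∧ K ≤ w ks)
    (hmax : ∀ k < m, ∀ a c, End t h k a c → S a a = true → S c c = false →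
      w k < K ∨ (ks < m ∧ w k ≤ w ks))
    (hS' : ∀ v < n, ∀ u < n, S' v u =
      if v = b then decide (u = b) else (S v u || (decide (u = b) && decide (ks < m) && S v p)))
    (hta : ∀ v < n, ta' v = if v = b then ks else ta v) : Inv n m K t h w S' ta' := by
  have f0 : ∀ v < n, S v b = false := fun v hv => by
    by_contra hc
    have := (I.vis v hv b hb (by simpa using hc)).2
    rw [hbb] at this; exact absurd this (by simp)
  have f0' : ∀ u < n, S b u = false := fun u hu => by
    by_contra hc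
    have := (I.vis b hb u hu (by simpa using hc)).1
    rw [hbb] at this; exact absurd this (by simp)
  have f1 : ∀ v < n, ∀ u < n, v ≠ b → u ≠ b → S' v u = S v u := fun v hv u hu h1 h2 => by
    rw [hS' v hv u hu]; simp [h1, h2]
  have f2 : ∀ u < n, S' b u = decide (u = b) := fun u hu => by rw [hS' b hb u hu]; simp
  have f3 : ∀ v < n, v ≠ b → S' v b = (decide (ks < m) && S v p) := fun v hv h1 => by
    rw [hS' v hv b hb]; simp [h1, f0 v hv]
  have f4 : S' b b = true := by rw [f2 b hb]; simp
  have f5 : ∀ v < n, v ≠ b → ta' v = ta v := fun v hv h1 => by rw [hta v hv]; simp [h1]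
  have f6 : ta' b = ks := by rw [hta b hb]; simp
  have f7 : ∀ v, S v v = true → v ≠ b := fun v h1 h2 => by
    rw [h2, hbb] at h1; exact absurd h1 (by simp)
  have f8 : ∀ u < n, S' u u = false → u ≠ b ∧ S u u = false := fun u hu h1 => by
    have : u ≠ b := fun h2 => by rw [h2, f4] at h1; exact absurd h1 (by simp)
    exact ⟨this, by rw [← f1 u hu u hu this this]; exact h1⟩
  have hp : ks < m → p < n := fun hk => ((hA hk).1.lt hw hk).1
  -- thresholds
  have ok1 : ∀ v < n, v ≠ b → ∀ x, ok m K w ta v x → ok m K w ta' v x := fun v hv h1 x h2 => by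
    unfold ok at *; rw [f5 v hv h1]; exact h2
  have ok2 : ∀ v < n, S v v = true → ∀ x, x < K → ok m K w ta v x := fun v hv h1 x hx =>
    ⟨fun h2 => (hx.le.trans (I.own v hv h1 h2).1), fun _ => hx⟩
  have ok3 : ∀ v x y, x ≤ y → ok m K w ta v y → ok m K w ta v x := fun v x y hxy h1 =>
    ⟨fun h2 => hxy.trans (h1.1 h2), fun h2 => hxy.trans_lt (h1.2 h2)⟩
  have ok4 : ∀ k < m, ∀ a c, End t h k a c → S a a = true → S c c = false →
      ok m K w ta' b (w k) := fun k hk a c e h1 h2 => by
    unfold ok; rw [f6]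
    rcases hmax k hk a c e h1 h2 with h3 | h3
    · exact ⟨fun h4 => h3.le.trans (hA h4).2.2, fun _ => h3⟩
    · exact ⟨fun _ => h3.2, fun h4 => absurd h3.1 (by omega)⟩
  -- a frontier arc at a visited node outside `S v`, when `p ∈ S v`
  have ok5 : ∀ v < n, ks < m → S v p = true → ∀ k < m, ∀ a c, End t h k a c → S a a = true →
      S v a = false → S c c = false → ok m K w ta v (w k) := fun v hv hk hvp k hkm a c e h1 h2 h3 => by
    have hvv := (I.vis v hv p (hp hk) hvp).1
    rcases hmax k hkm a c e h1 h3 with h4 | h4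
    · exact ok2 v hv hvv _ h4
    · rcases I.i2 v hv ks hk k hkm p b a c (hA hk).1 e hvp hbb h1 h2 h3 with h5 | h5
      · exact ok3 v _ _ h4.2 h5
      · exact h5
  -- a frontier arc at a node of `S v`, when `b` does not enter `S v`
  have ok6 : ∀ v < n, (decide (ks < m) && S v p) = false → ∀ k < m, ∀ a c, End t h k a c →
      S v a = true → S c c = false → ok m K w ta v (w k) := fun v hv hvp k hkm a c e h1 h3 => by
    have ha := (e.lt hw hkm).1
    obtain ⟨hvv, haa⟩ := I.vis v hv a ha h1
    rcases hmax k hkm a c e haa h3 with h4 | h4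
    · exact ok2 v hv hvv _ h4
    · have hvp' : S v p = false := by simpa [h4.1] using hvp
      rcases I.i2 v hv k hkm ks h4.1 a c p b e (hA h4.1).1 h1 h3 (hA h4.1).2.1 hvp' hbb with h5 | h5
      · exact h5
      · exact ok3 v _ _ h4.2 h5
  refine ⟨?_, ?_, ?_, ?_, ?_, ?_, ?_, ?_⟩
  · intro v hv u hu h1
    by_cases hvb : v = b
    · subst hvb
      rw [f2 u hu] at h1
      have : u = v := by simpa using h1
      subst this
      exact ⟨f4, f4⟩
    · by_cases hub : u = b
      · subst hub
        rw [f3 v hv hvb] at h1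
        simp only [Bool.and_eq_true, decide_eq_true_eq] at h1
        refine ⟨?_, f4⟩
        rw [f1 v hv v hv hvb hvb]
        exact (I.vis v hv p (hp h1.1) h1.2).1
      · rw [f1 v hv u hu hvb hub] at h1
        rw [f1 v hv v hv hvb hvb, f1 u hu u hu hub hub]
        exact I.vis v hv u hu h1
  · have one : ∀ v' < n, (∀ u < n, S' b u = true → S' v' u = true) ∨
        ∀ u < n, ¬ (S' b u = true ∧ S' v' u = true) := fun v' hv' => by
      by_cases h1 : S' v' b = true
      · left; intro u hu h2
        rw [f2 u hu] at h2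
        have : u = b := by simpa using h2
        rw [this]; exact h1
      · right; intro u hu h2
        rw [f2 u hu] at h2
        have : u = b := by simpa using h2.1
        rw [this] at h2; exact h1 h2.2
    have sub : ∀ v < n, ∀ v' < n, v ≠ b → v' ≠ b → (∀ u < n, S v u = true → S v' u = true) →
        ∀ u < n, S' v u = true → S' v' u = true := fun v hv v' hv' h1 h2 h3 u hu h4 => by
      by_cases hub : u = b
      · subst hub
        rw [f3 v hv h1] at h4
        rw [f3 v' hv' h2]
        simp only [Bool.and_eq_true, decide_eq_true_eq] at h4 ⊢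
        exact ⟨h4.1, h3 p (hp h4.1) h4.2⟩
      · rw [f1 v hv u hu h1 hub] at h4
        rw [f1 v' hv' u hu h2 hub]
        exact h3 u hu h4
    intro v hv v' hv'
    by_cases hvb : v = b
    · subst hvb
      rcases one v' hv' with h1 | h1
      · exact Or.inl h1
      · exact Or.inr (Or.inr h1)
    · by_cases hvb' : v' = b
      · subst hvb'
        rcases one v hv with h1 | h1
        · exact Or.inr (Or.inl h1)
        · exact Or.inr (Or.inr fun u hu h2 => h1 u hu h2.symm)
      · rcases I.lam v hv v' hv' with h1 | h1 | h1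
        · exact Or.inl (sub v hv v' hv' hvb hvb' h1)
        · exact Or.inr (Or.inl (sub v' hv' v hv hvb' hvb h1))
        · refine Or.inr (Or.inr fun u hu h2 => ?_)
          by_cases hub : u = b
          · subst hub
            rw [f3 v hv hvb, f3 v' hv' hvb'] at h2
            simp only [Bool.and_eq_true, decide_eq_true_eq] at h2
            exact h1 p (hp h2.1.1) ⟨h2.1.2, h2.2.2⟩
          · rw [f1 v hv u hu hvb hub, f1 v' hv' u hu hvb' hub] at h2
            exact h1 u hu h2
  · intro v hv h1 h2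
    by_cases hvb : v = b
    · subst hvb
      rw [f6] at h2 ⊢
      obtain ⟨e, hpp, hK⟩ := hA h2
      have hpb := f7 p hpp
      have h3 : S' v p = false := by rw [f2 p (hp h2)]; simp [hpb]
      have h4 : S' p p = true := by rw [f1 p (hp h2) p (hp h2) hpb hpb]; exact hpp
      rcases e with ⟨e1, e2⟩ | ⟨e1, e2⟩ <;> rw [e1, e2]
      · exact ⟨hK, by rw [h3, f4]; simp, h4, f4⟩
      · exact ⟨hK, by rw [h3, f4]; simp, f4, h4⟩
    · rw [f5 v hv hvb] at h2 ⊢
      rw [f1 v hv v hv hvb hvb] at h1
      obtain ⟨h3, h4, h5, h6⟩ := I.own v hv h1 h2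
      obtain ⟨h7, h8⟩ := hw _ h2
      rw [f1 v hv _ h7 hvb (f7 _ h5), f1 v hv _ h8 hvb (f7 _ h6), f1 _ h7 _ h7 (f7 _ h5) (f7 _ h5),
        f1 _ h8 _ h8 (f7 _ h6) (f7 _ h6)]
      exact ⟨h3, h4, h5, h6⟩
  · intro v hv v' hv' h1 h2 h3
    by_cases hvb' : v' = b
    · subst hvb'
      by_contra hvb
      rw [f6] at h2 h3
      obtain ⟨e, hpp, hK⟩ := hA h2
      have hpb := f7 p hpp
      have h4 : S' v p = S' v v' := by
        rw [f1 v hv p (hp h2) hvb hpb, f3 v hv hvb]; simp [h2]
      rcases e with ⟨e1, e2⟩ | ⟨e1, e2⟩ <;> rw [e1, e2] at h3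
      · exact h3 h4
      · exact h3 h4.symm
    · rw [f5 v' hv' hvb'] at h2 h3
      rw [f1 v' hv' v' hv' hvb' hvb'] at h1
      obtain ⟨_, _, h5, h6⟩ := I.own v' hv' h1 h2
      obtain ⟨h7, h8⟩ := hw _ h2
      by_cases hvb : v = b
      · subst hvb
        rw [f2 _ h7, f2 _ h8] at h3
        simp [f7 _ h5, f7 _ h6] at h3
      · rw [f1 v hv _ h7 hvb (f7 _ h5), f1 v hv _ h8 hvb (f7 _ h6)] at h3
        exact I.uniq v hv v' hv' h1 h2 h3
  · intro v hv k hk a c e h1 h2 h3
    obtain ⟨ha, hc⟩ := e.lt hw hk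
    by_cases hvb : v = b
    · subst hvb
      rw [f2 a ha] at h1
      have hab : a = v := by simpa using h1
      have hcb : c ≠ v := fun h4 => by rw [h4, f4] at h3; exact absurd h3 (by simp)
      rw [f1 c hc c hc hcb hcb] at h2
      exact ok4 k hk c a e.symm h2 (by rw [hab]; exact hbb)
    · refine ok1 v hv hvb _ ?_
      by_cases hab : a = b
      · subst hab
        have hcb : c ≠ a := fun h4 => by rw [h4, h1] at h3; exact absurd h3 (by simp)
        rw [f3 v hv hvb] at h1
        simp only [Bool.and_eq_true, decide_eq_true_eq] at h1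
        rw [f1 c hc c hc hcb hcb] at h2
        rw [f1 v hv c hc hvb hcb] at h3
        exact ok5 v hv h1.1 h1.2 k hk c a e.symm h2 h3 hbb
      · rw [f1 v hv a ha hvb hab] at h1
        by_cases hcb : c = b
        · subst hcb
          rw [f3 v hv hvb] at h3
          exact ok6 v hv h3 k hk a c e h1 hbb
        · rw [f1 c hc c hc hcb hcb] at h2
          rw [f1 v hv c hc hvb hcb] at h3
          exact I.i1 v hv k hk a c e h1 h2 h3
  · intro v hv k hk k' hk' a c a' c' e e' h1 h2 h3 h4 h5
    obtain ⟨ha, hc⟩ := e.lt hw hk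
    obtain ⟨ha', hc'⟩ := e'.lt hw hk'
    obtain ⟨hcb, h2'⟩ := f8 c hc h2
    obtain ⟨hcb', h5'⟩ := f8 c' hc' h5
    by_cases hvb : v = b
    · subst hvb
      have hab' : a' ≠ v := fun h6 => by rw [h6, f4] at h4; exact absurd h4 (by simp)
      rw [f1 a' ha' a' ha' hab' hab'] at h3
      exact Or.inr (ok4 k' hk' a' c' e' h3 h5')
    · by_cases hab : a = b
      · subst hab
        have hab' : a' ≠ a := fun h6 => by rw [h6, h1] at h4; exact absurd h4 (by simp)
        rw [f3 v hv hvb] at h1
        simp only [Bool.and_eq_true, decide_eq_true_eq] at h1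
        rw [f1 a' ha' a' ha' hab' hab'] at h3
        rw [f1 v hv a' ha' hvb hab'] at h4
        exact Or.inr (ok1 v hv hvb _ (ok5 v hv h1.1 h1.2 k' hk' a' c' e' h3 h4 h5'))
      · rw [f1 v hv a ha hvb hab] at h1
        by_cases hab' : a' = b
        · subst hab'
          rw [f3 v hv hvb] at h4
          exact Or.inl (ok1 v hv hvb _ (ok6 v hv h4 k hk a c e h1 h2'))
        · rw [f1 a' ha' a' ha' hab' hab'] at h3
          rw [f1 v hv a' ha' hvb hab'] at h4
          rcases I.i2 v hv k hk k' hk' a c a' c' e e' h1 h2' h3 h4 h5' with h6 | h6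
          · exact Or.inl (ok1 v hv hvb _ h6)
          · exact Or.inr (ok1 v hv hvb _ h6)
  · intro D hD
    have hDb : D b = 0 := by
      have h1 := hD b hb
      rw [sum_eq_single b] at h1
      · simpa [f4] using h1
      · intro u hu hub
        rw [f2 u (mem_range.1 hu)]; simp [hub]
      · intro h2; exact absurd (mem_range.2 hb) h2
    intro u hu h1
    by_cases hub : u = b
    · rw [hub]; exact hDb
    · rw [f1 u hu u hu hub hub] at h1
      refine I.det D (fun v hv => ?_) u hu h1
      by_cases hvb : v = b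
      · subst hvb
        exact sum_eq_zero fun x hx => by simp [f0' x (mem_range.1 hx)]
      · refine Eq.trans ?_ (hD v hv)
        refine sum_congr rfl fun x hx => ?_
        by_cases hxb : x = b
        · subst hxb; simp [hDb]
        · rw [f1 v hv x (mem_range.1 hx) hvb hxb]
  · have one : ∀ v' < n, m ≤ ks → v' ≠ b → ∀ u < n, ¬ (S' b u = true ∧ S' v' u = true) :=
      fun v' hv' h1 h2 u hu h3 => by
        rw [f2 u hu] at h3
        have : u = b := by simpa using h3.1
        rw [this, f3 v' hv' h2] at h3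
        simp only [Bool.and_eq_true, decide_eq_true_eq] at h3
        omega
    intro v hv v' hv' h1 h2 h3 u hu h4
    by_cases hvb : v = b
    · subst hvb
      rw [f6] at h1
      exact one v' hv' h1 h3.symm u hu h4
    · by_cases hvb' : v' = b
      · subst hvb'
        rw [f6] at h2
        exact one v hv h2 hvb u hu h4.symm
      · rw [f5 v hv hvb] at h1
        rw [f5 v' hv' hvb'] at h2
        by_cases hub : u = b
        · subst hub
          rw [f3 v hv hvb, f3 v' hv' hvb'] at h4
          simp only [Bool.and_eq_true, decide_eq_true_eq] at h4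
          exact I.roots v hv v' hv' h1 h2 h3 p (hp h4.1.1) ⟨h4.1.2, h4.2.2⟩
        · rw [f1 v hv u hu hvb hub, f1 v' hv' u hu hvb' hub] at h4
          exact I.roots v hv v' hv' h1 h2 h3 u hu h4

end Crest.Agent.R309.PRIM
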