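import Crest.Agent.R309.DefsC
import Crest.Agent.R309.PRIMa

/-! Row 309, PRIM: Prim's algorithm. -/

set_option autoImplicit false

namespace Crest.Agent.R309

open Finset Crest.Agent.PT Crest.Agent.QC Crest.Agent.R317 Crest.Agent.R300U

namespace PRIM

abbrev In : Type := Net × List Bin × ℕ
abbrev St : Type := List (List Bool) × List ℕ

/-- frontier arcs of width at least `K` -/
def cnd (q : In) (S : List (List Bool)) (k : ℕ) : Prop :=
  q.2.2 ≤ gv q.2.1 k ∧ gb S (tl q.1 k) (tl q.1 k) ≠ gb S (hd q.1 k) (hd q.1 k)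

/-- a widest frontier arc, or `nA` -/
noncomputable def kst (q : In) (S : List (List Bool)) : ℕ :=
  fnd (nA q.1) (fun k => cnd q S k ∧ All (nA q.1) (fun k' => ¬ cnd q S k' ∨ gv q.2.1 k' ≤ gv q.2.1 k))

/-- the parent -/
noncomputable def par (q : In) (S : List (List Bool)) : ℕ :=
  if gb S (tl q.1 (kst q S)) (tl q.1 (kst q S)) = true then tl q.1 (kst q S) else hd q.1 (kst q S)

/-- the new node -/
noncomputable def nw (q : In) (S : List (List Bool)) : ℕ :=
  if kst q S < nA q.1 then
    (if gb S (tl q.1 (kst q S)) (tl q.1 (kst q S)) = true then hd q.1 (kst q S) else tl q.1 (kst q S))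
  else fnd (nV q.1) (fun v => gb S v v = false)

/-- one round -/
noncomputable def stp (q : In) (st : St) : St :=
  (mkL (nV q.1) (fun v => mkL (nV q.1) (fun u => if v = nw q st.1 then decide (u = nw q st.1) else
      (gb st.1 v u || (decide (u = nw q st.1) && decide (kst q st.1 < nA q.1) &&
        gb st.1 v (par q st.1))))),
    mkL (nV q.1) (fun v => if v = nw q st.1 then kst q st.1 else st.2.getD v 0))

/-- the algorithm -/
noncomputable def run (q : In) (i : ℕ) : St := Nat.rec (([], []) : St) (fun _ st => stp q st) i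

theorem anchor2 : True := by
  have := @cnd.eq_1; have := @kst.eq_1; have := @par.eq_1; have := @nw.eq_1; have := @stp.eq_1
  have := @run.eq_1
  trivial

section PTime

variable {α : Type} [Enc α]

theorem pt_nV {G : α → Net} (hG : PT G) : PT (fun a => nV (G a)) := by unfold nV; fun_prop
theorem pt_nA {G : α → Net} (hG : PT G) : PT (fun a => nA (G a)) := by unfold nA; fun_prop
theorem pt_tl {G : α → Net} {k : α → ℕ} (hG : PT G) (hk : PT k) : PT (fun a => tl (G a) (k a)) := by
  unfold tl; fun_prop
theorem pt_hd {G : α → Net} {k : α → ℕ} (hG : PT G) (hk : PT k) : PT (fun a => hd (G a) (k a)) := by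
  unfold hd; fun_prop
theorem bt_gv {l : α → List Bin} {k : α → ℕ} (hl : PT l) (hk : PT k) :
    BT (fun a => gv (l a) (k a)) := by
  unfold gv; fun_prop
theorem pt_gb {S : α → List (List Bool)} {v u : α → ℕ} (hS : PT S) (hv : PT v) (hu : PT u) :
    PT (fun a => gb (S a) (v a) (u a)) := by
  unfold gb; fun_prop

attribute [local fun_prop] pt_nV pt_nA pt_tl pt_hd bt_gv pt_gb

theorem dt_cnd {q : α → In} {S : α → List (List Bool)} {k : α → ℕ} (hq : PT q) (hS : PT S)
    (hk : PT k) : DT (fun a => cnd (q a) (S a) (k a)) := by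
  unfold cnd; fun_prop

attribute [local fun_prop] dt_cnd

theorem pt_kst {q : α → In} {S : α → List (List Bool)} (hq : PT q) (hS : PT S) :
    PT (fun a => kst (q a) (S a)) := by
  unfold kst; fun_prop

attribute [local fun_prop] pt_kst

theorem pt_par {q : α → In} {S : α → List (List Bool)} (hq : PT q) (hS : PT S) :
    PT (fun a => par (q a) (S a)) := by
  unfold par; fun_prop

theorem pt_nw {q : α → In} {S : α → List (List Bool)} (hq : PT q) (hS : PT S) :
    PT (fun a => nw (q a) (S a)) := by
  unfold nw; fun_prop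

attribute [local fun_prop] pt_par pt_nw

theorem pt_stp {q : α → In} {st : α → St} (hq : PT q) (hs : PT st) :
    PT (fun a => stp (q a) (st a)) := by
  unfold stp; fun_prop

end PTime

theorem sz_mkL_le' {β : Type} [Enc β] (n : ℕ) (f : ℕ → β) (B : ℕ) (h : ∀ i < n, sz (f i) ≤ B) :
    sz (mkL n f) ≤ n * (2 * B + 1) := by
  have := sz_list_le (mkL n f) B (fun x hx => by
    obtain ⟨i, hi, rfl⟩ := List.mem_map.1 hx
    exact h i (List.mem_range.1 hi))
  rwa [length_mkL] at this

theorem getD_mkL'' {β : Type} (n i : ℕ) (f : ℕ → β) (d : β) :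
    (mkL n f).getD i d = if i < n then f i else d := by
  split_ifs with h
  · exact getD_mkL f d h
  · simp [mkL, List.getD_eq_getElem?_getD, h]

theorem run_le (q : In) (i : ℕ) : ∀ v, (run q i).2.getD v 0 ≤ nA q.1 := by
  induction i with
  | zero => intro v; simp [run]
  | succ i ih =>
    intro v
    show (stp q (run q i)).2.getD v 0 ≤ _
    unfold stp
    rw [getD_mkL'']
    split_ifs
    · exact (fnd_spec _ _).1
    · exact ih v
    · exact Nat.zero_le _

theorem pt_run : PT (fun q : In => run q (nV q.1)) := by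
  have h1 : PT (fun q : In => nV q.1) := pt_nV (by fun_prop)
  have h2 : PT (fun q : In => nA q.1) := pt_nA (by fun_prop)
  refine PT.natRec (s := fun q _ st => stp q st) h1 (PT.const _) (pt_stp (by fun_prop) (by fun_prop))
    (B := fun q => 2 * (nV q.1 * (2 * (nV q.1 * (2 * 1 + 1)) + 1)) + nV q.1 * (2 * nA q.1 + 1) + 1)
    (PT.pbNat (by fun_prop)) (fun q i _ => ?_)
  cases i with
  | zero => show sz (([], []) : St) ≤ _; simp
  | succ i =>
    show sz (stp q (run q i)) ≤ _
    unfold stp
    rw [sz_pair]
    have a1 := sz_mkL_le' (nV q.1) (fun v => mkL (nV q.1) (fun u => if v = nw q (run q i).1 then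
      decide (u = nw q (run q i).1) else (gb (run q i).1 v u || (decide (u = nw q (run q i).1) &&
        decide (kst q (run q i).1 < nA q.1) && gb (run q i).1 v (par q (run q i).1)))))
      (nV q.1 * (2 * 1 + 1)) (fun v _ => sz_mkL_le' _ _ 1 (fun u _ => by simp))
    have a2 := sz_mkL_le' (nV q.1)
      (fun v => if v = nw q (run q i).1 then kst q (run q i).1 else (run q i).2.getD v 0) (nA q.1)
      (fun v _ => by
        rw [sz_nat]
        split_ifs
        · exact (fnd_spec _ _).1
        · exact run_le q i v)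
    omega

theorem kst_spec (q : In) (S : List (List Bool)) :
    (kst q S < nA q.1 → cnd q S (kst q S)) ∧
    ∀ k < nA q.1, cnd q S k → kst q S < nA q.1 ∧ gv q.2.1 k ≤ gv q.2.1 (kst q S) := by
  classical
  have h := fnd_spec (nA q.1)
    (fun k => cnd q S k ∧ All (nA q.1) (fun k' => ¬ cnd q S k' ∨ gv q.2.1 k' ≤ gv q.2.1 k))
  refine ⟨fun h1 => (h.2.2 h1).1, fun k hk hc => ?_⟩
  have hlt : kst q S < nA q.1 := by
    obtain ⟨j, hj, hmax⟩ := exists_max_image ((range (nA q.1)).filter (cnd q S)) (gv q.2.1)
      ⟨k, mem_filter.2 ⟨mem_range.2 hk, hc⟩⟩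
    refine (fnd_lt_iff _ _).2 ⟨j, mem_range.1 (mem_filter.1 hj).1, (mem_filter.1 hj).2, fun k' hk' => ?_⟩
    by_cases h2 : cnd q S k'
    · exact Or.inr (hmax k' (mem_filter.2 ⟨mem_range.2 hk', h2⟩))
    · exact Or.inl h2
  exact ⟨hlt, ((h.2.2 hlt).2 k hk).resolve_left (fun h2 => h2 hc)⟩

theorem run_inv (q : In) (hw : WF q.1) (i : ℕ) (hi : i ≤ nV q.1) :
    Inv (nV q.1) (nA q.1) q.2.2 (tl q.1) (hd q.1) (gv q.2.1) (gb (run q i).1)
      (fun v => (run q i).2.getD v 0) ∧
    ((range (nV q.1)).filter (fun v => gb (run q i).1 v v = true)).card = i := by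
  induction i with
  | zero =>
    refine ⟨inv_init _ _ _ _ _ _ hw _ _ (fun v _ u _ => by simp [run, gb]), ?_⟩
    simp [run, gb]
  | succ i ih =>
    obtain ⟨I, hc⟩ := ih (by omega)
    set S := (run q i).1 with hS
    have e : run q (i + 1) = stp q (run q i) := rfl
    obtain ⟨k1, k2⟩ := kst_spec q S
    have hA : kst q S < nA q.1 → End (tl q.1) (hd q.1) (kst q S) (par q S) (nw q S) ∧
        gb S (par q S) (par q S) = true ∧ q.2.2 ≤ gv q.2.1 (kst q S) ∧
        gb S (nw q S) (nw q S) = false := fun h => by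
      obtain ⟨h1, h2⟩ := k1 h
      unfold par nw
      rw [if_pos h]
      by_cases h3 : gb S (tl q.1 (kst q S)) (tl q.1 (kst q S)) = true
      · rw [if_pos h3, if_pos h3]
        refine ⟨Or.inl ⟨rfl, rfl⟩, h3, h1, ?_⟩
        rw [h3] at h2; simpa using h2
      · rw [if_neg h3, if_neg h3]
        have h4 : gb S (tl q.1 (kst q S)) (tl q.1 (kst q S)) = false := by simpa using h3
        refine ⟨Or.inr ⟨rfl, rfl⟩, ?_, h1, h4⟩
        rw [h4] at h2; simpa using h2
    have hb : nw q S < nV q.1 ∧ gb S (nw q S) (nw q S) = false := by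
      by_cases h : kst q S < nA q.1
      · exact ⟨((hA h).1.lt hw h).2, (hA h).2.2.2⟩
      · have h1 : nw q S = fnd (nV q.1) (fun v => gb S v v = false) := by unfold nw; rw [if_neg h]
        have h2 : fnd (nV q.1) (fun v => gb S v v = false) < nV q.1 := by
          rw [fnd_lt_iff]
          by_contra h3
          push Not at h3
          have : (range (nV q.1)).filter (fun v => gb S v v = true) = range (nV q.1) :=
            filter_true_of_mem fun v hv => by simpa using h3 v (mem_range.1 hv)
          rw [this, card_range] at hc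
          omega
        rw [h1]
        exact ⟨h2, (fnd_spec _ _).2.2 h2⟩
    have hS' : ∀ v < nV q.1, ∀ u < nV q.1, gb (run q (i + 1)).1 v u =
        if v = nw q S then decide (u = nw q S) else (gb S v u || (decide (u = nw q S) &&
          decide (kst q S < nA q.1) && gb S v (par q S))) := fun v hv u hu => by
      rw [e]
      unfold stp
      show ((mkL _ _).getD v []).getD u false = _
      rw [getD_mkL _ _ hv, getD_mkL _ _ hu]
    refine ⟨inv_step hw I hb.1 hb.2 (p := par q S) (ks := kst q S)
      (fun h => ⟨(hA h).1, (hA h).2.1, (hA h).2.2.1⟩) ?_ hS' ?_, ?_⟩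
    · intro k hk a c en h1 h2
      by_cases h3 : gv q.2.1 k < q.2.2
      · exact Or.inl h3
      · refine Or.inr (k2 k hk ⟨by omega, ?_⟩)
        rcases en with ⟨e1, e2⟩ | ⟨e1, e2⟩ <;> rw [e1, e2, h1, h2] <;> simp
    · intro v hv
      rw [e]
      unfold stp
      exact getD_mkL _ _ hv
    · have : (range (nV q.1)).filter (fun v => gb (run q (i + 1)).1 v v = true) =
          insert (nw q S) ((range (nV q.1)).filter (fun v => gb S v v = true)) := by
        ext v
        simp only [mem_filter, mem_range, mem_insert]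
        constructor
        · rintro ⟨h1, h2⟩
          rw [hS' v h1 v h1] at h2
          by_cases h3 : v = nw q S
          · exact Or.inl h3
          · right; simpa [h3, h1] using h2
        · rintro (h1 | ⟨h1, h2⟩)
          · rw [h1, hS' _ hb.1 _ hb.1]; simp [hb.1]
          · refine ⟨h1, ?_⟩
            rw [hS' v h1 v h1]
            by_cases h3 : v = nw q S
            · simp [h3]
            · simp [h3, h2]
      rw [this, card_insert_of_notMem (by simp [hb.2]), hc]

end PRIM

open PRIM in
theorem PRIM_proof : PrimStmt := by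
  refine ⟨fun q => run q (nV q.1), pt_run, fun G w K hw _ => ?_⟩
  obtain ⟨I, hc⟩ := run_inv (G, w, K) hw (nV G) le_rfl
  have hall : ∀ v < nV G, gb (run (G, w, K) (nV G)).1 v v = true := by
    intro v hv
    have h1 : (range (nV G)).filter (fun v => gb (run (G, w, K) (nV G)).1 v v = true) =
        range (nV G) := eq_of_subset_of_card_le (filter_subset _ _) (by rw [card_range]; exact hc.ge)
    have h2 := mem_range.2 hv
    rw [← h1] at h2
    exact (mem_filter.1 h2).2
  refine ⟨I.lam, fun v hv h => ?_, fun v hv v' hv' h1 h2 => I.uniq v hv v' hv' (hall v' hv') h1 h2,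
    fun v hv k hk h => ?_, fun D hD u hu => I.det D hD u hu (hall u hu), I.roots⟩
  · exact ⟨(I.own v hv (hall v hv) h).1, (I.own v hv (hall v hv) h).2.1⟩
  · obtain ⟨h1, h2⟩ := hw k hk
    by_cases h3 : gb (run (G, w, K) (nV G)).1 v (tl G k) = true
    · exact I.i1 v hv k hk _ _ (Or.inl ⟨rfl, rfl⟩) h3 (hall _ h2) (by
        have := h; rw [h3] at this; simpa using this)
    · have h4 : gb (run (G, w, K) (nV G)).1 v (tl G k) = false := by simpa using h3
      exact I.i1 v hv k hk _ _ (Or.inr ⟨rfl, rfl⟩) (by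
        have := h; rw [h4] at this; simpa using this) (hall _ h1) h4

end Crest.Agent.R309
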