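import Crest.Agent.R309.PT0

/-! Row 309, task PT1: the weights and the Metropolis step are polynomial-time. -/

set_option autoImplicit false

namespace Crest.Agent.R309

open Finset Crest.Agent.PT Crest.Agent.QC Crest.Agent.R317 Crest.Agent.R300U

variable {α : Type} [Enc α]

namespace PT1

/-- the factor of a root -/
def wR (P : Pre) (s : ℕ) (p : List ℤ) (l : List Bin) (v : ℕ) : ℚ :=
  (1 + 1 / (pJ' (nn P) : ℚ)) ^ (-(((s - pJ (nn P) : ℕ) : ℤ) * |zcl (pD (nn P)) (Ev P l v)|)) *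
    (1 + 1 / (pM (nn P) : ℚ)) ^ (zcl (pTt (nn P)) (p.getD v 0) * zcl (pD (nn P)) (Ev P l v))

/-- the factor of a non-root -/
def wN (P : Pre) (s : ℕ) (l : List Bin) (v : ℕ) : ℚ :=
  (1 - (ds P l v : ℚ) ^ 2 / (Lv P v : ℚ) ^ 2) ^ (min s (pJ (nn P)))

@[fun_prop] theorem pt_wR {P : α → Pre} {s v : α → ℕ} {p : α → List ℤ} {l : α → List Bin}
    (hP : PT P) (hs : PT s) (hp : PT p) (hl : PT l) (hv : PT v) :
    PT (fun a => wR (P a) (s a) (p a) (l a) (v a)) := by
  unfold wR
  exact pt_qmul (pt_qzpow (by fun_prop) (ZT.neg (ZT.mul (ZT.natCast (by fun_prop))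
    (ZT.abs (zt_zcl (by fun_prop) (by fun_prop))))))
    (pt_qzpow (by fun_prop) (ZT.mul (zt_zcl (by fun_prop) (by fun_prop))
      (zt_zcl (by fun_prop) (by fun_prop))))

@[fun_prop] theorem pt_wN {P : α → Pre} {s v : α → ℕ} {l : α → List Bin}
    (hP : PT P) (hs : PT s) (hl : PT l) (hv : PT v) :
    PT (fun a => wN (P a) (s a) (l a) (v a)) := by
  unfold wN
  exact pt_qpow (pt_qsub (PT.const _) (pt_qdiv (pt_qpow (pt_qint (by fun_prop)) (PT.const _))
    (pt_qpow (pt_qnat (by fun_prop)) (PT.const _)))) (by fun_prop)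

end PT1

open PT1

@[fun_prop] theorem pt_wq {P : α → Pre} {s : α → ℕ} {p : α → List ℤ} {l : α → List Bin}
    (hP : PT P) (hs : PT s) (hp : PT p) (hl : PT l) :
    PT (fun a => wq (P a) (s a) (p a) (l a)) := by
  have h : PT (fun a => ∏ v ∈ range (nV (gG (P a))),
      if isRoot (P a) v then wR (P a) (s a) (p a) (l a) v else wN (P a) (s a) (l a) v) := by
    fun_prop
  exact h

@[fun_prop] theorem dt_acc {P : α → Pre} {l : α → List Bin} (hP : PT P) (hl : PT l) :
    DT (fun a => acc (P a) (l a)) := by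
  unfold acc; fun_prop

@[fun_prop] theorem pt_comp {P : α → Pre} {l : α → List Bin} (hP : PT P) (hl : PT l) :
    PT (fun a => comp (P a) (l a)) := by
  unfold comp
  have h : PT (fun q : α × ℕ => fnd (nV (gG (P q.1))) (fun v => ta (P q.1) v = q.2)) :=
    pt_fnd (p := fun (q : α × ℕ) v => ta (P q.1) v = q.2) (by fun_prop) (by fun_prop)
  refine pt_mkL (by fun_prop) (PT.iteD (by fun_prop) (BT.mk (bt_toNat (pt_Tv ?_ ?_ h))) ?_) <;>
    fun_prop

@[fun_prop] theorem pt_mv {P : α → Pre} {l : α → List Bin} {k σ d : α → ℕ} (hP : PT P) (hl : PT l)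
    (hk : PT k) (hσ : BT σ) (hd : BT d) : PT (fun a => mv (P a) (l a) (k a) (σ a) (d a)) := by
  unfold mv; fun_prop

@[fun_prop] theorem pt_prop {P : α → Pre} {l : α → List Bin} {u : α → ℕ} (hP : PT P) (hl : PT l)
    (hu : BT u) : PT (fun a => prop (P a) (l a) (u a)) := by
  unfold prop
  have h1 : BT (fun a => fld (u a) 0 (aB (P a))) := BT.fld hu (PT.const _) (by fun_prop)
  have h2 : PT (fun a => un (nA (gG (P a))) (fld (u a) 0 (aB (P a)))) := pt_un (by fun_prop) h1
  exact PT.iteD ((DT.lt h1 (by fun_prop)).and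
      (DT.eq (BT.fld hu (by fun_prop) (PT.const _)) (BT.const _)))
    (pt_mv hP hl h2 (BT.fld hu (by fun_prop) (PT.const _))
      (BT.add (BT.fld hu (by fun_prop) (pt_un (by fun_prop) (BT.ofPT (pt_he hP h2)))) (BT.const _)))
    hl

@[fun_prop] theorem bt_crs {w w' : α → ℚ} (hw : PT w) (hw' : PT w') :
    BT (fun a => crs (w a) (w' a)) := by
  unfold crs; fun_prop

@[fun_prop] theorem bt_accN {B : α → ℕ} {w w' : α → ℚ} (hB : PT B) (hw : PT w) (hw' : PT w') :
    BT (fun a => accN (B a) (w a) (w' a)) := by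
  unfold accN
  exact BT.mul (bt_crs hw hw') (BT.pow (BT.const _)
    (PT.sub hB (BT.size (BT.max (bt_crs hw hw') (bt_crs hw' hw)))))

@[fun_prop] theorem pt_mstep {P : α → Pre} {s u : α → ℕ} {p : α → List ℤ} {l : α → List Bin}
    (hP : PT P) (hs : PT s) (hp : PT p) (hl : PT l) (hu : BT u) :
    PT (fun a => mstep (P a) (s a) (p a) (l a) (u a)) := by
  unfold mstep
  have h1 : PT (fun a => prop (P a) (l a) (fld (u a) 0 (b0 (P a)))) :=
    pt_prop hP hl (BT.fld hu (PT.const _) (by fun_prop))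
  exact PT.iteD (DT.lt (BT.fld hu (by fun_prop) (by fun_prop))
    (bt_accN (by fun_prop) (pt_wq hP hs hp hl) (pt_wq hP hs hp h1))) h1 hl

theorem PT1_proof : Pt1Stmt :=
  ⟨pt_wq (by fun_prop) (by fun_prop) (by fun_prop) (by fun_prop),
    dt_acc (by fun_prop) (by fun_prop), pt_comp (by fun_prop) (by fun_prop),
    pt_mstep (by fun_prop) (by fun_prop) (by fun_prop) (by fun_prop) (by fun_prop),
    dt_FeasL (by fun_prop) (by fun_prop)⟩

end Crest.Agent.R309
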