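import Crest.Agent.R309.DefsC

/-! Row 309, task RAT: ratios and crude bounds for the weights. -/

set_option autoImplicit false

namespace Crest.Agent.R309

open Finset Crest.Agent.PT Crest.Agent.QC Crest.Agent.R317 Crest.Agent.R300U

namespace RAT

lemma pow_le_two {K k : ℕ} (hK : 1 ≤ K) (h : 2 * k ≤ K) : (1 + 1 / (K : ℝ)) ^ k ≤ 2 := by
  have hK0 : (0 : ℝ) < K := by exact_mod_cast hK
  have hK1 : (1 : ℝ) ≤ K := by exact_mod_cast hK
  have h1 : 1 / (K : ℝ) ≤ 1 := by rw [div_le_one hK0]; exact hK1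
  have h0 : 0 ≤ 1 / (K : ℝ) := by positivity
  have h2 : (k : ℝ) * (1 / K) ≤ 1 / 2 := by
    have : (2 : ℝ) * k ≤ K := by exact_mod_cast h
    rw [mul_one_div, div_le_iff₀ hK0]; linarith
  have h3 : 1 / 2 ≤ (1 - 1 / (K : ℝ)) ^ k := by
    have := one_add_mul_le_pow (a := -(1 / (K : ℝ))) (by linarith) k
    have e : (1 + -(1 / (K : ℝ))) = 1 - 1 / K := by ring
    rw [e] at this; linarith
  have h4 : (1 + 1 / (K : ℝ)) ^ k * (1 - 1 / (K : ℝ)) ^ k ≤ 1 := by
    rw [← mul_pow]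
    exact pow_le_one₀ (by nlinarith) (by nlinarith)
  have h5 : 0 ≤ (1 + 1 / (K : ℝ)) ^ k := by positivity
  nlinarith

lemma zpow_le {ρ c : ℝ} (hρ : 1 ≤ ρ) {k : ℕ} (hc : ρ ^ k ≤ c) {e : ℤ} (he : |e| ≤ k) :
    ρ ^ e ≤ c := by
  refine le_trans ?_ hc
  rw [← zpow_natCast]
  exact zpow_le_zpow_right₀ hρ ((le_abs_self e).trans he)

lemma zpow_ge {ρ c : ℝ} (hρ : 1 ≤ ρ) {k : ℕ} (hc : ρ ^ k ≤ c) {e : ℤ} (he : |e| ≤ k) :
    1 ≤ c * ρ ^ e := by
  have h := zpow_le hρ hc (e := -e) (by rwa [abs_neg])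
  have h0 : 0 < ρ ^ e := zpow_pos (by linarith) e
  rw [zpow_neg, inv_le_iff_one_le_mul₀ h0] at h
  exact h

lemma zcl_eq {L : ℕ} {z : ℤ} (h : |z| ≤ L) : zcl L z = z := by
  unfold zcl
  rw [abs_le] at h
  omega

lemma zcl_abs (L : ℕ) (z : ℤ) : |zcl L z| ≤ L := by
  unfold zcl
  rw [abs_le]
  omega

/-- root factors -/
noncomputable def fA (P : Pre) (l : List Bin) (v : ℕ) : ℝ :=
  if isRoot P v then (1 + 1 / (pJ' (nn P) : ℝ)) ^ (-|zcl (pD (nn P)) (Ev P l v)|) else 1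

/-- wall factors -/
noncomputable def fB (P : Pre) (l : List Bin) (v : ℕ) : ℝ :=
  if isRoot P v then 1 else 1 - (ds P l v : ℝ) ^ 2 / (Lv P v : ℝ) ^ 2

/-- tilt factors -/
noncomputable def fC (P : Pre) (p : List ℤ) (l : List Bin) (v : ℕ) : ℝ :=
  if isRoot P v then
    (1 + 1 / (pM (nn P) : ℝ)) ^ (zcl (pTt (nn P)) (p.getD v 0) * zcl (pD (nn P)) (Ev P l v)) else 1

lemma wq_eq (P : Pre) (s : ℕ) (p : List ℤ) (l : List Bin) :
    (wq P s p l : ℝ) = (∏ v ∈ range (nV (gG P)), fA P l v) ^ (s - pJ (nn P)) *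
      (∏ v ∈ range (nV (gG P)), fB P l v) ^ (min s (pJ (nn P))) *
      ∏ v ∈ range (nV (gG P)), fC P p l v := by
  rw [← prod_pow, ← prod_pow, ← prod_mul_distrib, ← prod_mul_distrib]
  unfold wq
  rw [Rat.cast_prod]
  refine prod_congr rfl fun v _ => ?_
  unfold fA fB fC
  split_ifs with h
  · rw [← zpow_natCast, ← zpow_mul]
    push_cast
    rw [one_pow, mul_one]
    congr 2
    ring
  · push_cast
    simp

lemma pD_pos {n : ℕ} (hn : 1 ≤ n) : 1 ≤ pD n := by
  unfold pD pK0 pJ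
  have : 0 < n * (4 * (2 ^ 30 * n ^ 8)) := by positivity
  omega

lemma prod_le_pow {N n : ℕ} (hN : N ≤ n) {f : ℕ → ℝ} {c : ℝ} (hc : 1 ≤ c)
    (h0 : ∀ v < N, 0 ≤ f v) (h : ∀ v < N, f v ≤ c) : ∏ v ∈ range N, f v ≤ c ^ n := by
  calc ∏ v ∈ range N, f v ≤ ∏ _v ∈ range N, c :=
        prod_le_prod (fun v hv => h0 v (mem_range.1 hv)) (fun v hv => h v (mem_range.1 hv))
    _ = c ^ N := by simp
    _ ≤ c ^ n := pow_le_pow_right₀ hc hN

lemma one_le_pow_mul_prod {N n : ℕ} (hN : N ≤ n) {f : ℕ → ℝ} {c : ℝ} (hc : 1 ≤ c)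
    (h : ∀ v < N, 1 ≤ c * f v) : 1 ≤ c ^ n * ∏ v ∈ range N, f v := by
  have h1 : 1 ≤ c ^ N * ∏ v ∈ range N, f v := by
    have : c ^ N * ∏ v ∈ range N, f v = ∏ v ∈ range N, (c * f v) := by
      rw [prod_mul_distrib]; simp
    rw [this]
    calc (1 : ℝ) = ∏ _v ∈ range N, (1 : ℝ) := by simp
      _ ≤ _ := prod_le_prod (fun _ _ => zero_le_one) (fun v hv => h v (mem_range.1 hv))
  have h2 : 0 ≤ ∏ v ∈ range N, f v := prod_nonneg fun v hv => by
    have := h v (mem_range.1 hv)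
    by_contra hc'
    push Not at hc'
    nlinarith
  exact h1.trans (mul_le_mul_of_nonneg_right (pow_le_pow_right₀ hc hN) h2)

lemma A_bd {P : Pre} (hP : Spec P) (l : List Bin) :
    1 ≤ 2 * ∏ v ∈ range (nV (gG P)), fA P l v ∧ ∏ v ∈ range (nV (gG P)), fA P l v ≤ 1 := by
  have hn := hP.pos
  have hD := pD_pos hn
  have hρ : (1 : ℝ) ≤ 1 + 1 / (pJ' (nn P) : ℝ) := le_add_of_nonneg_right (by positivity)
  have hpos : ∀ v, 0 < fA P l v := fun v => by
    unfold fA; split_ifs <;> positivity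
  constructor
  · have h1 := one_le_pow_mul_prod hP.hV (f := fA P l)
      (c := (1 + 1 / (pJ' (nn P) : ℝ)) ^ pD (nn P)) (one_le_pow₀ hρ) (fun v _ => by
        unfold fA
        split_ifs
        · exact zpow_ge hρ le_rfl (by rw [abs_neg, abs_abs]; exact zcl_abs _ _)
        · rw [mul_one]; exact one_le_pow₀ hρ)
    refine h1.trans (mul_le_mul_of_nonneg_right ?_ (prod_nonneg fun v _ => (hpos v).le))
    rw [← pow_mul]
    have hnD : 1 ≤ nn P * pD (nn P) := Nat.one_le_iff_ne_zero.2 (by positivity)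
    have e : pJ' (nn P) = 4 * (nn P * pD (nn P)) := by unfold pJ'; ring
    refine pow_le_two (by omega) ?_
    rw [e, mul_comm (pD (nn P))]; omega
  · refine prod_le_one (fun v _ => (hpos v).le) fun v _ => ?_
    unfold fA
    split_ifs
    · exact zpow_le_one_of_nonpos₀ hρ (neg_nonpos.2 (abs_nonneg _))
    · exact le_rfl

lemma B_bd (hBij : BijStmt) {P : Pre} (hP : Spec P) {x : Fin (nA (gG P)) → ℕ} (hx : x ∈ bx P) :
    1 ≤ 2 * ∏ v ∈ range (nV (gG P)), fB P (toL x) v ∧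
      ∏ v ∈ range (nV (gG P)), fB P (toL x) v ≤ 1 := by
  have hn := hP.pos
  have hn1 : (1 : ℝ) ≤ nn P := by exact_mod_cast hn
  set y : ℝ := 1 / (4 * (nn P : ℝ) ^ 2) with hy
  have hy0 : 0 ≤ y := by positivity
  have hyn : (nn P : ℝ) * y ≤ 1 / 4 := by
    rw [hy, mul_one_div, div_le_div_iff₀ (by positivity) (by norm_num)]; nlinarith
  have hy1 : y ≤ 1 / 4 := by nlinarith
  have hb : ∀ v < nV (gG P), 1 - y ≤ fB P (toL x) v ∧ fB P (toL x) v ≤ 1 := by
    intro v hv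
    unfold fB
    split_ifs with h
    · exact ⟨by linarith, le_rfl⟩
    · have h1 := ((hBij P hP).1 x hx v hv).2 h
      have h0 : 0 ≤ ds P (toL x) v := by unfold ds dst; exact le_max_left _ _
      have h1' : (ds P (toL x) v : ℝ) ≤ (nn P : ℝ) * wd P (ta P v) := by exact_mod_cast h1
      have h0' : (0 : ℝ) ≤ (ds P (toL x) v : ℝ) := by exact_mod_cast h0
      have hL : (Lv P v : ℝ) = 2 * (nn P : ℝ) ^ 2 * wd P (ta P v) := by unfold Lv; push_cast; ring
      have hq0 : 0 ≤ (ds P (toL x) v : ℝ) ^ 2 / (Lv P v : ℝ) ^ 2 := by positivity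
      refine ⟨?_, by linarith⟩
      have : (ds P (toL x) v : ℝ) ^ 2 / (Lv P v : ℝ) ^ 2 ≤ y := by
        refine div_le_of_le_mul₀ (by positivity) hy0 ?_
        have e : y * (Lv P v : ℝ) ^ 2 = ((nn P : ℝ) * wd P (ta P v)) ^ 2 := by
          rw [hy, hL]; field_simp; ring
        rw [e]
        exact pow_le_pow_left₀ h0' h1' 2
      linarith
  constructor
  · have h1 : (1 - y) ^ nV (gG P) ≤ ∏ v ∈ range (nV (gG P)), fB P (toL x) v := by
      calc (1 - y) ^ nV (gG P) = ∏ _v ∈ range (nV (gG P)), (1 - y) := by simp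
        _ ≤ _ := prod_le_prod (fun _ _ => by linarith) (fun v hv => (hb v (mem_range.1 hv)).1)
    have h2 := one_add_mul_le_pow (a := -y) (by linarith) (nV (gG P))
    have e : (1 + -y) = 1 - y := by ring
    rw [e] at h2
    have h3 : (nV (gG P) : ℝ) ≤ nn P := by exact_mod_cast hP.hV
    nlinarith
  · exact prod_le_one (fun v hv => by linarith [(hb v (mem_range.1 hv)).1])
      fun v hv => (hb v (mem_range.1 hv)).2

lemma rho_D {n : ℕ} (hn : 1 ≤ n) : (1 + 1 / (pM n : ℝ)) ^ pD n ≤ 2 := by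
  have hD := pD_pos hn
  exact pow_le_two (by unfold pM; omega) (by unfold pM; omega)

lemma fC_pos (P : Pre) (p : List ℤ) (l : List Bin) (v : ℕ) : 0 < fC P p l v := by
  unfold fC; split_ifs <;> positivity

lemma C_bd {P : Pre} (hP : Spec P) (p : List ℤ) (l : List Bin) :
    1 ≤ 2 ^ (nn P * pTt (nn P)) * ∏ v ∈ range (nV (gG P)), fC P p l v ∧
      ∏ v ∈ range (nV (gG P)), fC P p l v ≤ 2 ^ (nn P * pTt (nn P)) := by
  have hρ : (1 : ℝ) ≤ 1 + 1 / (pM (nn P) : ℝ) := le_add_of_nonneg_right (by positivity)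
  have hc : (1 + 1 / (pM (nn P) : ℝ)) ^ (pD (nn P) * pTt (nn P)) ≤ 2 ^ pTt (nn P) := by
    rw [pow_mul]; exact pow_le_pow_left₀ (by positivity) (rho_D hP.pos) _
  have he : ∀ v, |zcl (pTt (nn P)) (p.getD v 0) * zcl (pD (nn P)) (Ev P l v)| ≤
      ((pD (nn P) * pTt (nn P) : ℕ) : ℤ) := fun v => by
    rw [abs_mul, mul_comm (pD _)]; push_cast
    exact mul_le_mul (zcl_abs _ _) (zcl_abs _ _) (abs_nonneg _) (by positivity)
  have h1 : (1 : ℝ) ≤ 2 ^ pTt (nn P) := one_le_pow₀ (by norm_num)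
  rw [mul_comm (nn P), pow_mul]
  constructor
  · refine one_le_pow_mul_prod hP.hV h1 fun v _ => ?_
    unfold fC
    split_ifs
    · exact zpow_ge hρ hc (he v)
    · rw [mul_one]; exact h1
  · refine prod_le_pow hP.hV h1 (fun v _ => (fC_pos P p l v).le) fun v _ => ?_
    unfold fC
    split_ifs
    · exact zpow_le hρ hc (he v)
    · exact h1

lemma C_bump {P : Pre} (hP : Spec P) {p : List ℤ} (hp : ∀ v, |p.getD v 0| ≤ pTt (nn P))
    (l : List Bin) (v : ℕ) {δ : ℤ} (hδ : |δ| ≤ 1) (hv : |p.getD v 0 + δ| ≤ pTt (nn P)) :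
    ∃ r : ℝ, 1 ≤ 2 * r ∧ r ≤ 2 ∧ ∏ j ∈ range (nV (gG P)), fC P (bump (nn P) p v δ) l j =
      r * ∏ j ∈ range (nV (gG P)), fC P p l j := by
  have hρ : (1 : ℝ) ≤ 1 + 1 / (pM (nn P) : ℝ) := le_add_of_nonneg_right (by positivity)
  have he : |δ * zcl (pD (nn P)) (Ev P l v)| ≤ pD (nn P) := by
    rw [abs_mul]
    calc |δ| * |zcl (pD (nn P)) (Ev P l v)| ≤ 1 * pD (nn P) :=
          mul_le_mul hδ (zcl_abs _ _) (abs_nonneg _) zero_le_one
      _ = _ := one_mul _
  refine ⟨∏ j ∈ range (nV (gG P)), if j = v then (if isRoot P v then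
    (1 + 1 / (pM (nn P) : ℝ)) ^ (δ * zcl (pD (nn P)) (Ev P l v)) else 1) else 1, ?_, ?_, ?_⟩
  · rw [prod_ite_eq']
    split_ifs
    · exact zpow_ge hρ (rho_D hP.pos) he
    · norm_num
    · norm_num
  · rw [prod_ite_eq']
    split_ifs
    · exact zpow_le hρ (rho_D hP.pos) he
    · norm_num
    · norm_num
  · rw [← prod_mul_distrib]
    refine prod_congr rfl fun j hj => ?_
    have hj' : j < nn P := lt_of_lt_of_le (mem_range.1 hj) hP.hV
    unfold fC bump
    rw [getD_mkL _ _ hj']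
    by_cases hjv : j = v
    · subst hjv
      simp only [if_true]
      split_ifs
      · rw [zcl_eq hv, zcl_eq (hp j), ← zpow_add₀ (by positivity)]
        congr 1; ring
      · simp
    · simp [hjv]

end RAT

theorem RAT_proof (hBij : BijStmt) : RatStmt := by
  intro P hP
  have hcard : (bx P).card = ∏ k ∈ range (nA (gG P)), (uB P k + 1) := by
    unfold bx box
    rw [Fintype.card_piFinset, ← Fin.prod_univ_eq_prod_range (fun k => uB P k + 1)]
    simp
  refine ⟨hcard, ?_, fun x hx => ⟨?_, fun s p hV => ?_⟩⟩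
  · rw [hcard]
    calc ∏ k ∈ range (nA (gG P)), (uB P k + 1) ≤ ∏ k ∈ range (nA (gG P)), 2 ^ (wd P k).size := by
          refine prod_le_prod' fun k _ => ?_
          have h1 : uB P k ≤ wd P k := by unfold uB; split_ifs <;> omega
          have h2 := Nat.lt_size_self (wd P k)
          omega
      _ = 2 ^ ∑ k ∈ range (nA (gG P)), (wd P k).size := prod_pow_eq_pow_sum _ _ _
      _ ≤ 2 ^ nn P := Nat.pow_le_pow_right (by norm_num) hP.hsz
  · unfold πq
    rw [RAT.wq_eq]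
    have : ∏ v ∈ range (nV (gG P)), RAT.fC P [] (toL x) v = 1 := by
      refine prod_eq_one fun v _ => ?_
      unfold RAT.fC
      split_ifs
      · rw [RAT.zcl_eq (z := ([] : List ℤ).getD v 0) (by simp)]; simp
      · rfl
    rw [this]; simp
  · obtain ⟨hA1, hA2⟩ := RAT.A_bd hP (toL x)
    obtain ⟨hB1, hB2⟩ := RAT.B_bd hBij hP hx
    obtain ⟨hC1, hC2⟩ := RAT.C_bd hP p (toL x)
    have hC0 : 0 < ∏ v ∈ range (nV (gG P)), RAT.fC P p (toL x) v :=
      prod_pos fun v _ => RAT.fC_pos _ _ _ _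
    unfold πq
    simp only [RAT.wq_eq]
    set A := ∏ v ∈ range (nV (gG P)), RAT.fA P (toL x) v with hA
    set B := ∏ v ∈ range (nV (gG P)), RAT.fB P (toL x) v with hB
    set C := ∏ v ∈ range (nV (gG P)), RAT.fC P p (toL x) v with hC
    have hA0 : 0 < A := by linarith
    have hB0 : 0 < B := by linarith
    refine ⟨⟨?_, ?_⟩, fun hs => ?_, fun v δ hδ hv => ?_⟩
    · have h1 : (1 : ℝ) ≤ (2 * A) ^ (s - pJ (nn P)) := one_le_pow₀ hA1
      have h2 : (1 : ℝ) ≤ (2 * B) ^ (min s (pJ (nn P))) := one_le_pow₀ hB1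
      have h3 : (2 : ℝ) ^ (s - pJ (nn P)) * 2 ^ (min s (pJ (nn P))) ≤ 2 ^ pS (nn P) := by
        rw [← pow_add]
        exact pow_le_pow_right₀ (by norm_num) (by have := hV.1; omega)
      calc (1 : ℝ) ≤ (2 * A) ^ (s - pJ (nn P)) * (2 * B) ^ (min s (pJ (nn P))) *
            (2 ^ (nn P * pTt (nn P)) * C) :=
            one_le_mul_of_one_le_of_one_le (one_le_mul_of_one_le_of_one_le h1 h2) hC1
        _ = (2 ^ (s - pJ (nn P)) * 2 ^ (min s (pJ (nn P)))) * (2 ^ (nn P * pTt (nn P)) *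
            (A ^ (s - pJ (nn P)) * B ^ (min s (pJ (nn P))) * C)) := by
            rw [mul_pow, mul_pow]; ring
        _ ≤ 2 ^ pS (nn P) * (2 ^ (nn P * pTt (nn P)) *
            (A ^ (s - pJ (nn P)) * B ^ (min s (pJ (nn P))) * C)) :=
            mul_le_mul_of_nonneg_right h3 (by positivity)
        _ = _ := by rw [pow_add]; ring
    · have h1 : A ^ (s - pJ (nn P)) ≤ 1 := pow_le_one₀ hA0.le hA2
      have h2 : B ^ (min s (pJ (nn P))) ≤ 1 := pow_le_one₀ hB0.le hB2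
      have h3 : A ^ (s - pJ (nn P)) * B ^ (min s (pJ (nn P))) ≤ 1 :=
        mul_le_one₀ h1 (by positivity) h2
      calc A ^ (s - pJ (nn P)) * B ^ (min s (pJ (nn P))) * C ≤ 1 * C :=
            mul_le_mul_of_nonneg_right h3 hC0.le
        _ ≤ _ := by rw [one_mul]; exact hC2
    · have hW : 0 < A ^ (s - pJ (nn P)) * B ^ (min s (pJ (nn P))) * C := by positivity
      by_cases hJ : s < pJ (nn P)
      · rw [show s + 1 - pJ (nn P) = s - pJ (nn P) by omega,
          show min (s + 1) (pJ (nn P)) = min s (pJ (nn P)) + 1 by omega, pow_succ]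
        have e : A ^ (s - pJ (nn P)) * (B ^ (min s (pJ (nn P))) * B) * C =
            B * (A ^ (s - pJ (nn P)) * B ^ (min s (pJ (nn P))) * C) := by ring
        rw [e]
        constructor <;> nlinarith
      · rw [show s + 1 - pJ (nn P) = s - pJ (nn P) + 1 by omega,
          show min (s + 1) (pJ (nn P)) = min s (pJ (nn P)) by omega, pow_succ]
        have e : A ^ (s - pJ (nn P)) * A * B ^ (min s (pJ (nn P))) * C =
            A * (A ^ (s - pJ (nn P)) * B ^ (min s (pJ (nn P))) * C) := by ring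
        rw [e]
        constructor <;> nlinarith
    · obtain ⟨r, hr1, hr2, hr⟩ := RAT.C_bump hP hV.2 (toL x) v hδ hv
      rw [hr, ← hC]
      have hW : 0 < A ^ (s - pJ (nn P)) * B ^ (min s (pJ (nn P))) * C := by positivity
      have e : A ^ (s - pJ (nn P)) * B ^ (min s (pJ (nn P))) * (r * C) =
          r * (A ^ (s - pJ (nn P)) * B ^ (min s (pJ (nn P))) * C) := by ring
      rw [e]
      constructor <;> nlinarith

end Crest.Agent.R309
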