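import Crest.Agent.R309.PT0

/-! Row 309, task RNG: the range of every arc over the feasible flows. -/

set_option autoImplicit false

namespace Crest.Agent.R309

open Finset Crest.Agent.PT Crest.Agent.QC Crest.Agent.R317 Crest.Agent.R300U

namespace RNG

theorem gv_toL {N : ℕ} (x : Fin N → ℕ) (k : Fin N) : gv (toL x) k = x k := by
  unfold gv toL
  rw [List.getD_eq_getElem _ _ (by simp)]
  simp

/-- feasibility of a function -/
def FeasF (G : Net) (x : ℕ → ℕ) : Prop :=
  (∀ k < nA G, x k ≤ cap G k) ∧ ∀ v < nV G,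
    ∑ k ∈ range (nA G), ((if tl G k = v then (x k : ℤ) else 0) -
      (if hd G k = v then (x k : ℤ) else 0)) = dem G v

theorem feasL_iff (G : Net) (l : List Bin) : FeasL G l ↔ FeasF G (gv l) := Iff.rfl

theorem FeasF.congr {G : Net} {x y : ℕ → ℕ} (h : FeasF G x) (e : ∀ k < nA G, y k = x k) :
    FeasF G y := by
  refine ⟨fun k hk => (e k hk).symm ▸ h.1 k hk, fun v hv => ?_⟩
  rw [← h.2 v hv]
  refine Finset.sum_congr rfl fun k hk => ?_
  rw [e k (Finset.mem_range.1 hk)]

theorem mem_flows {G : Net} {X : Fin (nA G) → ℕ} : X ∈ flows G ↔ FeasF G (gv (toL X)) := by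
  classical
  unfold flows
  rw [Finset.mem_filter, feasL_iff]
  refine ⟨fun h => h.2, fun h => ⟨?_, h⟩⟩
  unfold box
  rw [Fintype.mem_piFinset]
  intro k
  have := h.1 k k.2
  rw [gv_toL] at this
  exact Finset.mem_range.2 (Nat.lt_succ_of_le this)

theorem flow_of {G : Net} {x : ℕ → ℕ} (h : FeasF G x) : (fun k : Fin (nA G) => x k) ∈ flows G :=
  mem_flows.2 (h.congr fun k hk => gv_toL (fun k : Fin (nA G) => x k) ⟨k, hk⟩)

/-- lower the capacity of arc `k` by `t` after shipping `s` units along it -/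
def Gm (G : Net) (k t s : ℕ) : Net :=
  (nV G, mkL (nA G) (fun j => (tl G j, hd G j, (⟨if j = k then cap G j - t else cap G j⟩ : Bin))),
    mkL (nV G) (fun v => dem G v - (if tl G k = v then bz s else 0) + (if hd G k = v then bz s else 0)))

theorem pt_Gm {α : Type} [Enc α] {G : α → Net} {k t s : α → ℕ} (hG : PT G) (hk : PT k) (ht : BT t)
    (hs : BT s) : PT (fun a => Gm (G a) (k a) (t a) (s a)) := by
  unfold Gm; fun_prop

theorem nV_Gm (G : Net) (k t s : ℕ) : nV (Gm G k t s) = nV G := rfl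

theorem nA_Gm (G : Net) (k t s : ℕ) : nA (Gm G k t s) = nA G := by
  simp [nA, Gm]

theorem tl_Gm (G : Net) (k t s j : ℕ) (hj : j < nA G) : tl (Gm G k t s) j = tl G j := by
  conv_lhs => unfold tl Gm
  simp only [getD_mkL _ _ hj]

theorem hd_Gm (G : Net) (k t s j : ℕ) (hj : j < nA G) : hd (Gm G k t s) j = hd G j := by
  conv_lhs => unfold hd Gm
  simp only [getD_mkL _ _ hj]

theorem cap_Gm (G : Net) (k t s j : ℕ) (hj : j < nA G) :
    cap (Gm G k t s) j = if j = k then cap G j - t else cap G j := by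
  conv_lhs => unfold cap Gm
  simp only [getD_mkL _ _ hj]

theorem dem_Gm (G : Net) (k t s v : ℕ) (hv : v < nV G) : dem (Gm G k t s) v =
    dem G v - (if tl G k = v then (s : ℤ) else 0) + (if hd G k = v then (s : ℤ) else 0) := by
  show (mkL (nV G) _).getD v _ = _
  rw [getD_mkL _ _ hv]
  rfl

theorem wf_Gm {G : Net} (h : WF G) (k t s : ℕ) : WF (Gm G k t s) := by
  intro j hj
  rw [nA_Gm] at hj
  rw [tl_Gm _ _ _ _ _ hj, hd_Gm _ _ _ _ _ hj, nV_Gm]
  exact h j hj

theorem sum_shift (G : Net) (k s v : ℕ) (hk : k < nA G) (x : ℕ → ℕ) :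
    ∑ j ∈ range (nA G), ((if tl G j = v then ((x j + if j = k then s else 0 : ℕ) : ℤ) else 0) -
      (if hd G j = v then ((x j + if j = k then s else 0 : ℕ) : ℤ) else 0)) =
    ∑ j ∈ range (nA G), ((if tl G j = v then (x j : ℤ) else 0) -
      (if hd G j = v then (x j : ℤ) else 0)) +
      ((if tl G k = v then (s : ℤ) else 0) - (if hd G k = v then (s : ℤ) else 0)) := by
  have : ((if tl G k = v then (s : ℤ) else 0) - (if hd G k = v then (s : ℤ) else 0)) =
      ∑ j ∈ range (nA G), if j = k then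
        ((if tl G j = v then (s : ℤ) else 0) - (if hd G j = v then (s : ℤ) else 0)) else 0 := by
    rw [Finset.sum_ite_eq' (range (nA G)) k, if_pos (Finset.mem_range.2 hk)]
  rw [this, ← Finset.sum_add_distrib]
  refine Finset.sum_congr rfl fun j _ => ?_
  split_ifs <;> push_cast <;> ring

theorem feas_Gm (G : Net) (k t s : ℕ) (hk : k < nA G) (hst : s ≤ t) (ht : t ≤ cap G k)
    (x : ℕ → ℕ) : FeasF (Gm G k t s) x ↔
      FeasF G (fun j => x j + if j = k then s else 0) ∧ x k + t ≤ cap G k := by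
  have e : ∀ v, ∑ j ∈ range (nA (Gm G k t s)),
      ((if tl (Gm G k t s) j = v then (x j : ℤ) else 0) -
        (if hd (Gm G k t s) j = v then (x j : ℤ) else 0)) =
      ∑ j ∈ range (nA G), ((if tl G j = v then (x j : ℤ) else 0) -
        (if hd G j = v then (x j : ℤ) else 0)) := by
    intro v
    rw [nA_Gm]
    refine Finset.sum_congr rfl fun j hj => ?_
    rw [tl_Gm _ _ _ _ _ (Finset.mem_range.1 hj), hd_Gm _ _ _ _ _ (Finset.mem_range.1 hj)]
  constructor
  · rintro ⟨h1, h2⟩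
    have h3 : ∀ j < nA G, x j ≤ if j = k then cap G j - t else cap G j := fun j hj => by
      rw [← cap_Gm G k t s j hj]
      exact h1 j (by rwa [nA_Gm])
    have h4 := h3 k hk
    rw [if_pos rfl] at h4
    refine ⟨⟨fun j hj => ?_, fun v hv => ?_⟩, by omega⟩
    · have := h3 j hj
      by_cases hjk : j = k
      · subst hjk
        simp only [if_true]
        omega
      · simpa [hjk] using this
    · have := h2 v hv
      rw [e, dem_Gm _ _ _ _ _ hv] at this
      rw [sum_shift G k s v hk x, this]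
      ring
  · rintro ⟨⟨h1, h2⟩, h3⟩
    refine ⟨fun j hj => ?_, fun v hv => ?_⟩
    · rw [nA_Gm] at hj
      rw [cap_Gm _ _ _ _ _ hj]
      have := h1 j hj
      by_cases hjk : j = k
      · subst hjk
        simp only [if_true]
        omega
      · simpa [hjk] using this
    · rw [nV_Gm] at hv
      have := h2 v hv
      rw [sum_shift G k s v hk x] at this
      rw [e, dem_Gm _ _ _ _ _ hv, ← this]
      ring

theorem ne_Gm (G : Net) (k : Fin (nA G)) (t s : ℕ) (hst : s ≤ t) (ht : t ≤ cap G k) :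
    (flows (Gm G k t s)).Nonempty ↔ ∃ X ∈ flows G, s ≤ X k ∧ X k + t ≤ cap G k + s := by
  constructor
  · rintro ⟨Y, hY⟩
    have := (feas_Gm G k t s k.2 hst ht _).1 (mem_flows.1 hY)
    refine ⟨_, flow_of this.1, ?_⟩
    have h2 := this.2
    simp only [if_true]
    omega
  · rintro ⟨X, hX, h1, h2⟩
    refine ⟨_, flow_of (x := fun j => gv (toL X) j - if j = k then s else 0) ?_⟩
    rw [feas_Gm G k t s k.2 hst ht]
    refine ⟨(mem_flows.1 hX).congr fun j _ => ?_, ?_⟩
    · by_cases hjk : j = k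
      · subst hjk
        simp only [if_true, gv_toL]
        omega
      · simp [hjk]
    · simp only [if_true, gv_toL]
      omega

open Classical in
/-- largest value of the arc -/
noncomputable def hiv (G : Net) (k : ℕ) : ℕ :=
  if WF G ∧ k < nA G then (flows G).sup (fun X => gv (toL X) k) else 0

open Classical in
/-- largest slack of the arc -/
noncomputable def slv (G : Net) (k : ℕ) : ℕ :=
  if WF G ∧ k < nA G then (flows G).sup (fun X => cap G k - gv (toL X) k) else 0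

theorem le_cap {G : Net} {X : Fin (nA G) → ℕ} (hX : X ∈ flows G) (k : Fin (nA G)) :
    X k ≤ cap G k := by
  have := (mem_flows.1 hX).1 k k.2
  rwa [gv_toL] at this

theorem hiv_le (G : Net) (k : ℕ) : hiv G k ≤ cap G k := by
  unfold hiv
  split_ifs with h
  · exact Finset.sup_le fun X hX => (mem_flows.1 hX).1 k h.2
  · exact Nat.zero_le _

theorem slv_le (G : Net) (k : ℕ) : slv G k ≤ cap G k := by
  unfold slv
  split_ifs with h
  · exact Finset.sup_le fun X _ => Nat.sub_le _ _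
  · exact Nat.zero_le _

theorem le_hiv (G : Net) (k t : ℕ) : t ≤ hiv G k ↔
    t = 0 ∨ (WF G ∧ k < nA G ∧ t ≤ cap G k ∧ (flows (Gm G k t t)).Nonempty) := by
  rcases Nat.eq_zero_or_pos t with h0 | h0
  · simp [h0]
  constructor
  · intro h
    have hc := h.trans (hiv_le G k)
    unfold hiv at h
    split_ifs at h with h1
    · refine Or.inr ⟨h1.1, h1.2, hc, ?_⟩
      obtain ⟨X, hX, h2⟩ := (Finset.le_sup_iff h0).1 h
      refine (ne_Gm G ⟨k, h1.2⟩ t t le_rfl hc).2 ⟨X, hX, ?_, ?_⟩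
      · rw [← gv_toL X]; exact h2
      · have := le_cap hX ⟨k, h1.2⟩
        omega
    · omega
  · rintro (h | ⟨h1, h2, h3, h4⟩)
    · omega
    · obtain ⟨X, hX, h5, -⟩ := (ne_Gm G ⟨k, h2⟩ t t le_rfl h3).1 h4
      unfold hiv
      rw [if_pos ⟨h1, h2⟩]
      refine le_trans ?_ (Finset.le_sup (f := fun X => gv (toL X) k) hX)
      rw [← gv_toL X] at h5
      exact h5

theorem le_slv (G : Net) (k t : ℕ) : t ≤ slv G k ↔
    t = 0 ∨ (WF G ∧ k < nA G ∧ t ≤ cap G k ∧ (flows (Gm G k t 0)).Nonempty) := by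
  rcases Nat.eq_zero_or_pos t with h0 | h0
  · simp [h0]
  constructor
  · intro h
    have hc := h.trans (slv_le G k)
    unfold slv at h
    split_ifs at h with h1
    · refine Or.inr ⟨h1.1, h1.2, hc, ?_⟩
      obtain ⟨X, hX, h2⟩ := (Finset.le_sup_iff h0).1 h
      refine (ne_Gm G ⟨k, h1.2⟩ t 0 (Nat.zero_le _) hc).2 ⟨X, hX, Nat.zero_le _, ?_⟩
      have e := gv_toL X ⟨k, h1.2⟩
      simp only at e h2 ⊢
      omega
    · omega
  · rintro (h | ⟨h1, h2, h3, h4⟩)
    · omega
    · obtain ⟨X, hX, -, h5⟩ := (ne_Gm G ⟨k, h2⟩ t 0 (Nat.zero_le _) h3).1 h4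
      unfold slv
      rw [if_pos ⟨h1, h2⟩]
      refine le_trans ?_ (Finset.le_sup (f := fun X => cap G k - gv (toL X) k) hX)
      have e := gv_toL X ⟨k, h2⟩
      simp only at e h5 ⊢
      omega

theorem dt_WF : DT WF := by
  have : DT (fun G : Net => All (nA G) (fun k => tl G k < nV G ∧ hd G k < nV G)) := by fun_prop
  exact this

theorem dt_ok (hF : FeasStmt) : DT (fun G : Net => WF G ∧ (flows G).Nonempty) := by
  obtain ⟨fe, hfe, H⟩ := hF
  have h1 : DT (fun G : Net => FeasL G (fe G)) := dt_FeasL PT.id' hfe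
  refine (dt_WF.and h1).congr fun G => ⟨fun h => ⟨h.1, _, flow_of h.2⟩, fun h => ⟨h.1, ?_⟩⟩
  obtain ⟨X, hX, e⟩ := H G h.1 h.2
  rw [e]
  exact mem_flows.1 hX

theorem dt_test (hF : FeasStmt) {s : (Net × ℕ) × Bin → ℕ} (hs : BT s) :
    DT (fun p : (Net × ℕ) × Bin => p.2.val = 0 ∨ (WF p.1.1 ∧ p.1.2 < nA p.1.1 ∧
      p.2.val ≤ cap p.1.1 p.1.2 ∧ (flows (Gm p.1.1 p.1.2 p.2.val (s p))).Nonempty)) := by
  have h1 : DT (fun p : (Net × ℕ) × Bin => WF (Gm p.1.1 p.1.2 p.2.val (s p)) ∧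
      (flows (Gm p.1.1 p.1.2 p.2.val (s p))).Nonempty) :=
    (dt_ok hF).comp (f := fun p : (Net × ℕ) × Bin => Gm p.1.1 p.1.2 p.2.val (s p))
      (pt_Gm (by fun_prop) (by fun_prop) (by fun_prop) hs)
  have h2 : DT (fun p : (Net × ℕ) × Bin => WF p.1.1) :=
    dt_WF.comp (f := fun p : (Net × ℕ) × Bin => p.1.1) (by fun_prop)
  have h3 : DT (fun p : (Net × ℕ) × Bin => p.2.val = 0) := by fun_prop
  have h4 : DT (fun p : (Net × ℕ) × Bin => p.1.2 < nA p.1.1) := by fun_prop
  have h5 : DT (fun p : (Net × ℕ) × Bin => p.2.val ≤ cap p.1.1 p.1.2) := by fun_prop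
  refine (h3.or (h2.and (h4.and (h5.and h1)))).congr fun p => ?_
  constructor
  · rintro (h | ⟨a, b, c, -, d⟩)
    · exact Or.inl h
    · exact Or.inr ⟨a, b, c, d⟩
  · rintro (h | ⟨a, b, c, d⟩)
    · exact Or.inl h
    · exact Or.inr ⟨a, b, c, wf_Gm a _ _ _, d⟩

theorem bt_hiv (hF : FeasStmt) : BT (fun p : Net × ℕ => hiv p.1 p.2) := by
  refine BT.search (k := fun p : Net × ℕ => (cap p.1 p.2).size) (by fun_prop)
    (fun p => (hiv_le _ _).trans_lt (Nat.lt_size_self _)) ?_
  exact (dt_test hF (s := fun p => p.2.val) (by fun_prop)).congr fun p => (le_hiv _ _ _).symm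

theorem bt_slv (hF : FeasStmt) : BT (fun p : Net × ℕ => slv p.1 p.2) := by
  refine BT.search (k := fun p : Net × ℕ => (cap p.1 p.2).size) (by fun_prop)
    (fun p => (slv_le _ _).trans_lt (Nat.lt_size_self _)) ?_
  exact (dt_test hF (s := fun _ => 0) (by fun_prop)).congr fun p => (le_slv _ _ _).symm

theorem gv_mkL (n : ℕ) (f : ℕ → ℕ) (k : ℕ) (hk : k < n) :
    gv (mkL n (fun j => (⟨f j⟩ : Bin))) k = f k := by
  unfold gv
  rw [getD_mkL _ _ hk]

end RNG

theorem RNG_proof (hF : FeasStmt) : RngStmt := by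
  have h1 := RNG.bt_hiv hF
  have h2 := RNG.bt_slv hF
  refine ⟨fun G => (mkL (nA G) (fun k => (⟨cap G k - RNG.slv G k⟩ : Bin)),
    mkL (nA G) (fun k => (⟨RNG.hiv G k - (cap G k - RNG.slv G k)⟩ : Bin))), ?_, fun G hG hne => ?_⟩
  · have h3 : BT (fun p : Net × ℕ => cap p.1 p.2 - RNG.slv p.1 p.2) := BT.sub (by fun_prop) h2
    exact PT.pair (pt_mkL (by fun_prop) (BT.mk h3)) (pt_mkL (by fun_prop) (BT.mk (h1.sub h3)))
  · have hhi : ∀ k : Fin (nA G), RNG.hiv G k = (flows G).sup (fun X => X k) := fun k => by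
      unfold RNG.hiv
      rw [if_pos ⟨hG, k.2⟩]
      simp only [RNG.gv_toL]
    have hsl : ∀ k : Fin (nA G), RNG.slv G k = (flows G).sup (fun X => cap G k - X k) := fun k => by
      unfold RNG.slv
      rw [if_pos ⟨hG, k.2⟩]
      simp only [RNG.gv_toL]
    have b1 : ∀ X ∈ flows G, ∀ k : Fin (nA G), cap G k - RNG.slv G k ≤ X k ∧ X k ≤ RNG.hiv G k := by
      intro X hX k
      have a1 : cap G k - X k ≤ RNG.slv G k := by
        rw [hsl]; exact Finset.le_sup (f := fun X => cap G k - X k) hX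
      have a2 : X k ≤ RNG.hiv G k := by
        rw [hhi]; exact Finset.le_sup (f := fun X => X k) hX
      omega
    refine ⟨fun X hX k => ?_, fun k => ⟨?_, ?_⟩⟩
    · simp only [RNG.gv_mkL _ _ _ k.2]
      have := b1 X hX k
      omega
    · simp only [RNG.gv_mkL _ _ _ k.2]
      obtain ⟨X, hX, e⟩ := Finset.exists_mem_eq_sup (flows G) hne (fun X => cap G k - X k)
      refine ⟨X, hX, ?_⟩
      rw [hsl, e]
      have := RNG.le_cap hX k
      omega
    · simp only [RNG.gv_mkL _ _ _ k.2]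
      obtain ⟨X, hX, e⟩ := Finset.exists_mem_eq_sup (flows G) hne (fun X => X k)
      refine ⟨X, hX, ?_⟩
      have := b1 X hX k
      rw [hhi, e] at this ⊢
      omega

end Crest.Agent.R309
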