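import Crest.Agent.R309.DefsA

/-! Row 309, task SMO: from unit steps to long steps. -/

set_option autoImplicit false

namespace Crest.Agent.R309

open Finset

namespace SMO

/-- reflection of `ℤ` into `[0, u]` -/
def rf (u : ℕ) (r : ℤ) : ℕ :=
  if r < 0 then (-1 - r).toNat else if r ≤ u then r.toNat else (2 * u + 1 - r).toNat

theorem rf_cases (u : ℕ) (r : ℤ) (h : r ≤ 2 * u + 1) :
    (r < 0 ∧ (rf u r : ℤ) = -1 - r) ∨ (0 ≤ r ∧ r ≤ u ∧ (rf u r : ℤ) = r) ∨
      ((u : ℤ) < r ∧ (rf u r : ℤ) = 2 * u + 1 - r) := by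
  unfold rf
  split_ifs <;> omega

variable {κ : Type} [DecidableEq κ]

/-- move coordinate `k` by `U`, reflected -/
def mv (u : κ → ℕ) (k : κ) (x : κ → ℕ) (U : ℤ) : κ → ℕ :=
  Function.update x k (rf (u k) (x k + U))

/-- partner of the shift -/
def pr (u : κ → ℕ) (k : κ) (x : κ → ℕ) (U : ℤ) : ℤ :=
  if 0 ≤ (x k : ℤ) + U ∧ (x k : ℤ) + U ≤ u k then -U else U

/-- sets saturated in direction `k` -/
def Sat (u : κ → ℕ) (k : κ) (Ω : Finset (κ → ℕ)) : Prop :=
  ∀ x ∈ Ω, x k ≤ u k ∧ ∀ t ≤ u k, Function.update x k t ∈ Ω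

theorem rf_le (u s : ℕ) (U : ℤ) (hs : s ≤ u) (h1 : -((u : ℤ) + 1) ≤ U) (h2 : U ≤ u + 1) :
    rf u (s + U) ≤ u := by
  rcases rf_cases u (s + U) (by omega) with h | h | h <;> omega

theorem mv_mem {u : κ → ℕ} {k : κ} {Ω : Finset (κ → ℕ)} (hΩ : Sat u k Ω) {x : κ → ℕ} (hx : x ∈ Ω)
    {U : ℤ} (h1 : -((u k : ℤ) + 1) ≤ U) (h2 : U ≤ u k + 1) : mv u k x U ∈ Ω :=
  (hΩ x hx).2 _ (rf_le _ _ _ (hΩ x hx).1 h1 h2)

theorem mv_mv {u : κ → ℕ} {k : κ} {x : κ → ℕ} (hx : x k ≤ u k) {U : ℤ}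
    (h1 : -((u k : ℤ) + 1) ≤ U) (h2 : U ≤ u k + 1) :
    mv u k (mv u k x U) (pr u k x U) = x ∧ pr u k (mv u k x U) (pr u k x U) = U := by
  have h3 := rf_cases (u k) (x k + U) (by omega)
  constructor
  · unfold mv
    rw [Function.update_idem, Function.update_self]
    have : rf (u k) (rf (u k) (x k + U) + pr u k x U) = x k := by
      have h4 := rf_cases (u k) (rf (u k) (x k + U) + pr u k x U) (by unfold pr; split_ifs <;> omega)
      unfold pr at h4 ⊢
      split_ifs at h4 ⊢ <;> omega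
    rw [this, Function.update_eq_self]
  · unfold mv pr
    rw [Function.update_self]
    split_ifs <;> omega

/-- the kernel is doubly stochastic -/
theorem sum_mv {u : κ → ℕ} {k : κ} {Ω : Finset (κ → ℕ)} (hΩ : Sat u k Ω) (S : Finset ℤ)
    (hS : ∀ U ∈ S, -U ∈ S) (hb : ∀ U ∈ S, U ≤ u k + 1) (G : (κ → ℕ) → ℝ) :
    ∑ x ∈ Ω, ∑ U ∈ S, G (mv u k x U) = S.card * ∑ x ∈ Ω, G x := by
  have hb' : ∀ U ∈ S, -((u k : ℤ) + 1) ≤ U := fun U hU => by have := hb _ (hS U hU); omega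
  have hp : ∀ x, ∀ U ∈ S, pr u k x U ∈ S := fun x U hU => by
    unfold pr; split_ifs
    · exact hS U hU
    · exact hU
  have e : ∑ p ∈ Ω ×ˢ S, G (mv u k p.1 p.2) = ∑ p ∈ Ω ×ˢ S, G p.1 := by
    refine Finset.sum_nbij' (fun p => (mv u k p.1 p.2, pr u k p.1 p.2))
      (fun p => (mv u k p.1 p.2, pr u k p.1 p.2)) ?_ ?_ ?_ ?_ ?_
    · intro p hp'
      rw [mem_product] at hp' ⊢
      exact ⟨mv_mem hΩ hp'.1 (hb' _ hp'.2) (hb _ hp'.2), hp _ _ hp'.2⟩
    · intro p hp'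
      rw [mem_product] at hp' ⊢
      exact ⟨mv_mem hΩ hp'.1 (hb' _ hp'.2) (hb _ hp'.2), hp _ _ hp'.2⟩
    · intro p hp'
      rw [mem_product] at hp'
      have := mv_mv (hΩ _ hp'.1).1 (hb' _ hp'.2) (hb _ hp'.2)
      exact Prod.ext this.1 this.2
    · intro p hp'
      rw [mem_product] at hp'
      have := mv_mv (hΩ _ hp'.1).1 (hb' _ hp'.2) (hb _ hp'.2)
      exact Prod.ext this.1 this.2
    · intro p _
      rfl
  rw [sum_product, sum_product] at e
  rw [e, mul_sum]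
  refine sum_congr rfl fun x _ => ?_
  simp

theorem sum_mv_le {u : κ → ℕ} {k : κ} {Ω : Finset (κ → ℕ)} (hΩ : Sat u k Ω) (c : ℤ)
    (h1 : -((u k : ℤ) + 1) ≤ c) (h2 : c ≤ u k + 1) (G : (κ → ℕ) → ℝ) (hG : ∀ x ∈ Ω, 0 ≤ G x) :
    ∑ x ∈ Ω, G (mv u k x c) ≤ 2 * ∑ x ∈ Ω, G x := by
  have hb : ∀ U ∈ ({c, -c} : Finset ℤ), -((u k : ℤ) + 1) ≤ U ∧ U ≤ u k + 1 := by
    intro U hU
    simp only [mem_insert, mem_singleton] at hU
    omega
  have e := sum_mv hΩ {c, -c} (by
    intro U hU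
    simp only [mem_insert, mem_singleton] at hU ⊢
    omega) (fun U hU => (hb U hU).2) G
  have h3 : ((({c, -c} : Finset ℤ).card : ℕ) : ℝ) ≤ 2 := by exact_mod_cast card_le_two
  calc ∑ x ∈ Ω, G (mv u k x c) ≤ ∑ x ∈ Ω, ∑ U ∈ ({c, -c} : Finset ℤ), G (mv u k x U) :=
        sum_le_sum fun x hx => single_le_sum (f := fun U => G (mv u k x U))
          (fun U hU => hG _ (mv_mem hΩ hx (hb U hU).1 (hb U hU).2)) (by simp)
    _ ≤ _ := by
      rw [e]
      exact mul_le_mul_of_nonneg_right h3 (sum_nonneg hG)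

/-- each point is hit at most three times -/
theorem sum_rf_le (u s : ℕ) (S : Finset ℤ) (hb : ∀ U ∈ S, (s : ℤ) + U ≤ 2 * u + 1) (T : Finset ℕ)
    (hT : ∀ U ∈ S, rf u (s + U) ∈ T) (G : ℕ → ℝ) (hG : ∀ t ∈ T, 0 ≤ G t) :
    ∑ U ∈ S, G (rf u (s + U)) ≤ 3 * ∑ t ∈ T, G t := by
  rw [← sum_fiberwise_of_maps_to hT, mul_sum]
  refine sum_le_sum fun t ht => ?_
  have e : ∑ U ∈ S with rf u (s + U) = t, G (rf u (s + U)) =
      ((S.filter fun U => rf u (s + U) = t).card : ℝ) * G t := by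
    rw [sum_congr rfl (g := fun _ => G t) (fun U hU => by rw [(mem_filter.1 hU).2])]
    simp
  rw [e]
  refine mul_le_mul_of_nonneg_right ?_ (hG t ht)
  have : (S.filter fun U => rf u (s + U) = t) ⊆ {(t : ℤ) - s, -1 - (t : ℤ) - s, 2 * (u : ℤ) + 1 - t - s} := by
    intro U hU
    rw [mem_filter] at hU
    have := rf_cases u (s + U) (hb U hU.1)
    have h2 := hU.2
    simp only [mem_insert, mem_singleton]
    omega
  exact_mod_cast (card_le_card this).trans card_le_three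

/-- half width -/
def hw (h : ℕ) : ℕ := (h - 1) / 2

/-- the window -/
noncomputable def win (h : ℕ) : Finset ℤ := Icc (-(hw h : ℤ)) (hw h)

theorem card_win (h : ℕ) : ((win h).card : ℝ) = 2 * (hw h : ℝ) + 1 := by
  have : (win h).card = 2 * hw h + 1 := by
    unfold win
    rw [Int.card_Icc]
    omega
  rw [this]
  push_cast
  ring

theorem mem_win {h : ℕ} {U : ℤ} : U ∈ win h ↔ -(hw h : ℤ) ≤ U ∧ U ≤ hw h := mem_Icc

/-- the averaging operator -/
noncomputable def av (u h : κ → ℕ) (k : κ) (f : (κ → ℕ) → ℝ) (x : κ → ℕ) : ℝ :=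
  (∑ U ∈ win (h k), f (mv u k x U)) / (2 * (hw (h k) : ℝ) + 1)

/-- weighted square norm -/
def nm (Ω : Finset (κ → ℕ)) (w f : (κ → ℕ) → ℝ) : ℝ := ∑ x ∈ Ω, w x * f x ^ 2

theorem avg_sq_le (h : ℕ) (a : ℤ → ℝ) :
    ((∑ U ∈ win h, a U) / (2 * (hw h : ℝ) + 1)) ^ 2 ≤
      (∑ U ∈ win h, a U ^ 2) / (2 * (hw h : ℝ) + 1) := by
  have h1 := sq_sum_le_card_mul_sum_sq (s := win h) (f := a)
  rw [card_win] at h1
  have h2 : (0 : ℝ) < 2 * (hw h : ℝ) + 1 := by positivity
  rw [div_pow, div_le_div_iff₀ (by positivity) h2]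
  nlinarith

theorem nm_av_le {u h : κ → ℕ} {k : κ} {Ω : Finset (κ → ℕ)} (hΩ : Sat u k Ω)
    (hh : hw (h k) ≤ u k) {w : (κ → ℕ) → ℝ} {ρ : ℝ} (hw0 : ∀ x ∈ Ω, 0 ≤ w x)
    (hL : ∀ x ∈ Ω, ∀ U ∈ win (h k), w x ≤ ρ * w (mv u k x U)) (f : (κ → ℕ) → ℝ) :
    nm Ω w (av u h k f) ≤ ρ * nm Ω w f := by
  have h2 : (0 : ℝ) < 2 * (hw (h k) : ℝ) + 1 := by positivity
  have e := sum_mv hΩ (win (h k)) (fun U hU => by rw [mem_win] at hU ⊢; omega)
    (fun U hU => by rw [mem_win] at hU; omega) (fun y => w y * f y ^ 2)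
  rw [card_win] at e
  calc nm Ω w (av u h k f)
      ≤ ∑ x ∈ Ω, ρ * (∑ U ∈ win (h k), w (mv u k x U) * f (mv u k x U) ^ 2) /
          (2 * (hw (h k) : ℝ) + 1) := by
        refine sum_le_sum fun x hx => ?_
        refine (mul_le_mul_of_nonneg_left (avg_sq_le (h k) fun U => f (mv u k x U))
          (hw0 x hx)).trans ?_
        rw [← mul_div_assoc]
        refine div_le_div_of_nonneg_right ?_ h2.le
        rw [mul_sum, mul_sum]
        refine sum_le_sum fun U hU => ?_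
        rw [← mul_assoc]
        exact mul_le_mul_of_nonneg_right (hL x hx U hU) (sq_nonneg _)
    _ = ρ * nm Ω w f := by
        rw [← sum_div, ← mul_sum, e, nm]
        field_simp

/-- discrete gradient -/
def gr (k : κ) (f : (κ → ℕ) → ℝ) (x : κ → ℕ) : ℝ := f (x + Pi.single k 1) - f x

theorem upd_add {k l : κ} (hkl : l ≠ k) (x : κ → ℕ) (t d : ℕ) :
    Function.update (x + Pi.single k d) l t = Function.update x l t + Pi.single k d := by
  funext j
  by_cases hj : j = l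
  · subst hj
    simp [Pi.single_eq_of_ne hkl]
  · simp [Function.update_of_ne hj]

theorem upd_eq_add (k : κ) (x : κ → ℕ) (d : ℕ) :
    Function.update x k (x k + d) = x + Pi.single k d := by
  funext j
  by_cases hj : j = k
  · subst hj
    simp
  · simp [Function.update_of_ne hj, Pi.single_eq_of_ne hj]

theorem mv_add {u : κ → ℕ} {k l : κ} (hkl : l ≠ k) (x : κ → ℕ) (U : ℤ) :
    mv u l (x + Pi.single k 1) U = mv u l x U + Pi.single k 1 := by
  unfold mv
  rw [upd_add hkl]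
  simp [Pi.single_eq_of_ne hkl]

theorem gr_av {u h : κ → ℕ} {k l : κ} (hkl : l ≠ k) (f : (κ → ℕ) → ℝ) :
    gr k (av u h l f) = av u h l (gr k f) := by
  funext x
  simp only [gr, av, mv_add hkl, sum_sub_distrib, sub_div]

theorem mv_comm {u : κ → ℕ} {k l : κ} (hkl : l ≠ k) (x : κ → ℕ) (U W : ℤ) :
    mv u l (mv u k x U) W = mv u k (mv u l x W) U := by
  unfold mv
  rw [Function.update_of_ne hkl, Function.update_of_ne hkl.symm, Function.update_comm hkl]

theorem av_comm {u h : κ → ℕ} {k l : κ} (hkl : l ≠ k) (f : (κ → ℕ) → ℝ) :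
    av u h k (av u h l f) = av u h l (av u h k f) := by
  funext x
  simp only [av, ← sum_div, mv_comm hkl]
  rw [sum_comm, div_right_comm]

theorem av_sub (u h : κ → ℕ) (k : κ) (f g : (κ → ℕ) → ℝ) (x : κ → ℕ) :
    av u h k (fun y => f y - g y) x = av u h k f x - av u h k g x := by
  simp only [av, sum_sub_distrib, sub_div]

/-- product of the averaging operators -/
noncomputable def avL (u h : κ → ℕ) : List κ → ((κ → ℕ) → ℝ) → (κ → ℕ) → ℝ
  | [], f => f
  | k :: L, f => av u h k (avL u h L f)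

theorem av_avL {u h : κ → ℕ} {k : κ} (f : (κ → ℕ) → ℝ) :
    ∀ L : List κ, k ∉ L → av u h k (avL u h L f) = avL u h L (av u h k f)
  | [], _ => rfl
  | l :: L, hk => by
    rw [List.mem_cons, not_or] at hk
    simp only [avL]
    rw [av_comm (Ne.symm hk.1), av_avL f L hk.2]

theorem gr_avL {u h : κ → ℕ} {k : κ} (f : (κ → ℕ) → ℝ) :
    ∀ L : List κ, k ∉ L → gr k (avL u h L f) = avL u h L (gr k f)
  | [], _ => rfl
  | l :: L, hk => by
    rw [List.mem_cons, not_or] at hk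
    simp only [avL]
    rw [gr_av (Ne.symm hk.1), gr_avL f L hk.2]

omit [DecidableEq κ] in
theorem nm_nonneg {Ω : Finset (κ → ℕ)} {w : (κ → ℕ) → ℝ} (hw0 : ∀ x ∈ Ω, 0 ≤ w x)
    (f : (κ → ℕ) → ℝ) : 0 ≤ nm Ω w f :=
  sum_nonneg fun x hx => mul_nonneg (hw0 x hx) (sq_nonneg _)

theorem nm_avL {u h : κ → ℕ} {k : κ} {Ω : Finset (κ → ℕ)} {w : (κ → ℕ) → ℝ} {ρ : ℝ} (hρ : 0 ≤ ρ)
    (hc : ∀ l, l ≠ k → ∀ f, nm Ω w (av u h l f) ≤ ρ * nm Ω w f) (f : (κ → ℕ) → ℝ) :
    ∀ L : List κ, k ∉ L → nm Ω w (avL u h L f) ≤ ρ ^ L.length * nm Ω w f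
  | [], _ => by simp [avL]
  | l :: L, hk => by
    rw [List.mem_cons, not_or] at hk
    simp only [avL, List.length_cons]
    refine (hc l (Ne.symm hk.1) _).trans ?_
    rw [pow_succ', mul_assoc]
    exact mul_le_mul_of_nonneg_left (nm_avL hρ hc f L hk.2) hρ

theorem nm_gr_avL {u h : κ → ℕ} {k : κ} {Ω : Finset (κ → ℕ)} {w : (κ → ℕ) → ℝ} {ρ : ℝ} (hρ : 1 ≤ ρ)
    (hw0 : ∀ x ∈ Ω, 0 ≤ w x)
    (hc : ∀ l, l ≠ k → ∀ f, nm Ω w (av u h l f) ≤ ρ * nm Ω w f) (f : (κ → ℕ) → ℝ) :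
    ∀ L : List κ, L.Nodup → k ∈ L →
      nm Ω w (gr k (avL u h L f)) ≤ ρ ^ L.length * nm Ω w (gr k (av u h k f))
  | [], _, hk => by simp at hk
  | l :: L, hL, hk => by
    have hρ0 : 0 ≤ ρ := by linarith
    rw [List.nodup_cons] at hL
    simp only [avL, List.length_cons]
    by_cases hlk : l = k
    · subst hlk
      rw [av_avL f L hL.1, gr_avL _ L hL.1]
      refine (nm_avL hρ0 hc _ L hL.1).trans ?_
      exact mul_le_mul_of_nonneg_right (pow_le_pow_right₀ hρ (Nat.le_succ _)) (nm_nonneg hw0 _)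
    · have hk' : k ∈ L := by
        rcases List.mem_cons.1 hk with h1 | h1
        · exact absurd h1.symm hlk
        · exact h1
      rw [gr_av hlk]
      refine (hc l hlk _).trans ?_
      rw [pow_succ', mul_assoc]
      exact mul_le_mul_of_nonneg_left (nm_gr_avL hρ hw0 hc f L hL.2 hk') hρ0

theorem nm_sub_avL {u h : κ → ℕ} {Ω : Finset (κ → ℕ)} {w : (κ → ℕ) → ℝ} {ρ : ℝ} (hρ : 1 ≤ ρ)
    (hw0 : ∀ x ∈ Ω, 0 ≤ w x) (hc : ∀ l f, nm Ω w (av u h l f) ≤ ρ * nm Ω w f)
    (f : (κ → ℕ) → ℝ) : ∀ L : List κ,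
      nm Ω w (fun x => f x - avL u h L f x) ≤ ρ ^ L.length * ((L.length : ℝ) + 1) *
        (L.map fun k => nm Ω w (fun x => f x - av u h k f x)).sum
  | [] => by simp [avL, nm]
  | k :: L => by
    have ih := nm_sub_avL hρ hw0 hc f L
    have h1 := hc k (fun x => f x - avL u h L f x)
    set m : ℝ := (L.length : ℝ) + 1 with hm
    have hm1 : 1 ≤ m := by rw [hm]; linarith [Nat.cast_nonneg (α := ℝ) L.length]
    set a := nm Ω w (fun x => f x - av u h k f x)
    set b := nm Ω w (av u h k fun x => f x - avL u h L f x)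
    set c := nm Ω w (fun x => f x - avL u h L f x)
    set s := (L.map fun k => nm Ω w (fun x => f x - av u h k f x)).sum
    have ha : 0 ≤ a := nm_nonneg hw0 _
    have h2 : m * nm Ω w (fun x => f x - avL u h (k :: L) f x) ≤ m * (m + 1) * a + (m + 1) * b := by
      simp only [a, b, nm, mul_sum, ← sum_add_distrib]
      refine sum_le_sum fun x hx => ?_
      rw [av_sub]
      simp only [avL]
      have := mul_nonneg (hw0 x hx)
        (sq_nonneg (m * (f x - av u h k f x) - (av u h k f x - av u h k (avL u h L f) x)))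
      nlinarith
    have hp : 1 ≤ ρ ^ (L.length + 1) := one_le_pow₀ hρ
    have h3 : b ≤ ρ ^ (L.length + 1) * m * s := by
      refine h1.trans ?_
      rw [pow_succ', mul_assoc, mul_assoc, ← mul_assoc (ρ ^ _)]
      exact mul_le_mul_of_nonneg_left ih (by linarith)
    simp only [List.length_cons, List.map_cons, List.sum_cons]
    push_cast
    rw [← hm]
    refine le_of_mul_le_mul_left (h2.trans ?_) (by linarith : 0 < m)
    have h4 : (m + 1) * b ≤ (m + 1) * (ρ ^ (L.length + 1) * m * s) :=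
      mul_le_mul_of_nonneg_left h3 (by linarith)
    have h5 : m * (m + 1) * a ≤ m * (m + 1) * a * ρ ^ (L.length + 1) :=
      le_mul_of_one_le_right (by positivity) hp
    nlinarith

section energy

variable [Fintype κ]

theorem mem_box {u x : κ → ℕ} : x ∈ box u ↔ ∀ k, x k ≤ u k := by
  simp [box]

theorem upd_mem_box {u x : κ → ℕ} (hx : x ∈ box u) {k : κ} {t : ℕ} (ht : t ≤ u k) :
    Function.update x k t ∈ box u := by
  rw [mem_box] at hx ⊢
  intro j
  by_cases hj : j = k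
  · subst hj
    simpa using ht
  · simpa [Function.update_of_ne hj] using hx j

theorem sat_box (u : κ → ℕ) (k : κ) : Sat u k (box u) :=
  fun _ hx => ⟨mem_box.1 hx k, fun _ ht => upd_mem_box hx ht⟩

theorem sat_filter (u : κ → ℕ) {k l : κ} (hkl : l ≠ k) :
    Sat u l ((box u).filter fun x => x k + 1 ≤ u k) := by
  intro x hx
  rw [mem_filter] at hx
  refine ⟨mem_box.1 hx.1 l, fun t ht => mem_filter.2 ⟨upd_mem_box hx.1 ht, ?_⟩⟩
  simpa [Function.update_of_ne hkl.symm] using hx.2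

/-- pair energy -/
noncomputable def De (π f : (κ → ℕ) → ℝ) (k : κ) (x : κ → ℕ) (t : ℕ) : ℝ :=
  min (π x) (π (Function.update x k t)) * (f (Function.update x k t) - f x) ^ 2

/-- neighbours -/
def nb (u h s : ℕ) : Finset ℕ := (range (u + 1)).filter fun t => t ≤ s + h ∧ s ≤ t + h

theorem mem_nb {u h s t : ℕ} : t ∈ nb u h s ↔ t ≤ u ∧ t ≤ s + h ∧ s ≤ t + h := by
  simp [nb]

/-- star energy -/
noncomputable def St (u h : κ → ℕ) (π f : (κ → ℕ) → ℝ) (k : κ) (x : κ → ℕ) : ℝ :=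
  ∑ t ∈ nb (u k) (h k) (x k), De π f k x t

theorem De_nonneg {u : κ → ℕ} {π : (κ → ℕ) → ℝ} (hπ : ∀ x ∈ box u, 0 < π x) (f : (κ → ℕ) → ℝ)
    {k : κ} {x : κ → ℕ} (hx : x ∈ box u) {t : ℕ} (ht : t ≤ u k) : 0 ≤ De π f k x t :=
  mul_nonneg (le_min (hπ x hx).le (hπ _ (upd_mem_box hx ht)).le) (sq_nonneg _)

theorem St_nonneg {u : κ → ℕ} (h : κ → ℕ) {π : (κ → ℕ) → ℝ} (hπ : ∀ x ∈ box u, 0 < π x)
    (f : (κ → ℕ) → ℝ) (k : κ) {x : κ → ℕ} (hx : x ∈ box u) : 0 ≤ St u h π f k x :=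
  sum_nonneg fun _ ht => De_nonneg hπ f hx (mem_nb.1 ht).1

theorem sum_up (u : κ → ℕ) (π f : (κ → ℕ) → ℝ) (k : κ) (d : ℕ) :
    ∑ x ∈ (box u).filter (fun x => x k + d ≤ u k), De π f k x (x k + d) = Ed u π f k d := by
  simp only [Ed, De, upd_eq_add]

theorem sum_dn (u : κ → ℕ) (π f : (κ → ℕ) → ℝ) (k : κ) (d : ℕ) :
    ∑ x ∈ (box u).filter (fun x => d ≤ x k), De π f k x (x k - d) = Ed u π f k d := by
  rw [← sum_up]
  refine Finset.sum_nbij' (fun x => Function.update x k (x k - d))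
    (fun x => Function.update x k (x k + d)) ?_ ?_ ?_ ?_ ?_
  · intro x hx
    rw [mem_filter] at hx ⊢
    have := mem_box.1 hx.1 k
    refine ⟨upd_mem_box hx.1 (by omega), ?_⟩
    rw [Function.update_self]
    omega
  · intro x hx
    rw [mem_filter] at hx ⊢
    refine ⟨upd_mem_box hx.1 hx.2, ?_⟩
    rw [Function.update_self]
    omega
  · intro x hx
    rw [mem_filter] at hx
    rw [Function.update_idem, Function.update_self, Nat.sub_add_cancel hx.2, Function.update_eq_self]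
  · intro x _
    rw [Function.update_idem, Function.update_self, Nat.add_sub_cancel, Function.update_eq_self]
  · intro x hx
    rw [mem_filter] at hx
    simp only [De]
    rw [Function.update_idem, Function.update_self, Nat.sub_add_cancel hx.2, Function.update_eq_self,
      min_comm]
    ring

theorem St_eq (u h : κ → ℕ) (π f : (κ → ℕ) → ℝ) (k : κ) {x : κ → ℕ} (hx : x ∈ box u) :
    St u h π f k x = ∑ d ∈ (Icc 1 (h k)).filter (fun d => x k + d ≤ u k), De π f k x (x k + d) +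
      ∑ d ∈ (Icc 1 (h k)).filter (fun d => d ≤ x k), De π f k x (x k - d) := by
  have hxk := mem_box.1 hx k
  unfold St
  rw [← sum_filter_add_sum_filter_not _ (fun t => x k < t)]
  congr 1
  · refine Finset.sum_nbij' (fun t => t - x k) (fun d => x k + d) ?_ ?_ ?_ ?_ ?_
    · intro t ht
      simp only [mem_filter, mem_nb, mem_Icc] at ht ⊢
      omega
    · intro t ht
      simp only [mem_filter, mem_nb, mem_Icc] at ht ⊢
      omega
    · intro t ht
      simp only [mem_filter, mem_nb] at ht ⊢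
      omega
    · intro t _
      simp
    · intro t ht
      simp only [mem_filter, mem_nb] at ht
      rw [Nat.add_sub_cancel' ht.2.le]
  · rw [← sum_filter_add_sum_filter_not _ (fun t => t < x k)]
    have e : ∑ t ∈ ((nb (u k) (h k) (x k)).filter (fun t => ¬ x k < t)).filter (fun t => ¬ t < x k),
        De π f k x t = 0 := by
      refine sum_eq_zero fun t ht => ?_
      simp only [mem_filter] at ht
      have : t = x k := by omega
      simp [De, this]
    rw [e, add_zero]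
    refine Finset.sum_nbij' (fun t => x k - t) (fun d => x k - d) ?_ ?_ ?_ ?_ ?_
    · intro t ht
      simp only [mem_filter, mem_nb, mem_Icc] at ht ⊢
      omega
    · intro t ht
      simp only [mem_filter, mem_nb, mem_Icc] at ht ⊢
      omega
    · intro t ht
      simp only [mem_filter, mem_nb] at ht ⊢
      omega
    · intro t ht
      simp only [mem_filter, mem_Icc] at ht ⊢
      omega
    · intro t ht
      simp only [mem_filter, mem_nb] at ht
      rw [Nat.sub_sub_self ht.2.le]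

theorem sum_St (u h : κ → ℕ) (π f : (κ → ℕ) → ℝ) (k : κ) :
    ∑ x ∈ box u, St u h π f k x = 2 * ∑ d ∈ Icc 1 (h k), Ed u π f k d := by
  rw [sum_congr rfl fun x hx => St_eq u h π f k hx, sum_add_distrib, two_mul]
  congr 1
  · simp only [sum_filter]
    rw [sum_comm]
    refine sum_congr rfl fun d _ => ?_
    rw [← sum_filter, sum_up]
  · simp only [sum_filter]
    rw [sum_comm]
    refine sum_congr rfl fun d _ => ?_
    rw [← sum_filter, sum_dn]

/-- local Lipschitz property in direction `k` -/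
def Lip (u h : κ → ℕ) (π : (κ → ℕ) → ℝ) (ρ : ℝ) (k : κ) : Prop :=
  ∀ x ∈ box u, ∀ t ∈ nb (u k) (h k) (x k), π x ≤ ρ * π (Function.update x k t)

theorem lip_of {u h : κ → ℕ} {π : (κ → ℕ) → ℝ} {ρ : ℝ} {k : κ}
    (H : ∀ x ∈ box u, ∀ d ≤ h k, x k + d ≤ u k →
      π (x + Pi.single k d) ≤ ρ * π x ∧ π x ≤ ρ * π (x + Pi.single k d)) : Lip u h π ρ k := by
  intro x hx t ht
  rw [mem_nb] at ht
  have hxk := mem_box.1 hx k
  by_cases hxt : x k ≤ t
  · obtain ⟨d, rfl⟩ := Nat.exists_eq_add_of_le hxt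
    rw [upd_eq_add]
    exact (H x hx d (by omega) ht.1).2
  · have h1 := (H (Function.update x k t) (upd_mem_box hx ht.1) (x k - t) (by omega)
      (by rw [Function.update_self]; omega)).1
    rwa [← upd_eq_add, Function.update_idem, Function.update_self,
      Nat.add_sub_cancel' (by omega : t ≤ x k), Function.update_eq_self] at h1

theorem Lip.min {u h : κ → ℕ} {π : (κ → ℕ) → ℝ} {ρ : ℝ} {k : κ} (hL : Lip u h π ρ k) (hρ : 1 ≤ ρ)
    (hπ : ∀ x ∈ box u, 0 < π x) {x : κ → ℕ} (hx : x ∈ box u) {t : ℕ}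
    (ht : t ∈ nb (u k) (h k) (x k)) : π x ≤ ρ * min (π x) (π (Function.update x k t)) := by
  rcases le_total (π x) (π (Function.update x k t)) with h1 | h1
  · rw [min_eq_left h1]
    exact le_mul_of_one_le_left (hπ x hx).le hρ
  · rw [min_eq_right h1]
    exact hL x hx t ht

theorem rf_mem_nb {u h s : ℕ} (hs : s ≤ u) (hu : h ≤ u) {U : ℤ} (h1 : -(h : ℤ) ≤ U) (h2 : U ≤ h) :
    rf u (s + U) ∈ nb u h s := by
  rw [mem_nb]
  rcases rf_cases u (s + U) (by omega) with h3 | h3 | h3 <;> omega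

theorem rf_mem_nb' {u h s : ℕ} (hs : s ≤ u) (hu : h ≤ u) {U c : ℤ} (h1 : -(h : ℤ) ≤ U) (h2 : U ≤ h)
    (h3 : -(h : ℤ) ≤ c) (h4 : c ≤ h) (h5 : U - c ≤ h) (h6 : c - U ≤ h) :
    rf u (s + U) ∈ nb u h (rf u (s + c)) := by
  rw [mem_nb]
  rcases rf_cases u (s + U) (by omega) with a | a | a <;>
    rcases rf_cases u (s + c) (by omega) with b | b | b <;> omega

/-- comparison of the window with a centre -/
theorem win_cmp {u h : κ → ℕ} {π : (κ → ℕ) → ℝ} {ρ : ℝ} {k : κ} (hL : Lip u h π ρ k) (hρ : 1 ≤ ρ)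
    (hπ : ∀ x ∈ box u, 0 < π x) (hu : h k ≤ u k) (h1 : 1 ≤ h k) (f : (κ → ℕ) → ℝ) {x : κ → ℕ}
    (hx : x ∈ box u) {c : ℤ} (hc1 : -(hw (h k) : ℤ) ≤ c) (hc2 : c ≤ hw (h k) + 1) :
    π (mv u k x c) * ∑ U ∈ win (h k), (f (mv u k x U) - f (mv u k x c)) ^ 2 ≤
      ρ * (3 * St u h π f k (mv u k x c)) := by
  have hxk := mem_box.1 hx k
  have hh : 2 * hw (h k) + 1 ≤ h k := by unfold hw; omega
  have hy : mv u k x c ∈ box u := mv_mem (sat_box u k) hx (by omega) (by omega)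
  have hT : ∀ U ∈ win (h k), rf (u k) (x k + U) ∈ nb (u k) (h k) (mv u k x c k) := by
    intro U hU
    rw [mem_win] at hU
    unfold mv
    rw [Function.update_self]
    exact rf_mem_nb' hxk hu (by omega) (by omega) (by omega) (by omega) (by omega) (by omega)
  have h3 := sum_rf_le (u k) (x k) (win (h k)) (fun U hU => by rw [mem_win] at hU; omega) _ hT
    (De π f k (mv u k x c)) (fun t ht => De_nonneg hπ f hy (mem_nb.1 ht).1)
  refine le_trans ?_ (mul_le_mul_of_nonneg_left h3 (by linarith))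
  rw [mul_sum, mul_sum]
  refine sum_le_sum fun U hU => ?_
  have e : Function.update (mv u k x c) k (rf (u k) (x k + U)) = mv u k x U := by
    unfold mv
    rw [Function.update_idem]
  have h4 := hL.min hρ hπ hy (hT U hU)
  unfold De
  rw [e] at h4 ⊢
  rw [← mul_assoc]
  exact mul_le_mul_of_nonneg_right h4 (sq_nonneg _)

omit [Fintype κ] in
theorem mv_zero {u : κ → ℕ} {k : κ} {x : κ → ℕ} (hx : x k ≤ u k) : mv u k x 0 = x := by
  have : rf (u k) (x k + 0) = x k := by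
    rcases rf_cases (u k) (x k + 0) (by omega) with h | h | h <;> omega
  unfold mv
  rw [this, Function.update_eq_self]

omit [Fintype κ] in
theorem av_small {u h : κ → ℕ} {k : κ} (hk : h k ≤ 2) (f : (κ → ℕ) → ℝ) {x : κ → ℕ}
    (hx : x k ≤ u k) : av u h k f x = f x := by
  have : hw (h k) = 0 := by unfold hw; omega
  simp [av, win, this, mv_zero hx]

theorem nm_sub_av {u h : κ → ℕ} {π : (κ → ℕ) → ℝ} {ρ : ℝ} {k : κ} (hL : Lip u h π ρ k) (hρ : 1 ≤ ρ)
    (hπ : ∀ x ∈ box u, 0 < π x) (hu : h k ≤ u k) (h1 : 1 ≤ h k) (f : (κ → ℕ) → ℝ) :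
    nm (box u) π (fun x => f x - av u h k f x) ≤
      6 * ρ * (∑ d ∈ Icc 1 (h k), Ed u π f k d) / (2 * (hw (h k) : ℝ) + 1) := by
  have h2 : (0 : ℝ) < 2 * (hw (h k) : ℝ) + 1 := by positivity
  calc nm (box u) π (fun x => f x - av u h k f x)
      ≤ ∑ x ∈ box u, ρ * (3 * St u h π f k x) / (2 * (hw (h k) : ℝ) + 1) := by
        refine sum_le_sum fun x hx => ?_
        have e : (f x - av u h k f x) ^ 2 =
            ((∑ U ∈ win (h k), (f (mv u k x U) - f x)) / (2 * (hw (h k) : ℝ) + 1)) ^ 2 := by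
          rw [sum_sub_distrib, sum_const, nsmul_eq_mul, card_win, sub_div, av,
            mul_div_cancel_left₀ _ h2.ne']
          ring
        have h3 := win_cmp hL hρ hπ hu h1 f hx (c := 0) (by omega) (by omega)
        rw [mv_zero (mem_box.1 hx k)] at h3
        rw [e]
        refine (mul_le_mul_of_nonneg_left (avg_sq_le (h k) _) (hπ x hx).le).trans ?_
        rw [← mul_div_assoc]
        exact div_le_div_of_nonneg_right h3 h2.le
    _ = _ := by
        rw [← sum_div, ← mul_sum, ← mul_sum, sum_St]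
        ring

theorem sum_win_shift (H : ℕ) (a : ℤ → ℝ) :
    ∑ U ∈ Icc (-(H : ℤ)) H, a (1 + U) - ∑ U ∈ Icc (-(H : ℤ)) H, a U = a (H + 1) - a (-H) := by
  have e1 : ∑ U ∈ Icc (-(H : ℤ)) H, a (1 + U) = ∑ U ∈ Icc (-(H : ℤ) + 1) (H + 1), a U := by
    refine Finset.sum_nbij' (fun U => 1 + U) (fun U => U - 1) ?_ ?_ ?_ ?_ ?_
    · intro U hU
      rw [mem_Icc] at hU ⊢
      omega
    · intro U hU
      rw [mem_Icc] at hU ⊢
      omega
    · intro U _
      simp
    · intro U _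
      simp
    · intro U _
      rfl
  have e2 : Icc (-(H : ℤ) + 1) (H + 1) = insert ((H : ℤ) + 1) (Icc (-(H : ℤ) + 1) H) := by
    ext U
    simp only [mem_Icc, mem_insert]
    omega
  have e3 : Icc (-(H : ℤ)) H = insert (-(H : ℤ)) (Icc (-(H : ℤ) + 1) H) := by
    ext U
    simp only [mem_Icc, mem_insert]
    omega
  rw [e1, e2, e3, sum_insert (by simp), sum_insert (by simp)]
  ring

omit [Fintype κ] in
theorem gr_av_self (u h : κ → ℕ) (k : κ) (f : (κ → ℕ) → ℝ) (x : κ → ℕ) :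
    gr k (av u h k f) x = (f (mv u k x (hw (h k) + 1)) - f (mv u k x (-(hw (h k) : ℤ)))) /
      (2 * (hw (h k) : ℝ) + 1) := by
  have e : ∀ U, mv u k (x + Pi.single k 1) U = mv u k x (1 + U) := by
    intro U
    unfold mv
    rw [← upd_eq_add, Function.update_idem, Function.update_self]
    push_cast
    rw [add_assoc]
  simp only [gr, av, e]
  rw [← sub_div, win, sum_win_shift (hw (h k)) (fun U => f (mv u k x U))]

theorem nm_gr_av {u h : κ → ℕ} {π : (κ → ℕ) → ℝ} {ρ : ℝ} {k : κ} (hL : Lip u h π ρ k) (hρ : 1 ≤ ρ)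
    (hπ : ∀ x ∈ box u, 0 < π x) (hu : h k ≤ u k) (h1 : 1 ≤ h k) (f : (κ → ℕ) → ℝ) :
    nm ((box u).filter fun x => x k + 1 ≤ u k) (fun x => min (π x) (π (x + Pi.single k 1)))
        (gr k (av u h k f)) ≤
      48 * ρ ^ 2 * (∑ d ∈ Icc 1 (h k), Ed u π f k d) / (2 * (hw (h k) : ℝ) + 1) ^ 3 := by
  have h2 : (0 : ℝ) < 2 * (hw (h k) : ℝ) + 1 := by positivity
  have hh : 2 * hw (h k) + 1 ≤ h k := by unfold hw; omega
  have hρ0 : 0 ≤ ρ := by linarith
  have key : ∀ x ∈ box u, π x * gr k (av u h k f) x ^ 2 ≤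
      6 * ρ ^ 2 * (St u h π f k (mv u k x (hw (h k) + 1)) + St u h π f k (mv u k x (-(hw (h k) : ℤ)))) /
        (2 * (hw (h k) : ℝ) + 1) ^ 3 := by
    intro x hx
    have hxk := mem_box.1 hx k
    have a1 := win_cmp hL hρ hπ hu h1 f hx (c := hw (h k) + 1) (by omega) (by omega)
    have a2 := win_cmp hL hρ hπ hu h1 f hx (c := -(hw (h k) : ℤ)) (by omega) (by omega)
    have b1 : π x ≤ ρ * π (mv u k x (hw (h k) + 1)) :=
      hL x hx _ (rf_mem_nb hxk hu (by omega) (by omega))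
    have b2 : π x ≤ ρ * π (mv u k x (-(hw (h k) : ℤ))) :=
      hL x hx _ (rf_mem_nb hxk hu (by omega) (by omega))
    rw [gr_av_self]
    set p := f (mv u k x (hw (h k) + 1))
    set q := f (mv u k x (-(hw (h k) : ℤ)))
    set A := ∑ U ∈ win (h k), (f (mv u k x U) - p) ^ 2
    set B := ∑ U ∈ win (h k), (f (mv u k x U) - q) ^ 2
    have hA : 0 ≤ A := sum_nonneg fun _ _ => sq_nonneg _
    have hB : 0 ≤ B := sum_nonneg fun _ _ => sq_nonneg _
    have c1 : (2 * (hw (h k) : ℝ) + 1) * (p - q) ^ 2 ≤ 2 * A + 2 * B := by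
      rw [← card_win, ← nsmul_eq_mul, ← sum_const]
      simp only [A, B, mul_sum, ← sum_add_distrib]
      refine sum_le_sum fun U _ => ?_
      nlinarith [sq_nonneg (2 * f (mv u k x U) - p - q)]
    have d1 : π x * A ≤ ρ * (ρ * (3 * St u h π f k (mv u k x (hw (h k) + 1)))) := by
      refine (mul_le_mul_of_nonneg_right b1 hA).trans ?_
      rw [mul_assoc]
      exact mul_le_mul_of_nonneg_left a1 hρ0
    have d2 : π x * B ≤ ρ * (ρ * (3 * St u h π f k (mv u k x (-(hw (h k) : ℤ))))) := by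
      refine (mul_le_mul_of_nonneg_right b2 hB).trans ?_
      rw [mul_assoc]
      exact mul_le_mul_of_nonneg_left a2 hρ0
    have c2 := mul_le_mul_of_nonneg_left c1 (hπ x hx).le
    rw [div_pow, ← mul_div_assoc, div_le_div_iff₀ (by positivity) (by positivity)]
    set m := 2 * (hw (h k) : ℝ) + 1
    have hm2 : 0 ≤ m ^ 2 := by positivity
    have c3 : π x * (m * (p - q) ^ 2) ≤ 6 * ρ ^ 2 * (St u h π f k (mv u k x (hw (h k) + 1)) +
        St u h π f k (mv u k x (-(hw (h k) : ℤ)))) := by nlinarith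
    have c4 := mul_le_mul_of_nonneg_right c3 hm2
    nlinarith
  have s1 := sum_mv_le (sat_box u k) (hw (h k) + 1) (by omega) (by omega) (St u h π f k)
    (fun x hx => St_nonneg h hπ f k hx)
  have s2 := sum_mv_le (sat_box u k) (-(hw (h k) : ℤ)) (by omega) (by omega) (St u h π f k)
    (fun x hx => St_nonneg h hπ f k hx)
  rw [sum_St] at s1 s2
  calc _ ≤ ∑ x ∈ (box u).filter fun x => x k + 1 ≤ u k, π x * gr k (av u h k f) x ^ 2 :=
        sum_le_sum fun x _ => mul_le_mul_of_nonneg_right (min_le_left _ _) (sq_nonneg _)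
    _ ≤ ∑ x ∈ box u, π x * gr k (av u h k f) x ^ 2 :=
        sum_le_sum_of_subset_of_nonneg (filter_subset _ _)
          fun x hx _ => mul_nonneg (hπ x hx).le (sq_nonneg _)
    _ ≤ _ := sum_le_sum key
    _ ≤ _ := by
        rw [← sum_div, ← mul_sum, sum_add_distrib]
        refine div_le_div_of_nonneg_right ?_ (by positivity)
        have : 0 ≤ ρ ^ 2 := by positivity
        nlinarith

theorem var_le {X : Type} {Ω : Finset X} {π : X → ℝ} (hZ : 0 < ∑ x ∈ Ω, π x) (f : X → ℝ) (c : ℝ) :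
    Var Ω π f ≤ ∑ x ∈ Ω, π x * (f x - c) ^ 2 ∧
      (c = (∑ x ∈ Ω, π x * f x) / ∑ x ∈ Ω, π x → Var Ω π f = ∑ x ∈ Ω, π x * (f x - c) ^ 2) := by
  have e : ∑ x ∈ Ω, π x * (f x - c) ^ 2 =
      ∑ x ∈ Ω, π x * f x ^ 2 - 2 * c * ∑ x ∈ Ω, π x * f x + c ^ 2 * ∑ x ∈ Ω, π x := by
    rw [mul_sum, mul_sum, ← sum_sub_distrib, ← sum_add_distrib]
    exact sum_congr rfl fun x _ => by ring
  rw [e, Var]
  set Z := ∑ x ∈ Ω, π x
  set S := ∑ x ∈ Ω, π x * f x
  constructor
  · have : 0 ≤ (S - c * Z) ^ 2 / Z := by positivity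
    have e2 : (S - c * Z) ^ 2 / Z = S ^ 2 / Z - 2 * c * S + c ^ 2 * Z := by
      field_simp
      ring
    linarith
  · rintro rfl
    field_simp
    ring

theorem var_split {X : Type} {Ω : Finset X} {π : X → ℝ} (hπ : ∀ x ∈ Ω, 0 ≤ π x)
    (hZ : 0 < ∑ x ∈ Ω, π x) (f g : X → ℝ) :
    Var Ω π f ≤ 2 * Var Ω π g + 2 * ∑ x ∈ Ω, π x * (f x - g x) ^ 2 := by
  refine (var_le hZ f ((∑ x ∈ Ω, π x * g x) / ∑ x ∈ Ω, π x)).1.trans ?_
  rw [(var_le hZ g _).2 rfl, mul_sum, mul_sum, ← sum_add_distrib]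
  refine sum_le_sum fun x hx => ?_
  set c := (∑ x ∈ Ω, π x * g x) / ∑ x ∈ Ω, π x
  nlinarith [mul_nonneg (hπ x hx) (sq_nonneg ((f x - g x) - (g x - c)))]

end energy

theorem pow_le_three {n m : ℕ} (hn : 1 ≤ n) (hm : m ≤ n) : (1 + 1 / (n : ℝ)) ^ m ≤ 3 := by
  have hn0 : (0 : ℝ) < n := by exact_mod_cast hn
  have h1 : (1 : ℝ) ≤ 1 + 1 / (n : ℝ) := by
    have : (0 : ℝ) ≤ 1 / (n : ℝ) := by positivity
    linarith
  calc (1 + 1 / (n : ℝ)) ^ m ≤ (1 + 1 / (n : ℝ)) ^ n := pow_le_pow_right₀ h1 hm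
    _ ≤ (Real.exp (1 / (n : ℝ))) ^ n :=
        pow_le_pow_left₀ (by linarith) (by linarith [Real.add_one_le_exp (1 / (n : ℝ))]) n
    _ = Real.exp 1 := by
        rw [← Real.exp_nat_mul]
        congr 1
        field_simp
    _ ≤ 3 := by linarith [Real.exp_one_lt_d9]

end SMO

open SMO in
theorem SMO_proof : SmoStmt := by
  intro κ _ _ u h π C Ξ n hcard hn hC hπ hh hΞ hlip hP f
  have hn0 : (0 : ℝ) < n := by exact_mod_cast hn
  have hn1 : (1 : ℝ) ≤ n := by exact_mod_cast hn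
  set ρ : ℝ := 1 + 1 / (n : ℝ) with hρdef
  have hρ : 1 ≤ ρ := by
    have : (0 : ℝ) ≤ 1 / (n : ℝ) := by positivity
    linarith
  have hρ2 : ρ ≤ 2 := by
    have : 1 / (n : ℝ) ≤ 1 := by rw [div_le_one hn0]; exact hn1
    linarith
  have hL : ∀ k, 3 ≤ h k → Lip u h π ρ k := fun k hk => lip_of (hlip k hk).2
  set E : κ → ℝ := fun k => (∑ d ∈ Icc 1 (h k), Ed u π f k d) / h k with hE
  have hEd : ∀ k d, 0 ≤ Ed u π f k d := by
    intro k d
    rw [← sum_up]
    refine sum_nonneg fun x hx => ?_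
    rw [mem_filter] at hx
    exact De_nonneg hπ f hx.1 hx.2
  have hS : ∀ k, 0 ≤ ∑ d ∈ Icc 1 (h k), Ed u π f k d := fun k => sum_nonneg fun d _ => hEd k d
  have hE0 : ∀ k, 0 ≤ E k := fun k => div_nonneg (hS k) (Nat.cast_nonneg _)
  have hhpos : ∀ k, (0 : ℝ) < h k := fun k => by exact_mod_cast hh k
  have hSE : ∀ k, ∑ d ∈ Icc 1 (h k), Ed u π f k d = h k * E k := fun k => by
    simp only [hE]
    rw [mul_div_cancel₀ _ (hhpos k).ne']
  have hwu : ∀ k, hw (h k) ≤ u k := by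
    intro k
    by_cases hk : 3 ≤ h k
    · have := (hlip k hk).1
      unfold hw
      omega
    · unfold hw
      omega
  have hbig : ∀ k, 3 ≤ h k → 2 * (h k : ℝ) ≤ 3 * (2 * (hw (h k) : ℝ) + 1) := by
    intro k hk
    have : 2 * h k ≤ 3 * (2 * hw (h k) + 1) := by unfold hw; omega
    exact_mod_cast this
  -- Lipschitz along the windows
  have hmv : ∀ l, ∀ x ∈ box u, ∀ U ∈ win (h l), π x ≤ ρ * π (mv u l x U) := by
    intro l x hx U hU
    rw [mem_win] at hU
    by_cases hl : 3 ≤ h l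
    · have : hw (h l) ≤ h l := by unfold hw; omega
      exact hL l hl x hx _ (rf_mem_nb (mem_box.1 hx l) (hlip l hl).1 (by omega) (by omega))
    · have : hw (h l) = 0 := by unfold hw; omega
      have hU0 : U = 0 := by omega
      rw [hU0, mv_zero (mem_box.1 hx l)]
      exact le_mul_of_one_le_left (hπ x hx).le hρ
  have hc : ∀ l g, nm (box u) π (av u h l g) ≤ ρ * nm (box u) π g := fun l g =>
    nm_av_le (sat_box u l) (hwu l) (fun x hx => (hπ x hx).le) (hmv l) g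
  have hadd : ∀ k, ∀ x ∈ (box u).filter (fun x => x k + 1 ≤ u k), x + Pi.single k 1 ∈ box u := by
    intro k x hx
    rw [mem_filter] at hx
    rw [← upd_eq_add]
    exact upd_mem_box hx.1 hx.2
  have hw0 : ∀ k, ∀ x ∈ (box u).filter (fun x => x k + 1 ≤ u k),
      0 ≤ min (π x) (π (x + Pi.single k 1)) := fun k x hx =>
    le_min (hπ x (mem_filter.1 hx).1).le (hπ _ (hadd k x hx)).le
  have hc' : ∀ k l, l ≠ k → ∀ g, nm ((box u).filter fun x => x k + 1 ≤ u k)
      (fun x => min (π x) (π (x + Pi.single k 1))) (av u h l g) ≤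
      ρ * nm ((box u).filter fun x => x k + 1 ≤ u k)
        (fun x => min (π x) (π (x + Pi.single k 1))) g := by
    intro k l hkl g
    refine nm_av_le (sat_filter u hkl) (hwu l) (hw0 k) (fun x hx U hU => ?_) g
    rw [mul_min_of_nonneg _ _ (by linarith), ← mv_add hkl]
    exact min_le_min (hmv l x (mem_filter.1 hx).1 U hU) (hmv l _ (hadd k x hx) U hU)
  set L := (Finset.univ : Finset κ).toList with hLdef
  have hlen : L.length ≤ n := by rw [hLdef, length_toList, card_univ]; exact hcard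
  have hp3 : ρ ^ L.length ≤ 3 := pow_le_three hn hlen
  set g := avL u h L f
  -- distance from `f` to `g`
  have d1 : ∀ k, nm (box u) π (fun x => f x - av u h k f x) ≤ 18 * E k := by
    intro k
    by_cases hk : 3 ≤ h k
    · refine (nm_sub_av (hL k hk) hρ hπ (hlip k hk).1 (hh k) f).trans ?_
      rw [hSE, div_le_iff₀ (by positivity)]
      have := hbig k hk
      have h3 := mul_le_mul_of_nonneg_right this (hE0 k)
      have h4 := mul_le_mul_of_nonneg_right hρ2 (mul_nonneg (hhpos k).le (hE0 k))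
      nlinarith
    · have : nm (box u) π (fun x => f x - av u h k f x) = 0 :=
        sum_eq_zero fun x hx => by simp [av_small (by omega : h k ≤ 2) f (mem_box.1 hx k)]
      rw [this]
      have := hE0 k
      positivity
  have hsE : 0 ≤ ∑ k, E k := sum_nonneg fun k _ => hE0 k
  have d2 : nm (box u) π (fun x => f x - g x) ≤ 108 * n * ∑ k, E k := by
    refine (nm_sub_avL hρ (fun x hx => (hπ x hx).le) hc f L).trans ?_
    rw [hLdef, sum_map_toList, ← hLdef]
    have h1 : ∑ k, nm (box u) π (fun x => f x - av u h k f x) ≤ 18 * ∑ k, E k := by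
      rw [mul_sum]
      exact sum_le_sum fun k _ => d1 k
    have h2 : (L.length : ℝ) + 1 ≤ 2 * n := by
      have : (L.length : ℝ) ≤ n := by exact_mod_cast hlen
      linarith
    have h3 : ρ ^ L.length * ((L.length : ℝ) + 1) ≤ 3 * (2 * n) :=
      mul_le_mul hp3 h2 (by positivity) (by norm_num)
    calc _ ≤ 3 * (2 * (n : ℝ)) * (18 * ∑ k, E k) :=
          mul_le_mul h3 h1 (sum_nonneg fun k _ => nm_nonneg (fun x hx => (hπ x hx).le) _)
            (by positivity)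
      _ = _ := by ring
  -- gradients of `g`
  have d3 : ∀ k, (h k : ℝ) ^ 2 * nm ((box u).filter fun x => x k + 1 ≤ u k)
      (fun x => min (π x) (π (x + Pi.single k 1))) (gr k (av u h k f)) ≤ 648 * E k := by
    intro k
    by_cases hk : 3 ≤ h k
    · refine (mul_le_mul_of_nonneg_left (nm_gr_av (hL k hk) hρ hπ (hlip k hk).1 (hh k) f)
        (by positivity)).trans ?_
      rw [hSE, ← mul_div_assoc, div_le_iff₀ (by positivity)]
      have h3 : (2 * (h k : ℝ)) ^ 3 ≤ (3 * (2 * (hw (h k) : ℝ) + 1)) ^ 3 :=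
        pow_le_pow_left₀ (by positivity) (hbig k hk) 3
      have h4 : ρ ^ 2 ≤ 4 := by nlinarith
      have h5 := mul_le_mul_of_nonneg_right h3 (hE0 k)
      have h6 := mul_le_mul_of_nonneg_right h4 (mul_nonneg (pow_nonneg (hhpos k).le 3) (hE0 k))
      nlinarith
    · have e : nm ((box u).filter fun x => x k + 1 ≤ u k)
          (fun x => min (π x) (π (x + Pi.single k 1))) (gr k (av u h k f)) = Ed u π f k 1 := by
        refine sum_congr rfl fun x hx => ?_
        rw [gr, av_small (by omega : h k ≤ 2) f (mem_box.1 (mem_filter.1 hx).1 k),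
          av_small (by omega : h k ≤ 2) f (mem_box.1 (hadd k x hx) k)]
      have h1 : Ed u π f k 1 ≤ h k * E k := by
        rw [← hSE]
        exact single_le_sum (f := fun d => Ed u π f k d) (fun d _ => hEd k d)
          (mem_Icc.2 ⟨le_rfl, hh k⟩)
      have h2 : (h k : ℝ) ≤ 2 := by exact_mod_cast (by omega : h k ≤ 2)
      have h3 : (h k : ℝ) ^ 2 ≤ 4 := by nlinarith [hhpos k]
      rw [e]
      nlinarith [hEd k 1, hE0 k, mul_le_mul_of_nonneg_right h2 (hE0 k),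
        mul_le_mul_of_nonneg_right h3 (hEd k 1)]
  have d4 : ∀ k, ((u k : ℝ) + 1) ^ 2 * Ed u π g k 1 ≤ Ξ ^ 2 * (1944 * E k) := by
    intro k
    have h1 := nm_gr_avL hρ (hw0 k) (hc' k) f L (nodup_toList _) (by simp [hLdef])
    have h0 := nm_nonneg (hw0 k) (gr k (av u h k f))
    have h2 : Ed u π g k 1 ≤ 3 * nm ((box u).filter fun x => x k + 1 ≤ u k)
        (fun x => min (π x) (π (x + Pi.single k 1))) (gr k (av u h k f)) :=
      h1.trans (mul_le_mul_of_nonneg_right hp3 h0)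
    have h3 : ((u k : ℝ) + 1) ^ 2 ≤ (Ξ * h k) ^ 2 := pow_le_pow_left₀ (by positivity) (hΞ k) 2
    have h4 : 0 ≤ Ed u π g k 1 := nm_nonneg (hw0 k) (gr k g)
    have h5 := mul_le_mul_of_nonneg_left (d3 k) (sq_nonneg Ξ)
    calc _ ≤ (Ξ * h k) ^ 2 * (3 * nm ((box u).filter fun x => x k + 1 ≤ u k)
          (fun x => min (π x) (π (x + Pi.single k 1))) (gr k (av u h k f))) :=
          mul_le_mul h3 h2 h4 (sq_nonneg _)
      _ ≤ _ := by nlinarith
  have d5 : Var (box u) π g ≤ C * (Ξ ^ 2 * (1944 * ∑ k, E k)) := by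
    refine (hP g).trans (mul_le_mul_of_nonneg_left ?_ hC)
    rw [mul_sum, mul_sum]
    exact sum_le_sum fun k _ => d4 k
  have hZ : 0 < ∑ x ∈ box u, π x :=
    sum_pos hπ ⟨0, mem_box.2 fun k => Nat.zero_le _⟩
  have d6 := var_split (fun x hx => (hπ x hx).le) hZ f g
  have h7 : 0 ≤ C * Ξ ^ 2 * ∑ k, E k := by positivity
  have h8 : 0 ≤ (n : ℝ) * ∑ k, E k := by positivity
  unfold nm at d2
  nlinarith

end Crest.Agent.R309
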