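import Crest.Agent.R309.CNT

/-!
Row 309: the law of the output of the sampler.
-/

set_option autoImplicit false

namespace Crest.Agent.R309

open Finset Crest.Agent.PT Crest.Agent.QC Crest.Agent.R317 Crest.Agent.R300U

namespace STR2

/-- the operator of the steps `t₀, …, t₀ + m - 1` -/
noncomputable def seg (P : Pre) (k c t₀ : ℕ) : ℕ → (SS → ℝ) → SS → ℝ
  | 0, F => F
  | m + 1, F => seg P k c t₀ m (fun s => Av c (fun u => F (sstep P k (t₀ + m) s u)))

theorem sE_add (P : Pre) (k c : ℕ) (s₀ : SS) (t : ℕ) :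
    ∀ (m : ℕ) (F : SS → ℝ), sE P k c s₀ (t + m) F = sE P k c s₀ t (seg P k c t m F)
  | 0, _ => rfl
  | m + 1, F => by
    rw [← add_assoc, sE, sE_add P k c s₀ t m, seg]

theorem seg_succ' (P : Pre) (k c t₀ : ℕ) :
    ∀ (m : ℕ) (F : SS → ℝ), seg P k c t₀ (m + 1) F =
      fun s => Av c (fun u => seg P k c (t₀ + 1) m F (sstep P k t₀ s u))
  | 0, _ => rfl
  | m + 1, F => by
    rw [seg, seg_succ' P k c t₀ m]
    have e : t₀ + (m + 1) = t₀ + 1 + m := by omega
    simp only [seg, e]

theorem mod_eq {T j i : ℕ} (hi : i < T) : (j * T + i) % T = i := by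
  rw [mul_comm, Nat.mul_add_mod, Nat.mod_eq_of_lt hi]

theorem seg_chain (P : Pre) (k c j : ℕ) (hc : b1 P ≤ c) (f : Bool) (r : List Bin) (θ : List ℤ) :
    ∀ (m : ℕ), m ≤ pT (nn P) (k + 4) → ∀ (H : SS → ℝ) (l : List Bin),
      seg P k c (j * pPd P k + 1) m H (f, r, θ, l) =
        (Kt (b1 P) (mstep P (pS (nn P)) θ))^[m] (fun l' => H (f, r, θ, l')) l
  | 0, _, _, _ => rfl
  | m + 1, hm, H, l => by
    rw [seg, seg_chain P k c j hc f r θ m (by omega), Function.iterate_succ_apply]
    refine congrFun (congrArg _ (funext fun l' => ?_)) _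
    have e : (j * pPd P k + 1 + m) % pPd P k = 1 + m := by
      rw [add_assoc]
      exact mod_eq (by unfold pPd; omega)
    have e2 : ∀ u, sstep P k (j * pPd P k + 1 + m) (f, r, θ, l') u =
        (f, r, θ, mstep P (pS (nn P)) θ l' (fld u 0 (b1 P))) := by
      intro u
      unfold sstep
      rw [e, if_neg (by omega), if_pos (by unfold pPd; omega)]
    simp only [e2]
    unfold Kt
    exact Av_fld (by omega) (fun v => H (f, r, θ, mstep P (pS (nn P)) θ l' v))

open Classical in
/-- the operator of one period -/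
noncomputable def per (P : Pre) (k c : ℕ) (G : Bool → List Bin → ℝ) (f : Bool) (r : List Bin) : ℝ :=
  Av c (fun u => (Kt (b1 P) (mstep P (pS (nn P)) (prep P 1 u).2.1))^[pT (nn P) (k + 4)]
    (fun l => if f = false ∧ acc P l then G true (comp P l) else G f r) (zer P))

theorem seg_period (P : Pre) (k c j : ℕ) (hc : b1 P ≤ c) (G : Bool → List Bin → ℝ) :
    seg P k c (j * pPd P k) (pPd P k) (fun s => G s.1 s.2.1) = fun s => per P k c G s.1 s.2.1 := by
  funext s
  obtain ⟨f, r, θ, l⟩ := s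
  have hT : pPd P k = pT (nn P) (k + 4) + 1 + 1 := rfl
  have e0 : ∀ u, sstep P k (j * pPd P k) (f, r, θ, l) u = (f, r, (prep P 1 u).2.1, zer P) := by
    intro u
    unfold sstep
    rw [if_pos (Nat.mul_mod_left _ _)]
  have e1 : seg P k c (j * pPd P k) (pPd P k) (fun s => G s.1 s.2.1) =
      seg P k c (j * pPd P k) (pT (nn P) (k + 4) + 1 + 1) (fun s => G s.1 s.2.1) := by rw [← hT]
  rw [e1, seg_succ']
  simp only [e0]
  unfold per
  refine Av_congr fun u _ => ?_
  rw [seg, seg_chain P k c j hc f r _ _ le_rfl]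
  refine congrFun (congrArg _ (funext fun l' => ?_)) _
  have e : (j * pPd P k + 1 + pT (nn P) (k + 4)) % pPd P k = 1 + pT (nn P) (k + 4) := by
    rw [add_assoc]
    exact mod_eq (by omega)
  unfold sstep
  rw [e]
  simp only [if_neg (by omega : ¬ (1 + pT (nn P) (k + 4) = 0)),
    if_neg (by omega : ¬ (1 + pT (nn P) (k + 4) + 1 < pPd P k)), Av_const]
  split_ifs <;> rfl

theorem sE_periods (P : Pre) (k c : ℕ) (hc : b1 P ≤ c) (s₀ : SS) :
    ∀ (j : ℕ) (G : Bool → List Bin → ℝ),
      sE P k c s₀ (j * pPd P k) (fun s => G s.1 s.2.1) = (per P k c)^[j] G s₀.1 s₀.2.1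
  | 0, G => by simp [sE]
  | j + 1, G => by
    rw [Nat.succ_mul, sE_add, seg_period P k c j hc, sE_periods P k c hc s₀ j,
      Function.iterate_succ_apply]

theorem Kt_iter {X : Type} (b : ℕ) (σ : X → ℕ → X) (x₀ : X) (T : ℕ) (φ : X → ℝ) :
    (Kt b σ)^[T] φ x₀ = Av (T * b) (fun u => φ (iterN b σ x₀ u T)) :=
  (Av_iterN b σ x₀ T _ le_rfl φ).symm

theorem per_true (P : Pre) (k c : ℕ) (G : Bool → List Bin → ℝ) (r : List Bin) :
    per P k c G true r = G true r := by
  unfold per
  simp [Kt_iter]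

theorem iter_true (P : Pre) (k c : ℕ) (G : Bool → List Bin → ℝ) (r : List Bin) :
    ∀ j : ℕ, (per P k c)^[j] G true r = G true r
  | 0 => rfl
  | j + 1 => by rw [Function.iterate_succ_apply', per_true, iter_true P k c G r j]

/-- mean of `φ` at the end of the chain with tilt `θ` -/
noncomputable def qm (P : Pre) (k : ℕ) (θ : List ℤ) (φ : List Bin → ℝ) : ℝ :=
  Av (pT (nn P) (k + 4) * b1 P) (fun w => φ (samp P (pS (nn P)) θ (pT (nn P) (k + 4)) w))

open Classical in
theorem per_false (P : Pre) (k c : ℕ) (G : Bool → List Bin → ℝ) (r : List Bin) :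
    per P k c G false r =
      Av c (fun u => qm P k (prep P 1 u).2.1 (fun l => if acc P l then G true (comp P l) else 0)) +
      (1 - Av c (fun u => qm P k (prep P 1 u).2.1 (fun l => if acc P l then 1 else 0))) *
        G false r := by
  unfold per
  rw [← Av_const c 1, ← Av_sub, ← Av_mul_const, ← Av_add]
  refine Av_congr fun u _ => ?_
  rw [Kt_iter]
  unfold qm samp
  rw [← Av_const (pT (nn P) (k + 4) * b1 P) 1, ← Av_sub, ← Av_mul_const, ← Av_add]
  refine Av_congr fun w _ => ?_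
  by_cases h : acc P (iterN (b1 P) (mstep P (pS (nn P)) (prep P 1 u).2.1) (zer P) w
    (pT (nn P) (k + 4))) <;> simp [h]

theorem recur {g : ℕ → ℝ} {m α z τ : ℝ} (hg : ∀ j, g (j + 1) = m + (1 - α) * g j)
    (h0 : |g 0 - z| ≤ 1) (hm : |m - α * z| ≤ 2 * τ) (hα : 1 / 4 ≤ α) (hα1 : α ≤ 1) :
    ∀ j, |g j - z| ≤ 8 * τ + (3 / 4) ^ j
  | 0 => by
    have : 0 ≤ 2 * τ := (abs_nonneg _).trans hm
    simp only [pow_zero]
    linarith
  | j + 1 => by
    have ih := recur hg h0 hm hα hα1 j
    have e : g (j + 1) - z = (m - α * z) + (1 - α) * (g j - z) := by rw [hg]; ring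
    have h1 : |(1 - α) * (g j - z)| ≤ 3 / 4 * |g j - z| := by
      rw [abs_mul, abs_of_nonneg (by linarith : 0 ≤ 1 - α)]
      exact mul_le_mul_of_nonneg_right (by linarith) (abs_nonneg _)
    have h2 := abs_add_le (m - α * z) ((1 - α) * (g j - z))
    rw [e, pow_succ]
    linarith

open Classical in
theorem sum_hit (hBij : BijStmt) {P : Pre} (hP : Spec P) (s : ℕ) (p : List ℤ)
    {X : Fin (nA (gG P)) → ℕ} (hX : X ∈ flows (gG P)) :
    ∑ x ∈ bx P, πq P s p x *
      (if acc P (toL x) then (if comp P (toL x) = toL X then 1 else 0) else 0) = 1 := by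
  obtain ⟨-, -, h3, h4, -⟩ := hBij P hP
  obtain ⟨x, hx, ha, hc, hu, -⟩ := h3 X hX
  rw [sum_eq_single_of_mem x hx]
  · simp [ha, hc, h4 s p x hx ha]
  · intro y hy hne
    have : ¬ comp P (toL y) = toL X := fun h => hne (hu y hy h)
    simp [this]

end STR2

open STR2 in
theorem STR2_proof (_hAv : AvStmt) (hSamp : SampStmt) (hAnn : AnnStmt) (hBij : BijStmt)
    (hRat : RatStmt) : Str2Stmt := by
  classical
  intro P hP k c hc1 hc2 X₀ hX₀ X hX
  obtain ⟨hs, hp⟩ := hAnn P hP 1 le_rfl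
  have hp := hp c hc1
  let G : Bool → List Bin → ℝ := fun _ r => if r = toL X then 1 else 0
  have e0 := sE_periods P k c hc2 (false, toL X₀, [], zer P) (3 * (k + 1)) G
  have hN : (1 : ℝ) ≤ (flows (gG P)).card := by
    exact_mod_cast card_pos.2 hP.ne
  set N : ℝ := ((flows (gG P)).card : ℝ) with hNdef
  set τ : ℝ := 2⁻¹ ^ (k + 4) with hτ
  have hτ0 : 0 < τ := by positivity
  have hτ1 : τ ≤ 1 / 16 := by
    rw [hτ, pow_add]
    have : (2 : ℝ)⁻¹ ^ k ≤ 1 := pow_le_one₀ (by norm_num) (by norm_num)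
    norm_num at this ⊢
    linarith
  let θ : ℕ → List ℤ := fun u => (prep P 1 u).2.1
  let Z : ℕ → ℝ := fun u => Zq P (pS (nn P)) (θ u)
  have hv : ∀ u, Valid P (pS (nn P)) (θ u) := fun u => (hs u).2.1
  have hZ : ∀ u, 0 < Z u := fun u => CNT.Z_pos hRat hBij hP (hv u)
  let mq : ℕ → ℝ := fun u =>
    qm P k (θ u) (fun l => if acc P l then (if comp P l = toL X then 1 else 0) else 0)
  let aq : ℕ → ℝ := fun u => qm P k (θ u) (fun l => if acc P l then 1 else 0)
  have hm : ∀ u, |mq u - 1 / Z u| ≤ τ := by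
    intro u
    have := EST.Av_samp hSamp hP (hv u) (k + 4) _ le_rfl
      (fun l => if acc P l then (if comp P l = toL X then 1 else 0) else 0)
      (fun l => by split_ifs <;> simp)
    rw [sum_hit hBij hP _ _ hX] at this
    exact this
  have ha : ∀ u, |aq u - N / Z u| ≤ τ := by
    intro u
    have := EST.Av_samp hSamp hP (hv u) (k + 4) _ le_rfl
      (fun l => if acc P l then 1 else 0) (fun l => by split_ifs <;> simp)
    rw [EST.sum_acc hBij hP] at this
    exact this
  have hα1 : Av c aq ≤ 1 :=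
    Av_le_const fun u _ => Av_le_const fun w _ => by beta_reduce; split_ifs <;> norm_num
  have hα : 1 / 4 ≤ Av c aq := by
    let Bad : ℕ → Prop := fun u => ¬ (Z u ≤ 2 * N)
    have hb : Pb c Bad ≤ 1 / 4 := by
      refine le_trans ?_ (hp.trans (by norm_num))
      exact Pb_mono fun u _ hu h => hu h.1
    have h1 : Av c (fun u => (1 / 2 - τ) - 1 / 2 * (if Bad u then 1 else 0)) ≤ Av c aq := by
      refine Av_mono fun u _ => ?_
      have h2 := (abs_le.1 (ha u)).1
      by_cases h : Bad u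
      · have : 0 ≤ N / Z u := div_nonneg (by linarith) (hZ u).le
        rw [if_pos h]
        linarith
      · have h3 : Z u ≤ 2 * N := not_not.1 h
        have : 1 / 2 ≤ N / Z u := by
          rw [le_div_iff₀ (hZ u)]
          linarith
        rw [if_neg h]
        linarith
    rw [Av_sub, Av_const, Av_const_mul] at h1
    have e : Av c (fun u => if Bad u then (1 : ℝ) else 0) = Pb c Bad := by
      unfold Pb
      refine Av_congr fun u _ => ?_
      by_cases h : Bad u <;> simp [h]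
    rw [e] at h1
    linarith
  have hmα : |Av c mq - Av c aq * (1 / N)| ≤ 2 * τ := by
    rw [← Av_mul_const, ← Av_sub]
    refine (abs_Av_le _ _).trans (Av_le_const fun u _ => ?_)
    have e : mq u - aq u * (1 / N) = (mq u - 1 / Z u) - (aq u - N / Z u) * (1 / N) := by
      have := (hZ u).ne'
      field_simp
      ring
    have h1 : |(aq u - N / Z u) * (1 / N)| ≤ τ := by
      rw [abs_mul, abs_of_pos (by positivity : 0 < 1 / N)]
      have h2 : 1 / N ≤ 1 := by rw [div_le_one (by linarith)]; exact hN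
      exact (mul_le_of_le_one_right (abs_nonneg _) h2).trans (ha u)
    have h3 := abs_sub (mq u - 1 / Z u) ((aq u - N / Z u) * (1 / N))
    rw [e]
    linarith [hm u]
  have hg : ∀ j, (per P k c)^[j + 1] G false (toL X₀) =
      Av c mq + (1 - Av c aq) * (per P k c)^[j] G false (toL X₀) := by
    intro j
    rw [Function.iterate_succ_apply', per_false]
    simp only [iter_true]
    rfl
  have h0 : |(per P k c)^[0] G false (toL X₀) - 1 / N| ≤ 1 := by
    have h2 : 1 / N ≤ 1 := by rw [div_le_one (by linarith)]; exact hN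
    have h3 : 0 < 1 / N := by positivity
    simp only [Function.iterate_zero, id, G]
    rw [abs_le]
    split_ifs <;> constructor <;> linarith
  have hr := recur (g := fun j => (per P k c)^[j] G false (toL X₀)) hg h0 hmα hα hα1 (3 * (k + 1))
  have h4 : (3 / 4 : ℝ) ^ (3 * (k + 1)) ≤ 2⁻¹ ^ (k + 1) := by
    rw [pow_mul]
    exact pow_le_pow_left₀ (by norm_num) (by norm_num) _
  have h5 : 8 * τ = 2⁻¹ ^ (k + 1) := by
    rw [hτ]
    ring
  have h6 : (2 : ℝ)⁻¹ ^ k = 2⁻¹ ^ (k + 1) + 2⁻¹ ^ (k + 1) := by ring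
  have e1 : sE P k c (false, toL X₀, [], zer P) (3 * (k + 1) * pPd P k)
      (fun s => if s.2.1 = toL X then 1 else 0) = (per P k c)^[3 * (k + 1)] G false (toL X₀) := by
    rw [← e0]
  rw [h6]
  convert (show |(per P k c)^[3 * (k + 1)] G false (toL X₀) - 1 / N| ≤
    2⁻¹ ^ (k + 1) + 2⁻¹ ^ (k + 1) by linarith) using 3

end Crest.Agent.R309
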