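import Crest.Agent.R309.PT0

/-! Row 309, task TAB: tables are the feasible flows of the table network. -/

set_option autoImplicit false

namespace Crest.Agent.R309

open Finset Crest.Agent.PT Crest.Agent.QC Crest.Agent.R317 Crest.Agent.R300U

namespace TAB

theorem length_toL {N : ℕ} (x : Fin N → ℕ) : (toL x).length = N := by simp [toL]

theorem gv_toL {N : ℕ} (x : Fin N → ℕ) (k : Fin N) : gv (toL x) k = x k := by
  simp [gv, toL, List.getD_eq_getElem?_getD]

theorem gv_toL' {N : ℕ} (x : Fin N → ℕ) (k : ℕ) (h : k < N) : gv (toL x) k = x ⟨k, h⟩ :=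
  gv_toL x ⟨k, h⟩

theorem ext_gv {l l' : List Bin} (h : l.length = l'.length)
    (h' : ∀ k < l.length, gv l k = gv l' k) : l = l' := by
  apply List.ext_getElem h
  intro k h1 h2
  have := h' k h1
  simp only [gv, List.getD_eq_getElem?_getD, List.getElem?_eq_getElem h1,
    List.getElem?_eq_getElem h2, Option.getD_some] at this
  cases hx : l[k]
  cases hy : l'[k]
  rw [hx, hy] at this
  simpa using this

theorem flat_zero {n : ℕ} (X : Fin 0 → Fin n → ℕ) : R309X.flat X = [] := by
  simp [R309X.flat]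

theorem flat_succ {m n : ℕ} (X : Fin (m + 1) → Fin n → ℕ) :
    R309X.flat X = toL (X 0) ++ R309X.flat (fun i : Fin m => X i.succ) := by
  simp [R309X.flat, toL, List.ofFn_succ, List.map_ofFn, Function.comp_def]

theorem length_flat {m n : ℕ} (X : Fin m → Fin n → ℕ) : (R309X.flat X).length = m * n := by
  induction m with
  | zero => simp [flat_zero]
  | succ m ih => rw [flat_succ, List.length_append, ih, length_toL]; ring

theorem gv_append_left {l l' : List Bin} {k : ℕ} (h : k < l.length) : gv (l ++ l') k = gv l k := by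
  simp [gv, List.getD_eq_getElem?_getD, List.getElem?_append_left h]

theorem gv_append_right (l l' : List Bin) (k : ℕ) : gv (l ++ l') (l.length + k) = gv l' k := by
  simp [gv, List.getD_eq_getElem?_getD, List.getElem?_append_right]

theorem gv_flat {m n : ℕ} (X : Fin m → Fin n → ℕ) (i : Fin m) (j : Fin n) :
    gv (R309X.flat X) (i * n + j) = X i j := by
  induction m with
  | zero => exact i.elim0
  | succ m ih =>
    rw [flat_succ]
    refine Fin.cases ?_ (fun i => ?_) i
    · simp only [Fin.val_zero, zero_mul, zero_add]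
      rw [gv_append_left (by rw [length_toL]; exact j.2), gv_toL]
    · have : (i.succ : ℕ) * n + j = (toL (X 0)).length + (i * n + j) := by
        rw [length_toL, Fin.val_succ]; ring
      rw [this, gv_append_right, ih]

theorem idx_lt {m n : ℕ} (i : Fin m) (j : Fin n) : (i : ℕ) * n + j < m * n := by
  have h1 := i.2
  have h2 := j.2
  calc (i : ℕ) * n + j < i * n + n := by omega
    _ = (i + 1) * n := by ring
    _ ≤ m * n := Nat.mul_le_mul_right _ h1

theorem idx_div {m n : ℕ} (i : Fin m) (j : Fin n) : ((i : ℕ) * n + j) / n = i := by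
  have h2 := j.2
  rw [add_comm, Nat.add_mul_div_right _ _ (by omega), Nat.div_eq_of_lt h2, zero_add]

theorem idx_mod {m n : ℕ} (i : Fin m) (j : Fin n) : ((i : ℕ) * n + j) % n = j := by
  rw [add_comm, Nat.add_mul_mod_self_right, Nat.mod_eq_of_lt j.2]

theorem exists_idx {m n k : ℕ} (h : k < m * n) : ∃ (i : Fin m) (j : Fin n), k = i * n + j := by
  have hn : 0 < n := by
    rcases Nat.eq_zero_or_pos n with h0 | h0
    · subst h0; simp at h
    · exact h0
  refine ⟨⟨k / n, (Nat.div_lt_iff_lt_mul hn).2 h⟩, ⟨k % n, Nat.mod_lt _ hn⟩, ?_⟩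
  simp only
  rw [mul_comm]; exact (Nat.div_add_mod k n).symm

theorem sum_idx {M : Type} [AddCommMonoid M] (m n : ℕ) (f : ℕ → M) :
    ∑ k ∈ range (m * n), f k = ∑ i : Fin m, ∑ j : Fin n, f (i * n + j) := by
  induction m with
  | zero => simp
  | succ m ih =>
    rw [Nat.succ_mul, Finset.sum_range_add, ih, Fin.sum_univ_castSucc]
    simp only [Fin.val_castSucc, Fin.val_last]
    rw [Finset.sum_range (fun j => f (m * n + j))]

variable {m n : ℕ} (rs : Fin m → ℕ) (cs : Fin n → ℕ) (b : List Bin)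

theorem nA_tnet : nA (tnet (toL rs) (toL cs) b) = m * n := by
  simp [nA, tnet, length_toL]

theorem nV_tnet : nV (tnet (toL rs) (toL cs) b) = m + n := by
  simp [nV, tnet, length_toL]

theorem tl_tnet {k : ℕ} (h : k < m * n) : tl (tnet (toL rs) (toL cs) b) k = k / n := by
  simp only [tl, tnet, length_toL]; rw [getD_mkL _ _ h]

theorem hd_tnet {k : ℕ} (h : k < m * n) : hd (tnet (toL rs) (toL cs) b) k = m + k % n := by
  simp only [hd, tnet, length_toL]; rw [getD_mkL _ _ h]

theorem cap_tnet {k : ℕ} (h : k < m * n) : cap (tnet (toL rs) (toL cs) b) k = gv b k := by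
  simp only [cap, tnet, length_toL]; rw [getD_mkL _ _ h]

theorem dem_row (i : Fin m) : dem (tnet (toL rs) (toL cs) b) i = rs i := by
  have h : (i : ℕ) < m + n := by have := i.2; omega
  simp only [dem, tnet, length_toL]; rw [getD_mkL _ _ h, if_pos i.2, gv_toL]; rfl

theorem dem_col (j : Fin n) : dem (tnet (toL rs) (toL cs) b) (m + j) = -(cs j : ℤ) := by
  have h : m + (j : ℕ) < m + n := by have := j.2; omega
  simp only [dem, tnet, length_toL]
  rw [getD_mkL _ _ h, if_neg (by omega), Nat.add_sub_cancel_left, gv_toL]; rfl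

theorem netv_eq (l : List Bin) (v : ℕ) : netv (tnet (toL rs) (toL cs) b) l v =
    ∑ i : Fin m, ∑ j : Fin n, ((if (i : ℕ) = v then (gv l (i * n + j) : ℤ) else 0) -
      (if m + j = v then (gv l (i * n + j) : ℤ) else 0)) := by
  unfold netv
  rw [nA_tnet, sum_idx]
  refine Finset.sum_congr rfl fun i _ => Finset.sum_congr rfl fun j _ => ?_
  rw [tl_tnet rs cs b (idx_lt i j), hd_tnet rs cs b (idx_lt i j), idx_div, idx_mod]
  rfl

theorem netv_row (l : List Bin) (i : Fin m) : netv (tnet (toL rs) (toL cs) b) l i =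
    ((∑ j : Fin n, gv l (i * n + j) : ℕ) : ℤ) := by
  rw [netv_eq, Finset.sum_eq_single i]
  · push_cast
    refine Finset.sum_congr rfl fun j _ => ?_
    have := i.2
    rw [if_pos rfl, if_neg (by omega), sub_zero]
  · intro i' _ hi
    refine Finset.sum_eq_zero fun j _ => ?_
    have := i.2
    rw [if_neg (fun h => hi (Fin.ext h)), if_neg (by omega), sub_zero]
  · simp

theorem netv_col (l : List Bin) (j : Fin n) : netv (tnet (toL rs) (toL cs) b) l (m + j) =
    -((∑ i : Fin m, gv l (i * n + j) : ℕ) : ℤ) := by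
  rw [netv_eq]
  push_cast
  rw [← Finset.sum_neg_distrib]
  refine Finset.sum_congr rfl fun i _ => ?_
  have := i.2
  rw [Finset.sum_eq_single j]
  · rw [if_neg (by omega), if_pos rfl, zero_sub]
  · intro j' _ hj
    rw [if_neg (by omega), if_neg (fun h => hj (Fin.ext (by omega))), sub_zero]
  · simp

theorem feasL_iff (l : List Bin) : FeasL (tnet (toL rs) (toL cs) b) l ↔
    (∀ (i : Fin m) (j : Fin n), gv l (i * n + j) ≤ gv b (i * n + j)) ∧
      Crest.Tables.IsTable rs cs (fun i j => gv l (i * n + j)) := by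
  unfold FeasL All Crest.Tables.IsTable
  rw [nA_tnet, nV_tnet]
  beta_reduce
  constructor
  · rintro ⟨h1, h2⟩
    refine ⟨fun i j => ?_, fun i => ?_, fun j => ?_⟩
    · have := h1 _ (idx_lt i j)
      rwa [cap_tnet rs cs b (idx_lt i j)] at this
    · have := h2 i (by have := i.2; omega)
      rw [netv_row, dem_row] at this
      exact_mod_cast this
    · have := h2 (m + j) (by have := j.2; omega)
      rw [netv_col, dem_col, neg_inj] at this
      exact_mod_cast this
  · rintro ⟨h1, h2, h3⟩
    refine ⟨fun k hk => ?_, fun v hv => ?_⟩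
    · obtain ⟨i, j, rfl⟩ := exists_idx hk
      rw [cap_tnet rs cs b hk]; exact h1 i j
    · by_cases h : v < m
      · have e1 := netv_row rs cs b l ⟨v, h⟩
        have e2 := dem_row rs cs b ⟨v, h⟩
        simp only at e1 e2
        rw [e1, e2]
        exact_mod_cast h2 ⟨v, h⟩
      · obtain ⟨j, rfl⟩ : ∃ j, v = m + j := ⟨v - m, by omega⟩
        have hj : j < n := by omega
        have e1 := netv_col rs cs b l ⟨j, hj⟩
        have e2 := dem_col rs cs b ⟨j, hj⟩
        simp only at e1 e2
        rw [e1, e2, neg_inj]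
        exact_mod_cast h3 ⟨j, hj⟩

theorem mem_flows (G : Net) (x : Fin (nA G) → ℕ) : x ∈ flows G ↔ FeasL G (toL x) := by
  classical
  unfold flows
  rw [Finset.mem_filter]
  refine ⟨fun h => h.2, fun h => ⟨?_, h⟩⟩
  unfold box
  rw [Fintype.mem_piFinset]
  intro k
  have : gv (toL x) k ≤ cap G k := h.1 k k.2
  rw [gv_toL] at this
  simp only [Finset.mem_range]; omega

theorem wf_tnet : WF (tnet (toL rs) (toL cs) b) := by
  intro k hk
  rw [nA_tnet] at hk
  obtain ⟨i, j, rfl⟩ := exists_idx hk
  rw [tl_tnet rs cs b hk, hd_tnet rs cs b hk, nV_tnet, idx_div, idx_mod]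
  have := i.2
  have := j.2
  omega

theorem eq_flat (l : List Bin) (h : l.length = m * n) :
    l = R309X.flat (fun (i : Fin m) (j : Fin n) => gv l (i * n + j)) := by
  refine ext_gv (by rw [h, length_flat]) fun k hk => ?_
  rw [h] at hk
  obtain ⟨i, j, rfl⟩ := exists_idx hk
  rw [gv_flat]

theorem toL_gv {N : ℕ} (l : List Bin) (h : l.length = N) : toL (fun k : Fin N => gv l k) = l := by
  refine ext_gv (by rw [h, length_toL]) fun k hk => ?_
  rw [length_toL] at hk
  rw [gv_toL' _ _ hk]

theorem toL_inj {N : ℕ} {x y : Fin N → ℕ} (h : toL x = toL y) : x = y := by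
  funext k
  rw [← gv_toL x k, h, gv_toL]

theorem flat_inj {X Y : Fin m → Fin n → ℕ} (h : R309X.flat X = R309X.flat Y) : X = Y := by
  funext i j
  rw [← gv_flat X i j, h, gv_flat]

end TAB

open TAB in
theorem TAB_proof : TabStmt := by
  refine ⟨by fun_prop, fun m n rs cs b => ?_⟩
  have h3 : ∀ x ∈ flows (tnet (toL rs) (toL cs) (R309X.flat b)), ∃ X : Fin m → Fin n → ℕ,
      Crest.Tables.IsTable rs cs X ∧ (∀ i j, X i j ≤ b i j) ∧ toL x = R309X.flat X := by
    intro x hx
    rw [mem_flows, feasL_iff] at hx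
    refine ⟨_, hx.2, fun i j => ?_, eq_flat _ (by rw [length_toL, nA_tnet])⟩
    have := hx.1 i j
    rwa [gv_flat] at this
  have h4 : ∀ X : Fin m → Fin n → ℕ, Crest.Tables.IsTable rs cs X → (∀ i j, X i j ≤ b i j) →
      ∃ x ∈ flows (tnet (toL rs) (toL cs) (R309X.flat b)), toL x = R309X.flat X := by
    intro X hX hb
    have e := toL_gv (N := nA (tnet (toL rs) (toL cs) (R309X.flat b))) (R309X.flat X)
      (by rw [length_flat, nA_tnet])
    refine ⟨_, ?_, e⟩
    rw [mem_flows, e, feasL_iff]
    simp only [gv_flat]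
    exact ⟨hb, hX⟩
  refine ⟨wf_tnet _ _ _, ?_, h3, h4⟩
  unfold Crest.Tables.numBoundedTables
  rw [← Fintype.card_coe]
  symm
  refine Fintype.card_of_bijective (f := fun X => ⟨(h4 (fun i j => X.1 i j) X.2
    (fun i j => Nat.lt_succ_iff.1 (X.1 i j).2)).choose, (h4 (fun i j => X.1 i j) X.2
    (fun i j => Nat.lt_succ_iff.1 (X.1 i j).2)).choose_spec.1⟩) ⟨fun X Y hXY => ?_, fun x => ?_⟩
  · have e1 := (h4 (fun i j => X.1 i j) X.2 (fun i j => Nat.lt_succ_iff.1 (X.1 i j).2)).choose_spec.2
    have e2 := (h4 (fun i j => Y.1 i j) Y.2 (fun i j => Nat.lt_succ_iff.1 (Y.1 i j).2)).choose_spec.2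
    have e3 := congrArg Subtype.val hXY
    simp only at e3
    rw [e3, e2] at e1
    have := flat_inj e1
    apply Subtype.ext
    funext i j
    exact Fin.ext (congrFun (congrFun this i) j).symm
  · obtain ⟨X, hX, hb, e⟩ := h3 x.1 x.2
    refine ⟨⟨fun i j => ⟨X i j, Nat.lt_succ_iff.2 (hb i j)⟩, hX⟩, Subtype.ext ?_⟩
    apply toL_inj
    rw [e]
    exact (h4 X hX hb).choose_spec.2

end Crest.Agent.R309
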