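import Crest.Agent.R309.DefsA

set_option autoImplicit false

namespace Crest.Agent.R309

open Finset

namespace WAL

theorem shift0 (g : ℤ → ℝ) (hg : GLC g) (k : ℕ) :
    ∀ a b : ℤ, a + k ≤ b - k → g a * g b ≤ g (a + k) * g (b - k) := by
  induction k with
  | zero => intro a b _; simp
  | succ k ih =>
    intro a b h
    push_cast at h ⊢
    have h1 := ih a b (by omega)
    have h2 := hg.2 (a + k) (b - k) (by omega)
    rw [show a + ((k : ℤ) + 1) = a + k + 1 by ring, show b - ((k : ℤ) + 1) = b - k - 1 by ring]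
    exact h1.trans h2

theorem shift (g : ℤ → ℝ) (hg : GLC g) (a b c : ℤ) (h1 : a ≤ c) (h2 : c ≤ b) :
    g a * g b ≤ g c * g (a + b - c) := by
  by_cases h : 2 * c ≤ a + b
  · have := shift0 g hg (c - a).toNat a b (by omega)
    rw [show a + ((c - a).toNat : ℤ) = c by omega,
      show b - ((c - a).toNat : ℤ) = a + b - c by omega] at this
    exact this
  · have := shift0 g hg (b - c).toNat a b (by omega)
    rw [show a + ((b - c).toNat : ℤ) = a + b - c by omega,
      show b - ((b - c).toNat : ℤ) = c by omega] at this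
    linarith

theorem dbl (g : ℤ → ℝ) (hg : GLC g) (lo : ℤ) (w n e : ℕ) (h1 : 1 ≤ g lo)
    (hb : ∀ t, lo ≤ t → t ≤ lo + w → g t ≤ 2 ^ n) (he : (n + 1) * e ≤ w) (x : ℤ)
    (hx : lo + (n * e : ℕ) ≤ x) : g (x + e) ≤ 2 * g x := by
  by_contra hc
  push Not at hc
  have key : ∀ y ≤ x, g y * g (x + e) ≤ g (y + e) * g x := fun y hy => by
    have := shift g hg y (x + e) (y + e) (by omega) (by omega)
    rwa [show y + (x + e) - (y + e) = x by ring] at this
  have hx0 : 0 < g x := by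
    rcases (hg.1 x).eq_or_lt with h | h
    · have := key lo (by omega)
      rw [← h] at this hc
      nlinarith
    · exact h
  have hk : ∀ k : ℕ, k ≤ n + 1 → (2 : ℝ) ^ k ≤ g (lo + (k * e : ℕ)) := by
    intro k
    induction k with
    | zero => intro _; simpa using h1
    | succ k ih =>
      intro hk
      have i1 := ih (by omega)
      have hke : k * e ≤ n * e := Nat.mul_le_mul_right _ (by omega)
      have i2 := key (lo + (k * e : ℕ)) (by omega)
      have e1 : lo + (((k + 1) * e : ℕ) : ℤ) = lo + (k * e : ℕ) + e := by push_cast; ring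
      rw [e1, pow_succ]
      have hy := hg.1 (lo + (k * e : ℕ))
      have i3 : g (lo + (k * e : ℕ)) * (2 * g x) ≤ g (lo + (k * e : ℕ) + e) * g x :=
        (mul_le_mul_of_nonneg_left hc.le hy).trans i2
      have i4 : g (lo + (k * e : ℕ)) * 2 ≤ g (lo + (k * e : ℕ) + e) := by
        refine le_of_mul_le_mul_right ?_ hx0
        linarith
      linarith
  have a1 := hk (n + 1) le_rfl
  have a2 := hb (lo + ((n + 1) * e : ℕ)) (by omega) (by omega)
  have : (0 : ℝ) < 2 ^ n := by positivity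
  rw [pow_succ] at a1
  linarith

theorem geo (τ : ℝ) (hτ : 0 < τ) (D : ℕ) :
    ∑ d ∈ Icc 1 D, Real.exp (-(d / τ)) ≤ τ * (1 - Real.exp (-(D / τ))) := by
  induction D with
  | zero => simp
  | succ D ih =>
    rw [Finset.sum_Icc_succ_top (by omega)]
    push_cast
    have e : Real.exp (-(D / τ)) = Real.exp (-((D + 1) / τ)) * Real.exp (1 / τ) := by
      rw [← Real.exp_add]; congr 1; ring
    have h1 : 1 / τ + 1 ≤ Real.exp (1 / τ) := Real.add_one_le_exp _
    have h2 : 1 + τ ≤ τ * Real.exp (1 / τ) := by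
      have := mul_le_mul_of_nonneg_left h1 hτ.le
      rwa [mul_add, mul_one_div_cancel hτ.ne', mul_one] at this
    have h3 := Real.exp_pos (-((D + 1) / τ))
    rw [e] at ih
    nlinarith

end WAL

open WAL in
theorem WAL_proof : WalStmt := by
  intro g lo w n J D hg hn hJ hw hD h1 hb
  obtain ⟨l, hl⟩ : ∃ l, l = w / (2 * n) := ⟨_, rfl⟩
  have hl1 : 2 * n * l ≤ w := by rw [hl]; exact Nat.mul_div_le _ _
  have hl2 : w < 2 * n * (l + 1) := by rw [hl]; exact Nat.lt_mul_div_succ _ (by omega)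
  have hn' : (1 : ℝ) ≤ n := by exact_mod_cast hn
  have hw' : (2 : ℝ) ^ 30 * n ^ 8 ≤ w := by exact_mod_cast hw
  have hJ' : (2 : ℝ) ^ 30 * n ^ 8 ≤ J := by exact_mod_cast hJ
  have hl2' : (w : ℝ) ≤ 2 * n * (l + 1) := by exact_mod_cast hl2.le
  have hn8 : (n : ℝ) ≤ n ^ 8 := le_self_pow₀ hn' (by norm_num)
  have hw0 : (0 : ℝ) < w := by nlinarith
  obtain ⟨τ, hτ⟩ : ∃ τ : ℝ, τ = w / (2 ^ 14 * n ^ 2) := ⟨_, rfl⟩
  have hτ0 : 0 < τ := by rw [hτ]; positivity
  have hτw : (w : ℝ) = τ * (2 ^ 14 * n ^ 2) := by rw [hτ]; field_simp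
  have hl0 : (1 : ℝ) ≤ l := by
    by_contra hc
    push Not at hc
    nlinarith
  have hτl : τ ≤ l := by
    by_contra hc
    push Not at hc
    have : 2 * (n : ℝ) * (l + 1) ≤ 4 * n * τ := by nlinarith
    have h2 : τ * n ≤ τ * n ^ 2 := mul_le_mul_of_nonneg_left (by nlinarith) hτ0.le
    nlinarith
  have hl0' : 1 ≤ l := by exact_mod_cast hl0
  have hdb : ∀ e ≤ l, ∀ x : ℤ, lo + w - l ≤ x → g (x + (e : ℕ)) ≤ 2 * g x := by
    intro e he x hx
    have a1 : (n + 1) * e ≤ (n + 1) * l := Nat.mul_le_mul_left _ he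
    have a2 : (n + 1) * l ≤ 2 * n * l := Nat.mul_le_mul_right _ (by omega)
    have a3 : n * e ≤ n * l := Nat.mul_le_mul_left _ he
    have a4 : (n + 1) * l = n * l + l := by ring
    exact dbl g hg lo w n e h1 hb (by omega) x (by omega)
  have hG := hg.1 (lo + w)
  have hup : ∀ d : ℕ, g (lo + w + d) ≤ 2 * Real.exp (d / τ) * g (lo + w) := by
    intro d
    induction d using Nat.strong_induction_on with
    | _ d ih =>
      by_cases hd : d ≤ l
      · have a1 := hdb d hd (lo + w) (by omega)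
        have a2 : 1 ≤ Real.exp (d / τ) := Real.one_le_exp (by positivity)
        nlinarith
      · obtain ⟨d', rfl⟩ : ∃ d', d = d' + l := ⟨d - l, by omega⟩
        have a1 := hdb l le_rfl (lo + w + d') (by omega)
        have a2 := ih d' (by omega)
        have a3 : (l : ℝ) / τ + 1 ≤ Real.exp (l / τ) := Real.add_one_le_exp _
        have a4 : (1 : ℝ) ≤ l / τ := (one_le_div hτ0).2 hτl
        have a5 : 0 ≤ Real.exp (d' / τ) * g (lo + w) := mul_nonneg (Real.exp_pos _).le hG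
        push_cast
        rw [← add_assoc, add_div, Real.exp_add]
        nlinarith
  have hterm : ∀ d ∈ Icc 1 D, g (lo + w + d) * (1 - (d : ℝ) ^ 2 / (2 * n ^ 2 * w) ^ 2) ^ J ≤
      6 * g (lo + w) * Real.exp (-(d / τ)) := by
    intro d hd
    have hd2 : (d : ℝ) ≤ n * w := by exact_mod_cast (mem_Icc.1 hd).2.trans hD
    have hd0 : (0 : ℝ) ≤ d := Nat.cast_nonneg _
    have hL : (0 : ℝ) < 2 * n ^ 2 * w := by positivity
    have hdL : (d : ℝ) ≤ 2 * n ^ 2 * w := by nlinarith [mul_nonneg (mul_nonneg (by linarith : (0:ℝ) ≤ n) hw0.le) (by linarith : (0:ℝ) ≤ n - 1)]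
    have hq : (d : ℝ) ^ 2 / (2 * n ^ 2 * w) ^ 2 ≤ 1 := by
      rw [div_le_one (by positivity)]; exact pow_le_pow_left₀ hd0 hdL 2
    have b1 : (1 - (d : ℝ) ^ 2 / (2 * n ^ 2 * w) ^ 2) ^ J ≤
        Real.exp (-((d : ℝ) ^ 2 / (2 * n ^ 2 * w) ^ 2)) ^ J :=
      pow_le_pow_left₀ (by linarith) (by linarith [Real.add_one_le_exp (-((d : ℝ) ^ 2 / (2 * n ^ 2 * w) ^ 2))]) J
    rw [← Real.exp_nat_mul] at b1
    have b2 : (d / τ) ^ 2 ≤ J * ((d : ℝ) ^ 2 / (2 * n ^ 2 * w) ^ 2) := by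
      have e : (d / τ) ^ 2 = (2 ^ 30 * n ^ 8) * ((d : ℝ) ^ 2 / (2 * n ^ 2 * w) ^ 2) := by
        rw [hτ]; field_simp
      rw [e]
      exact mul_le_mul_of_nonneg_right hJ' (by positivity)
    have b3 : Real.exp (J * -((d : ℝ) ^ 2 / (2 * n ^ 2 * w) ^ 2)) ≤ Real.exp (1 - 2 * (d / τ)) :=
      Real.exp_le_exp.2 (by nlinarith [sq_nonneg (d / τ - 1)])
    have b4 : Real.exp (d / τ) * Real.exp (1 - 2 * (d / τ)) = Real.exp 1 * Real.exp (-(d / τ)) := by
      rw [← Real.exp_add, ← Real.exp_add]; congr 1; ring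
    have b5 : Real.exp 1 ≤ 3 := Real.exp_one_lt_d9.le.trans (by norm_num)
    have b6 : 0 ≤ (1 - (d : ℝ) ^ 2 / (2 * n ^ 2 * w) ^ 2) ^ J := pow_nonneg (by linarith) _
    calc _ ≤ (2 * Real.exp (d / τ) * g (lo + w)) * Real.exp (1 - 2 * (d / τ)) :=
          mul_le_mul (hup d) (b1.trans b3) b6 (by positivity)
      _ = 2 * g (lo + w) * (Real.exp 1 * Real.exp (-(d / τ))) := by rw [← b4]; ring
      _ ≤ 2 * g (lo + w) * (3 * Real.exp (-(d / τ))) := by gcongr
      _ = _ := by ring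
  have hs1 := sum_le_sum hterm
  rw [← mul_sum] at hs1
  have hs2 : ∑ d ∈ Icc 1 D, Real.exp (-(d / τ)) ≤ τ := by
    have := geo τ hτ0 D
    have h3 := Real.exp_pos (-(D / τ))
    nlinarith
  have hlw : l ≤ w := by nlinarith
  have hs3 : ((l : ℝ) + 1) * (g (lo + w) / 2) ≤ ∑ t ∈ Icc lo (lo + w), g t := by
    have c1 : ∑ t ∈ Icc (lo + w - l) (lo + w), g t ≤ ∑ t ∈ Icc lo (lo + w), g t :=
      sum_le_sum_of_subset_of_nonneg (Icc_subset_Icc_left (by omega)) fun t _ _ => hg.1 t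
    have c2 : ∑ t ∈ Icc (lo + w - l) (lo + w), g (lo + w) / 2 ≤
        ∑ t ∈ Icc (lo + w - l) (lo + w), g t := by
      refine sum_le_sum fun t ht => ?_
      have ht' := mem_Icc.1 ht
      have := hdb (lo + w - t).toNat (by omega) t ht'.1
      rw [show t + ((lo + w - t).toNat : ℤ) = lo + w by omega] at this
      linarith
    rw [sum_const, Int.card_Icc, show (lo + w + 1 - (lo + w - l)).toNat = l + 1 by omega,
      nsmul_eq_mul] at c2
    push_cast at c2
    linarith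
  have hs4 : 8 * (n : ℝ) * (6 * τ) ≤ ((l : ℝ) + 1) / 2 := by
    have : (n : ℝ) * (8 * n * (6 * τ)) ≤ n * (((l : ℝ) + 1) / 2) := by nlinarith [mul_pos hτ0 (by positivity : (0:ℝ) < n ^ 2)]
    exact le_of_mul_le_mul_left this (by linarith)
  calc _ ≤ 8 * (n : ℝ) * (6 * g (lo + w) * τ) := by
        refine mul_le_mul_of_nonneg_left (hs1.trans ?_) (by positivity)
        exact mul_le_mul_of_nonneg_left hs2 (by positivity)
    _ = 8 * (n : ℝ) * (6 * τ) * g (lo + w) := by ring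
    _ ≤ ((l : ℝ) + 1) / 2 * g (lo + w) := mul_le_mul_of_nonneg_right hs4 hG
    _ ≤ _ := by linarith

end Crest.Agent.R309
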