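import Crest.Agent.R309.DefsA

set_option autoImplicit false

namespace Crest.Agent.R309

namespace WF

theorem low (L d : ℕ) (h : d ≤ L / 2) : wall L d = 1 - (d : ℝ) ^ 2 / (L : ℝ) ^ 2 := by
  unfold wall
  rw [min_eq_left h, Nat.sub_eq_zero_of_le h]
  simp

theorem q_le (L d : ℕ) (hL : 8 ≤ L) (h : d ≤ L / 2) : (d : ℝ) ^ 2 / (L : ℝ) ^ 2 ≤ 1 / 4 := by
  have h1 : (2 * d : ℝ) ≤ L := by exact_mod_cast (by omega : 2 * d ≤ L)
  have hL0 : (0 : ℝ) < L := by exact_mod_cast (by omega : 0 < L)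
  have hd : (0 : ℝ) ≤ d := Nat.cast_nonneg _
  rw [div_le_iff₀ (by positivity)]
  nlinarith

/-- beyond `L/2 - 1` the ratio is that of the last quadratic step -/
theorem high (L : ℕ) (hL : 8 ≤ L) (K : ℕ) (hK : K + 1 = L / 2) (d : ℕ) (h : K ≤ d) :
    wall L (d + 1) = wall L d * (wall L (K + 1) / wall L K) := by
  have hq := q_le L K hL (by omega)
  have e : ((L / 2 : ℕ) : ℝ) = K + 1 := by rw [← hK]; push_cast; ring
  have hr : wall L (K + 1) / wall L K =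
      (1 - ((L / 2 : ℕ) : ℝ) ^ 2 / (L : ℝ) ^ 2) / (1 - (((L / 2 : ℕ) : ℝ) - 1) ^ 2 / (L : ℝ) ^ 2) := by
    rw [low L (K + 1) (by omega), low L K (by omega), e]
    push_cast
    ring_nf
  rcases h.eq_or_lt with rfl | h
  · have : wall L K ≠ 0 := by rw [low L K (by omega)]; linarith
    field_simp
  · rw [hr]
    unfold wall
    rw [min_eq_right (by omega : L / 2 ≤ d + 1), min_eq_right (by omega : L / 2 ≤ d),
      show d + 1 - L / 2 = (d - L / 2) + 1 by omega, pow_succ]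
    ring

theorem pos (L : ℕ) (hL : 8 ≤ L) (d : ℕ) : 0 < wall L d := by
  obtain ⟨K, hK⟩ : ∃ K, K + 1 = L / 2 := ⟨L / 2 - 1, by omega⟩
  have hl : ∀ d ≤ L / 2, 0 < wall L d := fun d hd => by
    rw [low L d hd]; linarith [q_le L d hL hd]
  induction d with
  | zero => exact hl 0 (by omega)
  | succ d ih =>
    by_cases h : K ≤ d
    · rw [high L hL K hK d h]
      exact mul_pos ih (div_pos (hl _ (by omega)) (hl _ (by omega)))
    · exact hl _ (by omega)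

theorem step_low (L : ℕ) (hL : 8 ≤ L) (d : ℕ) (h : d + 1 ≤ L / 2) :
    wall L (d + 1) ≤ wall L d ∧ wall L d ≤ (1 + 2 / L) * wall L (d + 1) := by
  have hq := q_le L (d + 1) hL h
  rw [low L (d + 1) h, low L d (by omega)]
  have h1 : (2 * (d + 1) : ℝ) ≤ L := by exact_mod_cast (by omega : 2 * (d + 1) ≤ L)
  have hL0 : (0 : ℝ) < L := by exact_mod_cast (by omega : 0 < L)
  have hd : (0 : ℝ) ≤ d := Nat.cast_nonneg _
  push_cast at hq ⊢
  have e : ((d : ℝ) + 1) ^ 2 / (L : ℝ) ^ 2 = (d : ℝ) ^ 2 / (L : ℝ) ^ 2 + (2 * d + 1) / (L : ℝ) ^ 2 := by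
    ring
  have h2 : (0 : ℝ) ≤ (2 * d + 1) / (L : ℝ) ^ 2 := by positivity
  have h3 : (2 * (d : ℝ) + 1) / (L : ℝ) ^ 2 ≤ 1 / L := by
    rw [div_le_div_iff₀ (by positivity) hL0]; nlinarith
  have h4 : (0 : ℝ) < 1 / L := by positivity
  have h5 : (2 : ℝ) / L = 2 * (1 / L) := by ring
  constructor
  · linarith
  · rw [h5]; nlinarith

theorem step (L : ℕ) (hL : 8 ≤ L) (d : ℕ) :
    wall L (d + 1) ≤ wall L d ∧ wall L d ≤ (1 + 2 / L) * wall L (d + 1) := by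
  obtain ⟨K, hK⟩ : ∃ K, K + 1 = L / 2 := ⟨L / 2 - 1, by omega⟩
  by_cases h : K ≤ d
  · obtain ⟨h1, h2⟩ := step_low L hL K hK.le
    have hK0 := pos L hL K
    have hd := pos L hL d
    rw [high L hL K hK d h]
    have a1 : wall L (K + 1) / wall L K ≤ 1 := (div_le_one hK0).2 h1
    have a2 : 1 ≤ (1 + 2 / L) * (wall L (K + 1) / wall L K) := by
      rw [← mul_div_assoc, le_div_iff₀ hK0]; linarith
    constructor
    · nlinarith
    · nlinarith
  · exact step_low L hL d (by omega)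

theorem zero (L : ℕ) : wall L 0 = 1 := by
  rw [low L 0 (Nat.zero_le _)]; simp

theorem le_one (L : ℕ) (hL : 8 ≤ L) (d : ℕ) : wall L d ≤ 1 := by
  induction d with
  | zero => exact (zero L).le
  | succ d ih => exact (step L hL d).1.trans ih

theorem curv (L : ℕ) (hL : 8 ≤ L) (d : ℕ) :
    wall L d * wall L (d + 2) ≤ wall L (d + 1) ^ 2 ∧
      (1 - 5 / (L : ℝ) ^ 2) * wall L (d + 1) ^ 2 ≤ wall L d * wall L (d + 2) := by
  obtain ⟨K, hK⟩ : ∃ K, K + 1 = L / 2 := ⟨L / 2 - 1, by omega⟩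
  have hL0 : (0 : ℝ) < L := by exact_mod_cast (by omega : 0 < L)
  have hi : (0 : ℝ) < 1 / (L : ℝ) ^ 2 := by positivity
  by_cases h : K ≤ d
  · have e : wall L d * wall L (d + 2) = wall L (d + 1) ^ 2 := by
      rw [high L hL K hK (d + 1) (by omega), high L hL K hK d h]; ring
    rw [e]
    refine ⟨le_rfl, ?_⟩
    have : 0 ≤ 5 / (L : ℝ) ^ 2 * wall L (d + 1) ^ 2 := by positivity
    linarith
  · have hq := q_le L (d + 1) hL (by omega)
    rw [low L d (by omega), low L (d + 1) (by omega), low L (d + 2) (by omega)]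
    push_cast at hq ⊢
    have hd : (0 : ℝ) ≤ d := Nat.cast_nonneg _
    obtain ⟨y, hy⟩ : ∃ y : ℝ, y = 1 / (L : ℝ) ^ 2 := ⟨_, rfl⟩
    have e : ∀ z : ℝ, z / (L : ℝ) ^ 2 = z * y := fun z => by rw [hy]; ring
    rw [← hy] at hi
    simp only [e] at hq ⊢
    obtain ⟨q, hq'⟩ : ∃ q : ℝ, q = ((d : ℝ) + 1) ^ 2 * y := ⟨_, rfl⟩
    have e2 : (1 - (d : ℝ) ^ 2 * y) * (1 - ((d : ℝ) + 2) ^ 2 * y) =
        (1 - q) ^ 2 - 2 * y - 2 * q * y + y ^ 2 := by rw [hq']; ring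
    have hqy : y ≤ q := by rw [hq']; nlinarith [mul_nonneg (mul_nonneg hd hd) hi.le, mul_nonneg hd hi.le]
    rw [e2, ← hq']
    rw [← hq'] at hq
    have hq2 : 9 / 16 ≤ (1 - q) ^ 2 := by nlinarith
    constructor
    · nlinarith
    · nlinarith

theorem cases3 (lo hi : ℤ) (h : lo < hi) (t : ℤ) :
    (∃ d : ℕ, (dst lo hi t).toNat = d + 1 ∧
      (((dst lo hi (t - 1)).toNat = d + 2 ∧ (dst lo hi (t + 1)).toNat = d) ∨
        ((dst lo hi (t - 1)).toNat = d ∧ (dst lo hi (t + 1)).toNat = d + 2))) ∨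
    ((dst lo hi t).toNat = 0 ∧
      (((dst lo hi (t - 1)).toNat = 1 ∧ (dst lo hi (t + 1)).toNat = 0) ∨
        ((dst lo hi (t - 1)).toNat = 0 ∧ (dst lo hi (t + 1)).toNat = 0) ∨
        ((dst lo hi (t - 1)).toNat = 0 ∧ (dst lo hi (t + 1)).toNat = 1))) := by
  unfold dst
  by_cases h1 : t < lo
  · left; exact ⟨(lo - t - 1).toNat, by omega⟩
  · by_cases h2 : hi < t
    · left; exact ⟨(t - hi - 1).toNat, by omega⟩
    · right; omega

end WF

open WF in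
theorem WF_proof : WfStmt := by
  intro L lo hi hL hlh
  have hL0 : (0 : ℝ) < L := by exact_mod_cast (by omega : 0 < L)
  have hi2 : (0 : ℝ) < 1 / (L : ℝ) ^ 2 := by positivity
  have h1 : wall L 1 = 1 - 1 / (L : ℝ) ^ 2 := by rw [low L 1 (by omega)]; simp
  have h5 : (5 : ℝ) / (L : ℝ) ^ 2 = 5 * (1 / (L : ℝ) ^ 2) := by ring
  have hup : ∀ d, wall L (d + 1) ≤ (1 + 2 / L) * wall L d := fun d => by
    have := (step L hL d).1
    have h2 : 0 ≤ 2 / (L : ℝ) * wall L d := mul_nonneg (by positivity) (pos L hL d).le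
    linarith
  have hsame : ∀ d, wall L d ≤ (1 + 2 / L) * wall L d := fun d => by
    have h2 : 0 ≤ 2 / (L : ℝ) * wall L d := mul_nonneg (by positivity) (pos L hL d).le
    linarith
  refine ⟨⟨fun t => pos L hL _, fun t => ?_⟩, fun t => le_one L hL _, fun t => ?_, fun t => ?_,
    fun d hd => low L d (by omega)⟩
  · rcases cases3 lo hi hlh t with ⟨d, e0, ⟨e1, e2⟩ | ⟨e1, e2⟩⟩ | ⟨e0, ⟨e1, e2⟩ | ⟨e1, e2⟩ | ⟨e1, e2⟩⟩ <;>
      simp only [e0, e1, e2, zero, h1]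
    · linarith [(curv L hL d).1]
    · linarith [(curv L hL d).1]
    all_goals linarith
  · rcases cases3 lo hi hlh t with ⟨d, e0, ⟨-, e2⟩ | ⟨-, e2⟩⟩ | ⟨e0, ⟨-, e2⟩ | ⟨-, e2⟩ | ⟨-, e2⟩⟩ <;>
      rw [e0, e2]
    · exact ⟨(step L hL d).2, hup d⟩
    · exact ⟨hup (d + 1), (step L hL (d + 1)).2⟩
    · exact ⟨hsame 0, hsame 0⟩
    · exact ⟨hsame 0, hsame 0⟩
    · exact ⟨hup 0, (step L hL 0).2⟩
  · rcases cases3 lo hi hlh t with ⟨d, e0, ⟨e1, e2⟩ | ⟨e1, e2⟩⟩ | ⟨e0, ⟨e1, e2⟩ | ⟨e1, e2⟩ | ⟨e1, e2⟩⟩ <;>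
      simp only [e0, e1, e2, zero, h1]
    · linarith [(curv L hL d).2]
    · linarith [(curv L hL d).2]
    all_goals linarith

end Crest.Agent.R309
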