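import Mathlib

/-!
Row 309 (counting and sampling contingency tables), part A: the analytic core.
`L`-functions, the key flow lemma, Poincaré inequalities, mixing, one-dimensional estimates.
-/

set_option autoImplicit false

namespace Crest.Agent.R309

open Finset

section L

variable {V : Type} [Fintype V] [DecidableEq V]

/-- unit vector -/
def ev (a : V) : V → ℕ := Pi.single a 1

/-- unit vector, or zero -/
def eo : Option V → V → ℕ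
  | none => 0
  | some a => ev a

/-- The local bilinear form of `F` at `γ`. -/
def Hf (F : (V → ℕ) → ℝ) (γ : V → ℕ) (v w : Option V → ℝ) : ℝ :=
  ∑ a, ∑ b, v a * w b * F (γ + eo a + eo b)

/-- `L`-functions: positive, and every local form satisfies the reverse Cauchy–Schwarz inequality. -/
def IsL (F : (V → ℕ) → ℝ) : Prop :=
  (∀ γ, 0 < F γ) ∧ ∀ γ v w, 0 < Hf F γ w w → Hf F γ v v * Hf F γ w w ≤ Hf F γ v w ^ 2

/-- first-order pairing -/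
def Dv (F : (V → ℕ) → ℝ) (γ : V → ℕ) (x : V → ℝ) : ℝ := ∑ a, x a * F (γ + ev a)

/-- second-order pairing -/
def Qv (F : (V → ℕ) → ℝ) (γ : V → ℕ) (x : V → ℝ) : ℝ := ∑ a, ∑ b, x a * x b * F (γ + ev a + ev b)

/-- `i` units at `a` and `j` units at `b` -/
def pt (a b : V) (i j : ℕ) : V → ℕ := Pi.single a i + Pi.single b j

/-- Sum of `Φ` over all ways of splitting, for each block `(a, b, s)` of the list, `s` units between
`a` and `b`, on top of `γ`. -/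
def Sm : List (V × V × ℕ) → (V → ℕ) → ((V → ℕ) → ℝ) → ℝ
  | [], γ, Φ => Φ γ
  | B :: t, γ, Φ => ∑ i ∈ range (B.2.2 + 1), Sm t (γ + pt B.1 B.2.1 i (B.2.2 - i)) Φ

/-- Weighted sums with one deficient block. -/
noncomputable def WS (F : (V → ℕ) → ℝ) : List (V × V × ℕ) → (V → ℕ) → ℝ
  | [], _ => 0
  | B :: t, γ =>
    (∑ i ∈ range B.2.2, ((i : ℝ) + 1) * ((B.2.2 : ℝ) - i) *
        Sm t (γ + pt B.1 B.2.1 i (B.2.2 - 1 - i)) F) / (2 * ((B.2.2 : ℝ) + 1) ^ 2) +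
      ∑ i ∈ range (B.2.2 + 1), WS F t (γ + pt B.1 B.2.1 i (B.2.2 - i))

/-- Dirichlet form of the grid of splittings: the edge of block `(a, b, s)` between `U + ev b` and
`U + ev a` has conductance `(s+1)² c a b U`. -/
def Dir (c : V → V → (V → ℕ) → ℝ) : List (V × V × ℕ) → (V → ℕ) → ((V → ℕ) → ℝ) → ℝ
  | [], _, _ => 0
  | B :: t, γ, g =>
    ((B.2.2 : ℝ) + 1) ^ 2 * (∑ i ∈ range B.2.2, Sm t (γ + pt B.1 B.2.1 i (B.2.2 - 1 - i))
        (fun U => c B.1 B.2.1 U * (g (U + ev B.1) - g (U + ev B.2.1)) ^ 2)) +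
      ∑ i ∈ range (B.2.2 + 1), Dir c t (γ + pt B.1 B.2.1 i (B.2.2 - i)) g

/-- conductances of the key lemma -/
def cX (F : (V → ℕ) → ℝ) (a b : V) (U : V → ℕ) : ℝ := F (U + ev a + ev b)

/-- Metropolis conductances -/
def cM (F : (V → ℕ) → ℝ) (a b : V) (U : V → ℕ) : ℝ := min (F (U + ev a)) (F (U + ev b))

/-- Hypotheses on one block `(a, b, s)`: one of the two variables can be added at cost `Λ`, and the
curvature along `a - b` is at most `Γ / (s+1)²`. -/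
def BlockOK (F : (V → ℕ) → ℝ) (Λ Γ : ℝ) (B : V × V × ℕ) : Prop :=
  (∃ c, (c = B.1 ∨ c = B.2.1) ∧ ∀ α, F α ≤ Λ * F (α + ev c)) ∧
  ∃ κ : ℝ, 0 ≤ κ ∧ κ ≤ 1 ∧ ((B.2.2 : ℝ) + 1) ^ 2 * κ ≤ Γ ∧
    ∀ α, (1 - κ) * F (α + ev B.1 + ev B.2.1) ^ 2 ≤
      F (α + ev B.1 + ev B.1) * F (α + ev B.2.1 + ev B.2.1)

theorem anchorA : True := by
  have := @eo.eq_def; have := @eo.eq_1; have := @eo.eq_2
  have := @Sm.eq_def; have := @Sm.eq_1; have := @Sm.eq_2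
  have := @WS.eq_def; have := @WS.eq_1; have := @WS.eq_2
  have := @Dir.eq_def; have := @Dir.eq_1; have := @Dir.eq_2
  have := @ev.eq_1; have := @Hf.eq_1; have := @IsL.eq_1; have := @Dv.eq_1; have := @Qv.eq_1
  have := @pt.eq_1; have := @cX.eq_1; have := @cM.eq_1; have := @BlockOK.eq_1
  trivial

end L

/-- positive log-concave functions on `ℤ` -/
def LC (χ : ℤ → ℝ) : Prop := (∀ z, 0 < χ z) ∧ ∀ z, χ (z - 1) * χ (z + 1) ≤ χ z ^ 2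

/-- non-negative log-concave functions on `ℤ` (global form, no internal zeros) -/
def GLC (g : ℤ → ℝ) : Prop := (∀ z, 0 ≤ g z) ∧ ∀ a b, a < b → g a * g b ≤ g (a + 1) * g (b - 1)

/-- laminar families -/
def Lam {ι V : Type} (I : Finset ι) (S : ι → Finset V) : Prop :=
  ∀ i ∈ I, ∀ j ∈ I, S i ⊆ S j ∨ S j ⊆ S i ∨ Disjoint (S i) (S j)

/-- laminar products -/
noncomputable def lamF {ι V : Type} (I : Finset ι) (S : ι → Finset V) (χ : ι → ℤ → ℝ) (off : ι → ℤ)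
    (α : V → ℕ) : ℝ :=
  ∏ i ∈ I, χ i ((∑ a ∈ S i, (α a : ℤ)) - off i)

/-- **SCH**. Criterion. If a linear functional `φ` has `B(v,v) ≤ 0` on its kernel then for
`B(w,w) > 0` we have `φ w ≠ 0`, `u = v - (φ v/φ w) w` has `B(u,u) ≤ 0`, so the quadratic
`t ↦ B(v - t w, v - t w)` has non-negative discriminant. Use `φ = Hf F γ · δ_none`. Conversely take
`w = δ_none`. -/
def SchStmt : Prop :=
  ∀ (V : Type) [Fintype V] [DecidableEq V] (F : (V → ℕ) → ℝ),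
    IsL F ↔ (∀ γ, 0 < F γ) ∧ ∀ γ (x : V → ℝ), Qv F γ x * F γ ≤ Dv F γ x ^ 2

/-- **LAM** (uses SCH). Strong induction on `I`: remove an index `i` with `S i` of maximal card; the
others are inside `S i` (product `G`, depends only on variables in `S i`) or disjoint from it
(product `H`). With `r_a = G(γ+a)/G γ`, `r_ab`, `c₁ = χ(z+1)/χ z`, `c₂ = χ(z+2)/χ z ≤ c₁²`:
`∑ x_a x_b (R_ab - R_a R_b)` splits into the part inside `S i`, which is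
`c₂ ∑ x x r_ab - c₁² (∑ x r)² ≤ (c₂ - c₁²)(∑ x r)² ≤ 0`, and the part outside (`≤ 0` by induction,
applied to `x` restricted); mixed terms vanish. The tilt `∏ t a ^ α a` rescales `x`. -/
def LamStmt : Prop :=
  ∀ (ι V : Type) [Fintype V] [DecidableEq V] (I : Finset ι) (S : ι → Finset V) (χ : ι → ℤ → ℝ)
    (off : ι → ℤ) (c : ℝ) (t : V → ℝ), Lam I S → (∀ i ∈ I, LC (χ i)) → 0 < c → (∀ a, 0 < t a) →
    IsL (fun α => c * lamF I S χ off α * ∏ a, t a ^ α a)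

/-- **MRG** (uses SCH). First the one-block case `G γ = ∑_{i ≤ s} F (γ + pt a b i (s-i))`, then
induction on the list (`Sm t γ F` as a function of `γ`; note `Sm t (γ+δ) F = Sm t γ (F (· + δ))`).
One block: fix `γ` and `v : Option V → ℝ`; bases `γ_i = γ + pt a b i (s-i)` (`i ≤ s`),
`e_j = F (γ + pt a b j (s+2-j))`, `d_j = ∑_o v o F (γ + pt a b j (s+1-j) + eo o)`,
`A_i = Hf F γ_i v v`, so `Hf G γ v v = ∑ A_i`. It suffices (linear functional trick of SCH, with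
`φ v = ∑_{j ≤ s+1} d_j`) to show `∑ A_i ≤ 0` when `∑_{j ≤ s+1} d_j = 0`. Put
`θ_i = (d_0 + … + d_i)/e_{i+1}` (`θ_{-1} = 0`, `θ_{s+1} = 0`), so `d_i = θ_i e_{i+1} - θ_{i-1} e_i`.
The vector `v - θ_i δ_a + θ_{i-1} δ_b` is `Hf F γ_i`-orthogonal to `δ_b`, which has positive square
`e_i`; hence its square is `≤ 0`, which expands to
`A_i ≤ (2 θ_i θ_{i+1} - θ_i²) e_{i+2} - 2 θ_i² e_{i+1} + θ_{i-1}² e_i ≤ g_{i+1} - 2 g_i + g_{i-1}`
with `g_i = θ_i² e_{i+1}`; the sum telescopes to `-g_0 - g_s ≤ 0`. (No assumption `a ≠ b`.) -/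
def MrgStmt : Prop :=
  ∀ (V : Type) [Fintype V] [DecidableEq V] (F : (V → ℕ) → ℝ), IsL F →
    ∀ t : List (V × V × ℕ), IsL (fun γ => Sm t γ F)

/-- **ONE**. Same computation as in MRG (with `s - 1` for `s`): `β_i = γ + pt a b i (s-1-i)`,
`-Qv G β_i x ≥ 2 g_i - g_{i-1} - g_{i+1}`, `g_i = θ_i² G (γ + pt a b (i+1) (s-i))`,
`g_{-1} = g_s = 0` (use `θ` reset to `0` at `s`); multiply by `ω_i = (i+1)(s-i)` and sum by parts
(`2 ω_i - ω_{i-1} - ω_{i+1} = 2`, `ω_{-1} = ω_s = 0`). -/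
def OneStmt : Prop :=
  ∀ (V : Type) [Fintype V] [DecidableEq V] (G : (V → ℕ) → ℝ), IsL G →
    ∀ (a b : V) (s : ℕ) (γ : V → ℕ) (x : V → ℝ) (θ : ℕ → ℝ),
      ∑ i ∈ range (s + 1), Dv G (γ + pt a b i (s - i)) x = 0 →
      (∀ i < s, θ i * G (γ + pt a b (i + 1) (s - i)) =
        ∑ j ∈ range (i + 1), Dv G (γ + pt a b j (s - j)) x) →
      2 * ∑ i ∈ range s, θ i ^ 2 * G (γ + pt a b (i + 1) (s - i)) ≤
        -∑ i ∈ range s, ((i : ℝ) + 1) * ((s : ℝ) - i) * Qv G (γ + pt a b i (s - 1 - i)) x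

/-- **KEY** (uses MRG, ONE). Induction on `t` (for all `γ x`). For `(a,b,s) :: t`, `G = Sm t · F`,
`γ_i = γ + pt a b i (s-i)`, `θ` as in ONE (`θ_{-1} = θ_s = 0`), put
`x_i = x - θ_i δ_a + θ_{i-1} δ_b`. Then `Sm t γ_i (Dv F · x_i) = Dv G γ_i x_i = 0`, so the induction
hypothesis applies on each slice. The difference between the left sides is
`-2 ∑_{i<s} θ_i Sm t β_i (F(U+a+b) (g(U+a) - g(U+b)))` (`β_i = γ + pt a b i (s-1-i)`), at most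
`∑ θ_i² e_{i+1}/(s+1)² + (s+1)² ∑ Sm t β_i (F(U+a+b)(g(U+a)-g(U+b))²)`, and ONE bounds the first sum.
Finally for any `W ≥ 0` (here `WS F t`):
`∑_i Qv W γ_i x_i = ∑_i Qv W γ_i x + ∑_j W(γ + pt a b j (s+2-j)) (θ_{j-1} - θ_{j-2})² ≥ ∑_i Qv W γ_i x`
(the mixed terms telescope because `γ_i + ev a = γ_{i+1} + ev b`). -/
def KeyStmt : Prop :=
  ∀ (V : Type) [Fintype V] [DecidableEq V] (F : (V → ℕ) → ℝ), IsL F →
    ∀ (t : List (V × V × ℕ)) (γ : V → ℕ) (x : V → ℝ) (g : (V → ℕ) → ℝ),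
      Sm t γ (fun U => Dv F U x) = 0 →
      2 * Sm t γ (fun U => g U * Dv F U x) ≤ -Qv (WS F t) γ x + Dir (cX F) t γ g

/-- **HAR**. One-dimensional Poincaré inequality. With `V` the left side, `δ_i = ∑_{j ≤ i} Z_j (m_j - m̄)`:
`V = -∑ δ_i (m_{i+1} - m_i)`, `δ_i² ≤ V min(Z_{≤ i}, Z_{> i}) ≤ V (s+1) min(Z_i, Z_{i+1})` (if
`Z_i ≤ Z_{i+1}` the sequence increases up to `i`, otherwise it decreases from `i` on); Cauchy–Schwarz. -/
def HarStmt : Prop :=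
  ∀ (s : ℕ) (Z m : ℕ → ℝ), (∀ i ≤ s, 0 < Z i) → (∀ i, i + 2 ≤ s → Z i * Z (i + 2) ≤ Z (i + 1) ^ 2) →
    ∑ i ∈ range (s + 1), Z i * m i ^ 2 -
        (∑ i ∈ range (s + 1), Z i * m i) ^ 2 / ∑ i ∈ range (s + 1), Z i ≤
      ((s : ℝ) + 1) ^ 2 * ∑ i ∈ range s, min (Z i) (Z (i + 1)) * (m (i + 1) - m i) ^ 2

/-- **SLI** (uses KEY). Let `c ∈ {a,b}` be the cheap variable, `o` the other one, `Z_a, Z_b` the
masses, `g' U = g (U + ev c)`, `E_v g' = Sm t β (F(U+v) g'(U)) / Z_v`. (1) KEY with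
`x = τ (δ_b/Z_b - δ_a/Z_a)` for all real `τ` gives `(E_a g' - E_b g')² ≤ P D` with
`D = Dir (cX F) t β g' ≤ Λ² Dir (cM F) t (β + ev c) g` (`F(U+k+l) ≤ Λ F(U+k+l+c) ≤ Λ² F(U+k+c)`) and
`P = -Qv (WS F t) β x₁ ≤ 2 κ WS F t (β+a+b)/(Z_a Z_b)` (pointwise AM-GM
`p² F(α+2b) + q² F(α+2a) ≥ 2(1-κ) p q F(α+a+b)`, preserved by the positive linear `Sm`, `WS`; if
`a = b` everything is trivial), `WS F t δ ≤ (len/2) Λ Sm t δ F` (add the cheap variable of the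
deficient block), `Sm t (β+a+b) F ≤ Λ min Z_a Z_b`. So `P ≤ κ len Λ² / max Z_a Z_b`.
(2) the mean of `g` on slice `c` is `E_c g'`; the mean on slice `o` differs from `E_o g'` by a
quantity whose square is `≤ Sm t β (F(U+o)(g(U+a)-g(U+b))²)/Z_o` (Cauchy–Schwarz for `Sm`), and
`F(U+o) ≤ Λ F U ≤ Λ² F(U+c)`. -/
def SliStmt : Prop :=
  ∀ (V : Type) [Fintype V] [DecidableEq V] (F : (V → ℕ) → ℝ) (Λ Γ κ : ℝ), IsL F → 1 ≤ Λ →
    (∀ α v, F (α + ev v) ≤ Λ * F α) →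
    ∀ (t : List (V × V × ℕ)), (∀ B ∈ t, BlockOK F Λ Γ B) →
    ∀ (a b : V), (∃ c, (c = a ∨ c = b) ∧ ∀ α, F α ≤ Λ * F (α + ev c)) → 0 ≤ κ → κ ≤ 1 →
      (∀ α, (1 - κ) * F (α + ev a + ev b) ^ 2 ≤ F (α + ev a + ev a) * F (α + ev b + ev b)) →
    ∀ (β : V → ℕ) (g : (V → ℕ) → ℝ),
      min (Sm t (β + ev a) F) (Sm t (β + ev b) F) *
          (Sm t (β + ev a) (fun U => F U * g U) / Sm t (β + ev a) F -
            Sm t (β + ev b) (fun U => F U * g U) / Sm t (β + ev b) F) ^ 2 ≤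
        2 * Λ ^ 2 * Sm t β (fun U => cM F a b U * (g (U + ev a) - g (U + ev b)) ^ 2) +
          2 * κ * t.length * Λ ^ 4 * (Dir (cM F) t (β + ev a) g + Dir (cM F) t (β + ev b) g)

/-- **UP** (uses MRG, HAR, SLI). Induction on `t`: variance = sum of the variances inside the slices
`γ_i` (induction) + variance between the slices (HAR with `Z_i = Sm t γ_i F`, log-concave by MRG:
reverse Cauchy–Schwarz for `δ_a, δ_b` at `γ + pt a b i (s-2-i)`; then SLI, each slice is used at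
most twice). -/
def UpStmt : Prop :=
  ∀ (V : Type) [Fintype V] [DecidableEq V] (F : (V → ℕ) → ℝ) (Λ Γ : ℝ), IsL F → 1 ≤ Λ → 0 ≤ Γ →
    (∀ α v, F (α + ev v) ≤ Λ * F α) →
    ∀ (t : List (V × V × ℕ)), (∀ B ∈ t, BlockOK F Λ Γ B) →
    ∀ (γ : V → ℕ) (g : (V → ℕ) → ℝ),
      Sm t γ (fun U => F U * g U ^ 2) - Sm t γ (fun U => F U * g U) ^ 2 / Sm t γ F ≤
        t.length * (2 * Λ ^ 2 + 4 * Γ * t.length * Λ ^ 4) * Dir (cM F) t γ g

section Box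

variable {κ : Type} [Fintype κ] [DecidableEq κ]

/-- the box `0 ≤ x ≤ u` -/
def box (u : κ → ℕ) : Finset (κ → ℕ) := Fintype.piFinset (fun k => range (u k + 1))

/-- the two copies of a point of the box -/
def node (u x : κ → ℕ) : κ × Bool → ℕ := fun p => if p.2 = true then u p.1 - x p.1 else x p.1

/-- unnormalised variance -/
noncomputable def Var {X : Type} (Ω : Finset X) (π f : X → ℝ) : ℝ :=
  ∑ x ∈ Ω, π x * f x ^ 2 - (∑ x ∈ Ω, π x * f x) ^ 2 / ∑ x ∈ Ω, π x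

/-- energy of the jumps of length `d` in direction `k` -/
def Ed (u : κ → ℕ) (π f : (κ → ℕ) → ℝ) (k : κ) (d : ℕ) : ℝ :=
  ∑ x ∈ (box u).filter (fun x => x k + d ≤ u k),
    min (π x) (π (x + Pi.single k d)) * (f (x + Pi.single k d) - f x) ^ 2

/-- the block list of a box -/
noncomputable def blocks (u : κ → ℕ) : List ((κ × Bool) × (κ × Bool) × ℕ) :=
  (Finset.univ : Finset κ).toList.map (fun k => ((k, false), (k, true), u k))

/-- The ideal lazy Metropolis kernel on the box: direction `k` with probability `1/A`, then with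
probability `1/(4 h k)` each a jump `± d`, `1 ≤ d ≤ h k`. -/
noncomputable def offK (u h : κ → ℕ) (A : ℝ) (π : (κ → ℕ) → ℝ) (x y : κ → ℕ) : ℝ :=
  ∑ k, ∑ d ∈ Icc 1 (h k),
    if y ∈ box u ∧ (y = x + Pi.single k d ∨ x = y + Pi.single k d) then
      min 1 (π y / π x) / (4 * A * h k) else 0

/-- the full kernel -/
noncomputable def kerK (u h : κ → ℕ) (A : ℝ) (π : (κ → ℕ) → ℝ) (x y : κ → ℕ) : ℝ :=
  if y = x then 1 - ∑ z ∈ box u, offK u h A π x z else offK u h A π x y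

/-- action of a kernel on functions -/
def Kop {X : Type} (Ω : Finset X) (P : X → X → ℝ) (φ : X → ℝ) (x : X) : ℝ := ∑ y ∈ Ω, P x y * φ y

theorem anchorA2 : True := by
  have := @box.eq_1; have := @node.eq_1; have := @Var.eq_1; have := @Ed.eq_1; have := @blocks.eq_1
  have := @offK.eq_1; have := @kerK.eq_1; have := @Kop.eq_1; have := @LC.eq_1; have := @GLC.eq_1
  have := @Lam.eq_1; have := @lamF.eq_1
  trivial

end Box

/-- **SMB**. Sums over splittings are sums over the box (prove a version for an arbitrary nodup list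
of indices by induction; `δ` is an arbitrary extra base on a bigger variable type through `ι`). -/
def SmbStmt : Prop :=
  ∀ (κ W : Type) [Fintype κ] [DecidableEq κ] [Fintype W] [DecidableEq W] (u : κ → ℕ)
    (ι : κ × Bool → W) (δ : W → ℕ) (Φ : (W → ℕ) → ℝ),
    Sm ((blocks u).map (fun B => (ι B.1, ι B.2.1, B.2.2))) δ Φ =
      ∑ x ∈ box u, Φ (δ + ∑ p, Pi.single (ι p) (node u x p))

/-- **BUP** (uses UP; same induction as SMB for `Dir`). Apply UP with `t = blocks u`, `γ = 0` and the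
test function `U ↦ g (fun k => U (k, false))`. -/
def BupStmt : Prop :=
  ∀ (κ : Type) [Fintype κ] [DecidableEq κ] (u : κ → ℕ) (F : (κ × Bool → ℕ) → ℝ) (Λ Γ : ℝ),
    IsL F → 1 ≤ Λ → 0 ≤ Γ → (∀ α v, F (α + ev v) ≤ Λ * F α) →
    (∀ k, BlockOK F Λ Γ ((k, false), (k, true), u k)) →
    ∀ g : (κ → ℕ) → ℝ, Var (box u) (fun x => F (node u x)) g ≤
      Fintype.card κ * (2 * Λ ^ 2 + 4 * Γ * Fintype.card κ * Λ ^ 4) *
        ∑ k, ((u k : ℝ) + 1) ^ 2 * Ed u (fun x => F (node u x)) g k 1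

/-- **SMO**. From unit steps to long steps. `H k = (h k - 1)/2` (so `H = 0` for `h ≤ 2`), reflection
`φ_k : ℤ → [0,u]` (`t ↦ -1-t` below `0`, `t ↦ 2u+1-t` above `u`; 1-Lipschitz),
`A_k f x = avg_{|U| ≤ H} f (x with x_k := φ(x_k+U))`: a symmetric (doubly stochastic) kernel with
entries `≤ 3/(2H+1)`, supported on `|t - x_k| ≤ H`; `A_k = id` for `H = 0`. For any weight `π'` with
the local Lipschitz property (`π` itself, or `x ↦ min (π x) (π (x + e_l))` on `x_l < u_l`, `l ≠ k`)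
`‖A_k ψ‖² ≤ (1+1/n) ‖ψ‖²`. Let `g = ∏ A_k f` (the operators commute). Then
`‖f - g‖² ≤ e n ∑ ‖f - A_k f‖² ≤ 54 n ∑ E_k`, `∇_k g = ∏_{l ≠ k} A_l ∇_k A_k f`,
`∇_k A_k f x = (f(x[φ(x_k+H+1)]) - f(x[φ(x_k-H)]))/(2H+1)`, and comparing both ends with
`x[φ(x_k+U)]` gives `‖∇_k A_k f‖² ≤ 324 E_k/h²` (for `h ≤ 2`: `≤ 2 E_k`). Finally
`Var f ≤ 2 Var g + 2 ‖f-g‖²`. Here `E_k = (∑_{1 ≤ d ≤ h k} Ed k d)/h k`. -/
def SmoStmt : Prop :=
  ∀ (κ : Type) [Fintype κ] [DecidableEq κ] (u h : κ → ℕ) (π : (κ → ℕ) → ℝ) (C Ξ : ℝ) (n : ℕ),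
    Fintype.card κ ≤ n → 1 ≤ n → 0 ≤ C → (∀ x ∈ box u, 0 < π x) → (∀ k, 1 ≤ h k) →
    (∀ k, (u k : ℝ) + 1 ≤ Ξ * h k) →
    (∀ k, 3 ≤ h k → h k ≤ u k ∧ ∀ x ∈ box u, ∀ d ≤ h k, x k + d ≤ u k →
      π (x + Pi.single k d) ≤ (1 + 1 / n) * π x ∧ π x ≤ (1 + 1 / n) * π (x + Pi.single k d)) →
    (∀ g, Var (box u) π g ≤ C * ∑ k, ((u k : ℝ) + 1) ^ 2 * Ed u π g k 1) →
    ∀ f, Var (box u) π f ≤
      4000 * (C * Ξ ^ 2 + n) * ∑ k, (∑ d ∈ Icc 1 (h k), Ed u π f k d) / h k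

/-- **KER**. The ideal kernel is stochastic, lazy, reversible, with the expected Dirichlet form
(`offK x x = 0`; each `x` has at most two neighbours for given `k, d`). -/
def KerStmt : Prop :=
  ∀ (κ : Type) [Fintype κ] [DecidableEq κ] (u h : κ → ℕ) (A : ℝ) (π : (κ → ℕ) → ℝ),
    (Fintype.card κ : ℝ) ≤ A → 0 < A → (∀ x ∈ box u, 0 < π x) → (∀ k, 1 ≤ h k) →
    (∀ x ∈ box u, ∀ y ∈ box u, 0 ≤ kerK u h A π x y ∧ π x * kerK u h A π x y = π y * kerK u h A π y x) ∧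
    (∀ x ∈ box u, ∑ y ∈ box u, kerK u h A π x y = 1 ∧ 1 / 2 ≤ kerK u h A π x x) ∧
    ∀ f : (κ → ℕ) → ℝ, ∑ x ∈ box u, ∑ y ∈ box u, π x * kerK u h A π x y * (f x - f y) ^ 2 =
      (∑ k, (∑ d ∈ Icc 1 (h k), Ed u π f k d) / h k) / (2 * A)

/-- **MIX**. For mean-zero `f`: `‖Kf‖² = ‖f‖² - E_{K²}(f)` and `K²(x,y) ≥ K(x,y)` for `x ≠ y` by
laziness, so `‖Kf‖² ≤ (1 - 1/C)‖f‖²`; `K` keeps the mean; `π x₀ (Kᵀ f x₀)² ≤ ‖Kᵀ f‖²`. -/
def MixStmt : Prop :=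
  ∀ (X : Type) (Ω : Finset X) (π : X → ℝ) (P : X → X → ℝ) (C : ℝ), 1 ≤ C → (∀ x ∈ Ω, 0 < π x) →
    (∀ x ∈ Ω, ∀ y ∈ Ω, 0 ≤ P x y ∧ π x * P x y = π y * P y x) →
    (∀ x ∈ Ω, ∑ y ∈ Ω, P x y = 1 ∧ 1 / 2 ≤ P x x) →
    (∀ f, 2 * Var Ω π f ≤ C * ∑ x ∈ Ω, ∑ y ∈ Ω, π x * P x y * (f x - f y) ^ 2) →
    ∀ (φ : X → ℝ), (∀ x ∈ Ω, |φ x| ≤ 1) → ∀ x₀ ∈ Ω, ∀ T : ℕ,
      ((Kop Ω P)^[T] φ x₀ - (∑ x ∈ Ω, π x * φ x) / ∑ x ∈ Ω, π x) ^ 2 ≤
        (∑ x ∈ Ω, π x) / π x₀ * (1 - 1 / C) ^ T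

/-- **MAR** (uses LAM, MRG, SMB). Marginals of laminar products on a box are log-concave. Add two
variables `z, z'` (`W = (κ × Bool) ⊕ Bool`): `z ∈ S' j` iff `j = i₀ ∨ (S i₀ ⊆ S j ∧ S i₀ ≠ ∅)`,
`z' ∈ S' j` iff `j ≠ i₀ ∧ S i₀ ⊆ S j ∧ S i₀ ≠ ∅` (still laminar). Replace `χ i₀` by `ε^|·|`
(`0 < ε ≤ 1`), shift the offsets, and let `W_ε(δ)` be the merged function at the base with `δ` units
at `z` and `D - δ` at `z'`: reverse Cauchy–Schwarz for `δ_z, δ_z'` makes `W_ε` a positive log-concave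
sequence on `0 … D`, hence log-concave in the global form; `W_ε(δ) → g(d₀ - δ)` as `ε → 0`
(a polynomial in `ε`). -/
def MarStmt : Prop :=
  ∀ (ι κ : Type) [DecidableEq ι] [Fintype κ] [DecidableEq κ] (u : κ → ℕ) (I : Finset ι)
    (S : ι → Finset (κ × Bool)) (χ : ι → ℤ → ℝ) (off : ι → ℤ) (i₀ : ι), Lam I S → i₀ ∈ I →
    (∀ i ∈ I, LC (χ i)) →
    GLC (fun d => ∑ x ∈ (box u).filter (fun x => (∑ a ∈ S i₀, (node u x a : ℤ)) - off i₀ = d),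
      lamF (I.erase i₀) S χ off (node u x))

/-- **DES**. `q d = g d * l^|d|`. With `s = q 1 / q 0`: `q (d+1) ≤ s q d` for `d ≥ 1`, so the
hypothesis forces `s ≥ η/2`; `q (-1)/q 0 ≤ l²/s ≤ η/18`, `q (-d) ≤ q 0 (η/18)^d`,
`ρ^d - 1 ≤ 2^d/M`; loss `≤ q 0 η/(8M)`, gain `≥ η/(2M) ∑ q`. -/
def DesStmt : Prop :=
  ∀ (g : ℤ → ℝ) (D M : ℕ) (η l : ℝ), GLC g → 0 < g 0 → 1 ≤ M → 0 < η → η ≤ 1 → 0 < l → l ≤ η / 6 →
    η * ∑ d ∈ Icc (-(D : ℤ)) D, g d * l ^ d.natAbs ≤ ∑ d ∈ Icc (1 : ℤ) D, g d * l ^ d.natAbs →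
    ∑ d ∈ Icc (-(D : ℤ)) D, g d * l ^ d.natAbs * (1 + 1 / (M : ℝ)) ^ (-d) ≤
      (1 - η / (4 * M)) * ∑ d ∈ Icc (-(D : ℤ)) D, g d * l ^ d.natAbs

/-- **WAL**. If `g hi = 0` all later values vanish. Otherwise `g > 0` on `[lo,hi]`; `ℓ = w/(2n)`,
`ρ = g(t+1)/g t` at `t = lo + nℓ - 1` has `ρ^(nℓ) ≤ 2^n`, so `ρ^ℓ ≤ 2`, and all later ratios are
`≤ ρ`: `g(hi-d) ≥ g hi/2` for `d < ℓ`, `g(hi+d) ≤ 2·2^(d/ℓ) g hi`. With `σ = ℓ/(256 n) ≥ 1`: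
the terms `d ≤ σ` give `≤ 4σ g hi`; for `d > σ`, `(1-d²/L²)^J ≤ exp(-2d/σ)` (`J σ²/L² ≥ 2`), the terms
are `≤ 2 exp(-d/σ) g hi`, total `≤ 2σ g hi`. -/
def WalStmt : Prop :=
  ∀ (g : ℤ → ℝ) (lo : ℤ) (w n J D : ℕ), GLC g → 1 ≤ n → 2 ^ 30 * n ^ 8 ≤ J → 2 ^ 30 * n ^ 8 ≤ w →
    D ≤ n * w → 1 ≤ g lo → (∀ t, lo ≤ t → t ≤ lo + w → g t ≤ 2 ^ n) →
    8 * n * ∑ d ∈ Icc 1 D, g (lo + w + d) * (1 - (d : ℝ) ^ 2 / (2 * n ^ 2 * w) ^ 2) ^ J ≤
      ∑ t ∈ Icc lo (lo + w), g t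

/-- The wall profile: `1 - d²/L²` up to `L/2`, continued geometrically. -/
noncomputable def wall (L d : ℕ) : ℝ :=
  (1 - ((min d (L / 2) : ℕ) : ℝ) ^ 2 / (L : ℝ) ^ 2) *
    ((1 - ((L / 2 : ℕ) : ℝ) ^ 2 / (L : ℝ) ^ 2) / (1 - (((L / 2 : ℕ) : ℝ) - 1) ^ 2 / (L : ℝ) ^ 2)) ^
      (d - L / 2)

/-- distance of `t` from `[lo, hi]` -/
def dst (lo hi t : ℤ) : ℤ := max 0 (max (lo - t) (t - hi))

/-- **WF**. Properties of `ψ t = wall L (dst lo hi t)`: positive, log-concave, ratio of neighbours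
at most `1 + 2/L`, curvature at most `5/L²`. -/
def WfStmt : Prop :=
  ∀ (L : ℕ) (lo hi : ℤ), 8 ≤ L → lo < hi →
    LC (fun t => wall L (dst lo hi t).toNat) ∧
    (∀ t, wall L (dst lo hi t).toNat ≤ 1) ∧
    (∀ t, wall L (dst lo hi (t + 1)).toNat ≤ (1 + 2 / L) * wall L (dst lo hi t).toNat ∧
      wall L (dst lo hi t).toNat ≤ (1 + 2 / L) * wall L (dst lo hi (t + 1)).toNat) ∧
    (∀ t, (1 - 5 / (L : ℝ) ^ 2) * wall L (dst lo hi t).toNat ^ 2 ≤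
      wall L (dst lo hi (t - 1)).toNat * wall L (dst lo hi (t + 1)).toNat) ∧
    ∀ d : ℕ, 2 * d ≤ L → wall L d = 1 - (d : ℝ) ^ 2 / (L : ℝ) ^ 2

theorem anchorA3 : True := by
  have := @wall.eq_1; have := @dst.eq_1
  trivial

end Crest.Agent.R309
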