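import Crest.Agent.R309.DefsC

/-! Row 309, task STR1: sure invariants of the sampler. -/

set_option autoImplicit false

namespace Crest.Agent.R309

open Finset Crest.Agent.PT Crest.Agent.QC Crest.Agent.R317 Crest.Agent.R300U

namespace STR1

theorem zer_eq (P : Pre) : zer P = toL (0 : Fin (nA (gG P)) → ℕ) := by
  unfold zer toL
  apply List.ext_getElem <;> simp

theorem zero_mem (P : Pre) : (0 : Fin (nA (gG P)) → ℕ) ∈ bx P := by
  unfold bx box
  rw [Fintype.mem_piFinset]
  intro k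
  simp

end STR1

theorem STR1_proof (hKt : KtStmt) (hAnn : AnnStmt) (hBij : BijStmt) : Str1Stmt := by
  intro P hP k X₀ hX₀ t s hs
  induction hs with
  | init =>
    refine ⟨⟨X₀, hX₀, rfl⟩, by simp, ⟨le_rfl, fun v => by simp⟩, 0, STR1.zero_mem P, STR1.zer_eq P⟩
  | @step t s u _ ih =>
    obtain ⟨h1, h2, h3, y, hy, h4⟩ := ih
    unfold sstep
    split_ifs with c1 c2 c3
    · have := ((hAnn P hP 1 le_rfl).1 u)
      exact ⟨h1, this.2.2.1, this.2.1, 0, STR1.zero_mem P, STR1.zer_eq P⟩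
    · refine ⟨h1, h2, h3, ?_⟩
      have := ((hKt.2 P hP _ _ h3 y hy).1 (fld u 0 (b1 P)))
      simpa [h4] using this
    · refine ⟨?_, h2, h3, y, hy, h4⟩
      have := (hBij P hP).2.1 y hy (h4 ▸ c3.2)
      simpa [h4] using this
    · exact ⟨h1, h2, h3, y, hy, h4⟩

end Crest.Agent.R309
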